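import Claimed.Agent.R286.Pe6.Defs

/-!
# Row 286 (S0533), PE Section 6, file Pe6/Agree : THE MODEL-FREE HALF OF LEMMA 6.5      (owner helper101; prefix `p6_ag_`; sorry free)

TEX[PE:reg:successful-child] (propagation.tex l.464-529).   "Agreement in normalised mass measure + Helly" of the paper is REPLACED by the plain statement `P6NoSep`
(no threshold separation at any scale `y ≳ x`; = note P12 of helper14, L6.5 (i)); everything else is monotonicity along the ultrafilter.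
* `P6NoSep U r z x`   for every scale `y` with `x ≤ G y`, `y ≤ 1`, `c2 y ≤ 1` and all fixed thresholds: neither `P6SepUp` nor `P6SepDn` along `U`.      (SUPPLIER: helper74, `Pe6/Succ.lean`, from L6.3 + L6.4; the def is HIS shape, verbatim.)
* `P6Ag U r z x w`    the standing hypotheses: both quantiles monotone with values in `[0,1]` on `[w,1]`, `w = o(x)`, `0 < x ≤ 1`, `P6NoSep`.
* `p6_ag_reg`         the child inherits a regular outer region above `x`, constants `(cl/4, 4 Ch, 2 C0)`            (l.503-511)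
* `p6_ag_transfer`    the limit (28) of the child transfers to the parent                                              (l.512-516)
* `p6_ag_macro`       macroscopic scales: the two-sided bounds of the child's limit transfer to the `U`-limit of the parent  (l.517-520)
-/

set_option autoImplicit false

namespace Claimed.Agent.R286

open Filter Topology Set Asymptotics

/-- TEX[PE:reg:successful-child] l.474-500 = **L6.5 (i)**: no threshold separation between the parent `r` and the child `z` at any sequence of scales `x ≲ y ≤ 1`      (shape of helper74, who proves it) -/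
def P6NoSep (U : Ultrafilter ℕ) (r z : ℕ → ℝ → ℝ) (x : ℕ → ℝ) : Prop :=
  ∀ (y : ℕ → ℝ) (G : ℝ), 0 < G → (∀ᶠ k in U, x k ≤ G * y k ∧ y k ≤ 1) →
    (∀ θ1 θ2 c1 c2 : ℝ, 0 < θ1 → θ1 < θ2 → 0 < c1 → c1 < c2 → (∀ᶠ k in U, c2 * y k ≤ 1) →
      ¬ ∀ᶠ k in U, P6SepUp (r k) (z k) (y k) θ1 θ2 c1 c2) ∧
    (∀ θ1 θ2 c1 c2 Cr : ℝ, 0 < θ1 → θ1 < θ2 → 0 < c1 → c1 < c2 → (∀ᶠ k in U, c2 * y k ≤ 1) →
      ¬ ∀ᶠ k in U, P6SepDn (r k) (z k) (y k) θ1 θ2 c1 c2 Cr)

/-- standing hypotheses of the model-free half of Lemma 6.5 -/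
structure P6Ag (U : Ultrafilter ℕ) (r z : ℕ → ℝ → ℝ) (x w : ℕ → ℝ) : Prop where
  x_rng : ∀ᶠ k in U, 0 < x k ∧ x k ≤ 1
  w_small : ∀ ε : ℝ, 0 < ε → ∀ᶠ k in U, w k ≤ ε * x k
  r_mono : ∀ᶠ k in U, MonotoneOn (r k) (Icc (w k) 1)
  z_mono : ∀ᶠ k in U, MonotoneOn (z k) (Icc (w k) 1)
  r_rng : ∀ᶠ k in U, ∀ u ∈ Icc (w k) 1, 0 ≤ r k u ∧ r k u ≤ 1
  z_rng : ∀ᶠ k in U, ∀ u ∈ Icc (w k) 1, 0 ≤ z k u ∧ z k u ≤ 1
  nosep : P6NoSep U r z x

variable {U : Ultrafilter ℕ} {r z : ℕ → ℝ → ℝ} {x w : ℕ → ℝ}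

/-- the form of `P6NoSep` which is used below -/
theorem p6_ag_ns (h : P6NoSep U r z x) (y : ℕ → ℝ) (θ1 θ2 c1 c2 Cr : ℝ) (h1 : 0 < θ1) (h2 : θ1 < θ2) (h3 : 0 < c1) (h4 : c1 < c2)
    (hy : ∀ᶠ k in U, c2 * y k ≤ 1) (hxy : ∀ᶠ k in U, x k ≤ y k ∧ y k ≤ 1) :
    ∀ᶠ k in U, ¬ P6SepUp (r k) (z k) (y k) θ1 θ2 c1 c2 ∧ ¬ P6SepDn (r k) (z k) (y k) θ1 θ2 c1 c2 Cr := by
  have H := h y 1 one_pos (hxy.mono fun k hk => ⟨by rw [one_mul]; exact hk.1, hk.2⟩)
  have a := H.1 θ1 θ2 c1 c2 h1 h2 h3 h4 hy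
  have b := H.2 θ1 θ2 c1 c2 Cr h1 h2 h3 h4 hy
  rw [← Ultrafilter.eventually_not] at a b
  exact a.and b

theorem p6_ag_false {p : Prop} (h : ∀ᶠ _k : ℕ in (U : Filter ℕ), False) : p :=
  (U.neBot.ne (by simpa using h)).elim

/-- TEX[PE:reg:successful-child] l.503-511: the child has a regular outer region above `x` -/
theorem p6_ag_reg (h : P6Ag U r z x w) {cl Ch C0 : ℝ} (hcl : 0 < cl) (hCh : 1 ≤ Ch) (hC0 : 1 ≤ C0)
    (hreg : ∀ᶠ k in U, P6Reg (w k) (r k) cl Ch C0 (x k)) :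
    ∀ᶠ k in U, ∀ j : ℝ, P6Reg j (z k) (cl / 4) (4 * Ch) (2 * C0) (x k) := by
  classical
  by_contra hcon
  rw [← Ultrafilter.eventually_not] at hcon
  -- choose the offending masses
  have hex : ∀ k, ∃ u : ℝ, (¬ ∀ j : ℝ, P6Reg j (z k) (cl / 4) (4 * Ch) (2 * C0) (x k)) →
      (2 * C0 * x k ≤ u ∧ u ≤ 1 ∧ (z k u < cl / 4 * u ∨ 4 * Ch * u < z k u)) := by
    intro k
    by_cases hk : ∀ j : ℝ, P6Reg j (z k) (cl / 4) (4 * Ch) (2 * C0) (x k)
    · exact ⟨0, fun h' => absurd hk h'⟩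
    · have hk' := hk
      simp only [P6Reg, not_forall] at hk'
      obtain ⟨j, u, h1, h2, _, h4⟩ := hk'
      refine ⟨u, fun _ => ⟨h1, h2, ?_⟩⟩
      by_contra h5
      rw [not_or, not_lt, not_lt] at h5
      exact h4 ⟨h5.1, h5.2⟩
  choose u hu using hex
  have hu' : ∀ᶠ k in U, 2 * C0 * x k ≤ u k ∧ u k ≤ 1 ∧ (z k (u k) < cl / 4 * u k ∨ 4 * Ch * u k < z k (u k)) :=
    hcon.mono fun k hk => hu k hk
  have hxu : ∀ᶠ k in U, 0 < x k ∧ x k ≤ u k ∧ C0 * x k ≤ u k / 2 := by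
    filter_upwards [hu', h.x_rng] with k h1 h2
    refine ⟨h2.1, ?_, by linarith [h1.1]⟩
    have : x k ≤ C0 * x k := le_mul_of_one_le_left h2.1.le hC0
    have h3 : 0 ≤ C0 * x k := mul_nonneg (by linarith) h2.1.le
    linarith [h1.1]
  have hO : ∀ᶠ k in U, x k ≤ u k ∧ u k ≤ 1 := by
    filter_upwards [hxu, hu'] with k h1 h2
    exact ⟨h1.2.1, h2.2.1⟩
  have hw : ∀ᶠ k in U, w k ≤ u k / 2 := by
    filter_upwards [h.w_small 1 one_pos, hxu] with k h1 h2
    have : x k ≤ C0 * x k := le_mul_of_one_le_left h2.1.le hC0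
    linarith [h2.2.2]
  have hsplit : (∀ᶠ k in U, z k (u k) < cl / 4 * u k) ∨ (∀ᶠ k in U, 4 * Ch * u k < z k (u k)) :=
    Ultrafilter.eventually_or.1 (hu'.mono fun k hk => hk.2.2)
  rcases hsplit with hA | hB
  · -- downward separation on `[u/2, u]`
    have hns := p6_ag_ns h.nosep u (cl / 4) (cl / 2) (1 / 2) 1 Ch (by positivity) (by linarith) (by norm_num) (by norm_num)
      (by filter_upwards [hu'] with k h1; linarith [h1.2.1]) hO
    have : ∀ᶠ _k : ℕ in (U : Filter ℕ), False := by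
      filter_upwards [hns, hA, hu', hxu, hw, hreg, h.z_mono] with k h1 h2 h3 h4 h5 h6 h7
      refine h1.2 fun v hv1 hv2 => ?_
      have hv1' : u k / 2 ≤ v := by linarith
      have hv2' : v ≤ u k := by linarith
      have hv3 : v ≤ 1 := hv2'.trans h3.2.1
      have hr := h6 v (h4.2.2.trans hv1') hv3 (h5.trans hv1')
      have hz := h7 ⟨h5.trans hv1', hv3⟩ ⟨h5.trans (hv1'.trans hv2'), h3.2.1⟩ hv2'
      have hu0 : 0 < u k := lt_of_lt_of_le h4.1 h4.2.1
      refine ⟨hz.trans h2.le, ?_, ?_⟩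
      · have : cl * (u k / 2) ≤ cl * v := mul_le_mul_of_nonneg_left hv1' hcl.le
        linarith [hr.1]
      · have : Ch * v ≤ Ch * u k := mul_le_mul_of_nonneg_left hv2' (by linarith)
        linarith [hr.2]
    exact (U.neBot.ne (by simpa using this)).elim
  · -- upward separation on `[u, 2u]`
    have hsmall : ∀ᶠ k in U, 2 * u k ≤ 1 := by
      filter_upwards [hB, hu', hxu, hw, h.z_rng] with k h1 h2 h3 h4 h5
      have hu0 : 0 < u k := lt_of_lt_of_le h3.1 h3.2.1
      have h6 := (h5 (u k) ⟨by linarith, h2.2.1⟩).2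
      have : 4 * u k ≤ 4 * Ch * u k := by nlinarith
      linarith
    have hns := p6_ag_ns h.nosep u (2 * Ch) (4 * Ch) 1 2 1 (by linarith) (by linarith) (by norm_num) (by norm_num) hsmall hO
    have : ∀ᶠ _k : ℕ in (U : Filter ℕ), False := by
      filter_upwards [hns, hB, hu', hxu, hw, hreg, h.z_mono, hsmall] with k h1 h2 h3 h4 h5 h6 h7 h8
      refine h1.1 fun v hv1 hv2 => ?_
      have hu0 : 0 < u k := lt_of_lt_of_le h4.1 h4.2.1
      have hv1' : u k ≤ v := by linarith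
      have hv3 : v ≤ 1 := by linarith
      have hwv : w k ≤ v := by linarith
      have hr := h6 v (by linarith [h4.2.2]) hv3 hwv
      have hz := h7 ⟨by linarith, h3.2.1⟩ ⟨hwv, hv3⟩ hv1'
      refine ⟨?_, h2.le.trans hz⟩
      have : Ch * v ≤ Ch * (2 * u k) := mul_le_mul_of_nonneg_left hv2 (by linarith)
      linarith [hr.2]
    exact (U.neBot.ne (by simpa using this)).elim

/-- TEX[PE:reg:successful-child] l.512-516: transfer of the limit (28) from the child to the parent -/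
theorem p6_ag_transfer (h : P6Ag U r z x w) (hx : Tendsto x U (𝓝 0)) {cl Ch C0 κ : ℝ} (hCh : 0 < Ch) (hC0 : 0 < C0)
    (hreg : ∀ᶠ k in U, P6Reg (w k) (r k) cl Ch C0 (x k)) (hκ : 0 < κ)
    (hz : ∀ v : ℝ, 0 < v → Tendsto (fun k => z k (x k * v) / x k) U (𝓝 (v / κ))) :
    ∀ v : ℝ, 0 < v → Tendsto (fun k => r k (x k * v) / x k) U (𝓝 (v / κ)) := by
  intro v hv
  have hO : ∀ᶠ k in U, x k ≤ x k ∧ x k ≤ 1 := h.x_rng.mono fun k hk => ⟨le_rfl, hk.2⟩
  have hxs : ∀ c : ℝ, 0 < c → ∀ᶠ k in U, c * x k ≤ 1 := by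
    intro c hc
    have h1 : ∀ᶠ k in U, x k < 1 / c := (tendsto_order.1 hx).2 _ (by positivity)
    filter_upwards [h1] with k hk
    have := mul_le_mul_of_nonneg_left hk.le hc.le
    rwa [mul_one_div_cancel hc.ne'] at this
  have hL : 0 < v / κ := div_pos hv hκ
  refine tendsto_order.2 ⟨fun a ha => ?_, fun b hb => ?_⟩
  · -- lower bound: upward separation on `[(v-ρ) x, v x]`
    by_contra hcon
    rw [← Ultrafilter.eventually_not] at hcon
    set a' := max a (v / κ / 2) with ha'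
    have ha1 : a' < v / κ := max_lt ha (by linarith)
    have ha0 : 0 < a' := lt_of_lt_of_le (by linarith) (le_max_right _ _)
    set ε := v / κ - a' with hε
    have hε0 : 0 < ε := by linarith
    set ρ := min (v / 2) (κ * ε / 6) with hρ
    have hρ0 : 0 < ρ := lt_min (by linarith) (by positivity)
    have hρv : 0 < v - ρ := by have := min_le_left (v / 2) (κ * ε / 6); linarith
    have hρκ : v / κ - ε / 6 ≤ (v - ρ) / κ := by
      have h1 : ρ / κ ≤ ε / 6 := by
        rw [div_le_iff₀ hκ]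
        have := min_le_right (v / 2) (κ * ε / 6)
        linarith
      have e : (v - ρ) / κ = v / κ - ρ / κ := sub_div _ _ _
      rw [e]
      linarith
    have hz1 : ∀ᶠ k in U, v / κ - ε / 3 < z k (x k * (v - ρ)) / x k :=
      (tendsto_order.1 (hz _ hρv)).1 _ (by linarith)
    have hns := p6_ag_ns h.nosep x a' (v / κ - ε / 3) (v - ρ) v 1 ha0 (by linarith) hρv (by linarith) (hxs v hv) hO
    refine p6_ag_false (U := U) ?_
    filter_upwards [hns, hcon, hz1, h.x_rng, hxs v hv, h.w_small _ hρv, h.r_mono, h.z_mono] with k h1 h2 h3 h4 h5 h6 h7 h8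
    refine h1.1 fun u hu1 hu2 => ?_
    have hx0 := h4.1
    have hu3 : u ≤ 1 := hu2.trans h5
    have hwu : w k ≤ u := h6.trans hu1
    have e1 : x k * v = v * x k := mul_comm _ _
    have e2 : x k * (v - ρ) = (v - ρ) * x k := mul_comm _ _
    have hr := h7 ⟨hwu, hu3⟩ ⟨hwu.trans hu2, h5⟩ hu2
    have hzz := h8 ⟨h6, hu1.trans hu3⟩ ⟨hwu, hu3⟩ hu1
    rw [not_lt, div_le_iff₀ hx0, e1] at h2
    rw [lt_div_iff₀ hx0, e2] at h3
    refine ⟨hr.trans (h2.trans ?_), h3.le.trans hzz⟩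
    exact mul_le_mul_of_nonneg_right (le_max_left _ _) hx0.le
  · -- upper bound: downward separation on `[v x, (v+ρ) x]`
    by_contra hcon
    rw [← Ultrafilter.eventually_not] at hcon
    set ε := b - v / κ with hε
    have hε0 : 0 < ε := by linarith
    set ρ := κ * ε / 6 with hρ
    have hρ0 : 0 < ρ := by positivity
    have hρκ : (v + ρ) / κ = v / κ + ε / 6 := by
      rw [hρ]
      field_simp
    have hz1 : ∀ᶠ k in U, z k (x k * (v + ρ)) / x k < v / κ + ε / 3 :=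
      (tendsto_order.1 (hz _ (by linarith))).2 _ (by linarith)
    set Cr := Ch * max C0 (v + ρ) with hCr
    have hCr0 : 0 < Cr := mul_pos hCh (lt_max_of_lt_left hC0)
    have hns := p6_ag_ns h.nosep x (v / κ + ε / 3) b v (v + ρ) Cr (by linarith) (by linarith) hv (by linarith) (hxs (v + ρ) (by linarith)) hO
    refine p6_ag_false (U := U) ?_
    filter_upwards [hns, hcon, hz1, h.x_rng, hxs (v + ρ) (by linarith), h.w_small _ hv, h.r_mono, h.z_mono, hreg, hxs C0 hC0]
      with k h1 h2 h3 h4 h5 h6 h7 h8 h9 h10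
    refine h1.2 fun u hu1 hu2 => ?_
    have hx0 := h4.1
    have hu3 : u ≤ 1 := hu2.trans h5
    have hwu : w k ≤ u := h6.trans hu1
    have e1 : x k * v = v * x k := mul_comm _ _
    have e2 : x k * (v + ρ) = (v + ρ) * x k := mul_comm _ _
    have hr := h7 ⟨h6, hu1.trans hu3⟩ ⟨hwu, hu3⟩ hu1
    have hzz := h8 ⟨hwu, hu3⟩ ⟨hwu.trans hu2, h5⟩ hu2
    rw [not_lt, le_div_iff₀ hx0, e1] at h2
    rw [div_lt_iff₀ hx0, e2] at h3
    refine ⟨hzz.trans h3.le, h2.trans hr, ?_⟩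
    rcases le_total (C0 * x k) u with hc | hc
    · have h11 := (h9 u hc hu3 hwu).2
      have h12 : Ch * u ≤ Ch * ((v + ρ) * x k) := mul_le_mul_of_nonneg_left hu2 hCh.le
      have h13 : Ch * ((v + ρ) * x k) ≤ Cr * x k := by
        rw [hCr, mul_assoc]
        exact mul_le_mul_of_nonneg_left (mul_le_mul_of_nonneg_right (le_max_right _ _) hx0.le) hCh.le
      linarith
    · have h11 := (h9 (C0 * x k) le_rfl h10 (hwu.trans hc)).2
      have h12 := h7 ⟨hwu, hu3⟩ ⟨hwu.trans hc, h10⟩ hc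
      have h13 : Ch * (C0 * x k) ≤ Cr * x k := by
        rw [hCr, mul_assoc]
        exact mul_le_mul_of_nonneg_left (mul_le_mul_of_nonneg_right (le_max_left _ _) hx0.le) hCh.le
      linarith

/-- TEX[PE:reg:successful-child] l.517-520: macroscopic scales -/
theorem p6_ag_macro (h : P6Ag U r z x w) {q : ℝ → ℝ} {cT CT : ℝ} (hcT : 0 < cT)
    (hq : ∀ v, 0 < v → v < 1 → cT * v ≤ q v ∧ q v ≤ CT * v)
    (hz : ∀ v : ℝ, 0 < v → v < 1 → Tendsto (fun k => z k v) U (𝓝 (q v))) :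
    ∃ q' : ℝ → ℝ, (∀ v, 0 < v → v < 1 → cT * v ≤ q' v ∧ q' v ≤ CT * v) ∧
      ∀ v : ℝ, 0 < v → v < 1 → Tendsto (fun k => r k v) U (𝓝 (q' v)) := by
  have hCT : 0 < CT := by
    have := hq (1 / 2) (by norm_num) (by norm_num)
    nlinarith [this.1, this.2]
  have hO : ∀ᶠ k in U, x k ≤ (fun _ : ℕ => (1 : ℝ)) k ∧ (fun _ : ℕ => (1 : ℝ)) k ≤ 1 := h.x_rng.mono fun k hk => ⟨hk.2, le_rfl⟩
  have hws : ∀ c : ℝ, 0 < c → ∀ᶠ k in U, w k ≤ c := by
    intro c hc
    filter_upwards [h.w_small c hc, h.x_rng] with k h1 h2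
    have : c * x k ≤ c * 1 := mul_le_mul_of_nonneg_left h2.2 hc.le
    linarith
  have key : ∀ v : ℝ, ∃ L : ℝ, 0 < v → v < 1 → (cT * v ≤ L ∧ L ≤ CT * v) ∧ Tendsto (fun k => r k v) U (𝓝 L) := by
    intro v
    by_cases hv : 0 < v ∧ v < 1
    swap
    · exact ⟨0, fun h1 h2 => absurd ⟨h1, h2⟩ hv⟩
    obtain ⟨hv0, hv1⟩ := hv
    have hmem : ∀ᶠ k in U, r k v ∈ Icc (0 : ℝ) 1 := by
      filter_upwards [h.r_rng, hws v hv0] with k h1 h2
      exact h1 v ⟨h2, hv1.le⟩
    obtain ⟨L, hL, hLt⟩ := (isCompact_Icc (a := (0 : ℝ)) (b := 1)).ultrafilter_le_nhds (U.map fun k => r k v)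
      (by rw [le_principal_iff]; exact hmem)
    have hLt' : Tendsto (fun k => r k v) U (𝓝 L) := hLt
    refine ⟨L, fun _ _ => ⟨⟨?_, ?_⟩, hLt'⟩⟩
    · -- lower bound: upward separation on `[v', v]`
      by_contra hcon
      rw [not_le] at hcon
      set gap := cT * v - L with hgap
      have hg0 : 0 < gap := by linarith
      set η := min (v / 2) (gap / (6 * cT)) with hη
      have hη0 : 0 < η := lt_min (by linarith) (by positivity)
      have hηv : 0 < v - η := by have := min_le_left (v / 2) (gap / (6 * cT)); linarith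
      have hηc : cT * η ≤ gap / 6 := by
        have h1 := min_le_right (v / 2) (gap / (6 * cT))
        have h2 : cT * η ≤ cT * (gap / (6 * cT)) := mul_le_mul_of_nonneg_left h1 hcT.le
        have h3 : cT * (gap / (6 * cT)) = gap / 6 := by field_simp
        linarith
      have hv'1 : v - η < 1 := by linarith
      have hz1 : ∀ᶠ k in U, cT * v - gap / 3 < z k (v - η) :=
        (tendsto_order.1 (hz _ hηv hv'1)).1 _ (by have := (hq _ hηv hv'1).1; nlinarith)
      have hr1 : ∀ᶠ k in U, r k v < L + gap / 3 := (tendsto_order.1 hLt').2 _ (by linarith)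
      have hns := p6_ag_ns h.nosep (fun _ => 1) (L + gap / 3) (cT * v - gap / 3) (v - η) v 1 (by linarith [hL.1]) (by linarith) hηv (by linarith)
        (Eventually.of_forall fun _ => by linarith) hO
      refine p6_ag_false (U := U) ?_
      filter_upwards [hns, hz1, hr1, hws _ hηv, h.r_mono, h.z_mono] with k h1 h2 h3 h4 h5 h6
      refine h1.1 fun u hu1 hu2 => ?_
      rw [mul_one] at hu1 hu2
      have hu3 : u ≤ 1 := hu2.trans hv1.le
      have hwu : w k ≤ u := h4.trans hu1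
      have hr := h5 ⟨hwu, hu3⟩ ⟨hwu.trans hu2, hv1.le⟩ hu2
      have hzz := h6 ⟨h4, hv'1.le⟩ ⟨hwu, hu3⟩ hu1
      rw [mul_one, mul_one]
      exact ⟨hr.trans h3.le, h2.le.trans hzz⟩
    · -- upper bound: downward separation on `[v, v']`
      by_contra hcon
      rw [not_le] at hcon
      set gap := L - CT * v with hgap
      have hg0 : 0 < gap := by linarith
      set η := min ((1 - v) / 2) (gap / (6 * CT)) with hη
      have hη0 : 0 < η := lt_min (by linarith) (by positivity)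
      have hηv : v + η < 1 := by have := min_le_left ((1 - v) / 2) (gap / (6 * CT)); linarith
      have hηc : CT * η ≤ gap / 6 := by
        have h1 := min_le_right ((1 - v) / 2) (gap / (6 * CT))
        have h2 : CT * η ≤ CT * (gap / (6 * CT)) := mul_le_mul_of_nonneg_left h1 hCT.le
        have h3 : CT * (gap / (6 * CT)) = gap / 6 := by field_simp
        linarith
      have hv'0 : 0 < v + η := by linarith
      have hz1 : ∀ᶠ k in U, z k (v + η) < CT * v + gap / 3 :=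
        (tendsto_order.1 (hz _ hv'0 hηv)).2 _ (by have := (hq _ hv'0 hηv).2; nlinarith)
      have hr1 : ∀ᶠ k in U, L - gap / 3 < r k v := (tendsto_order.1 hLt').1 _ (by linarith)
      have hCv : 0 < CT * v := mul_pos hCT hv0
      have hns := p6_ag_ns h.nosep (fun _ => 1) (CT * v + gap / 3) (L - gap / 3) v (v + η) 1 (by linarith) (by linarith) hv0 (by linarith)
        (Eventually.of_forall fun _ => by linarith) hO
      refine p6_ag_false (U := U) ?_
      filter_upwards [hns, hz1, hr1, hws _ hv0, h.r_mono, h.z_mono, h.r_rng] with k h1 h2 h3 h4 h5 h6 h7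
      refine h1.2 fun u hu1 hu2 => ?_
      rw [mul_one] at hu1 hu2
      have hu3 : u ≤ 1 := hu2.trans hηv.le
      have hwu : w k ≤ u := h4.trans hu1
      have hr := h5 ⟨h4, hv1.le⟩ ⟨hwu, hu3⟩ hu1
      have hzz := h6 ⟨hwu, hu3⟩ ⟨hwu.trans hu2, hηv.le⟩ hu2
      rw [mul_one, mul_one, mul_one]
      exact ⟨hzz.trans h2.le, h3.le.trans hr, (h7 u ⟨hwu, hu3⟩).2⟩
  choose q' hq' using key
  exact ⟨q', fun v h0 h1 => (hq' v h0 h1).1, fun v h0 h1 => (hq' v h0 h1).2⟩

end Claimed.Agent.R286
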