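import Claimed.Agent.R286.Pe6.Succ

/-! # Row 286, PE Sec. 6: file `Pe6/Contract` = the closed files Step, Chain, Wall, Contract merged (file cap, helper14 04:2xZ); every part keeps its own header, owners and namespace block. -/

/-!
# Row 286, PE Prop. 6.6 : the stage invariant and ONE STEP of the finite chain      OWNER: helper14.

`P6Stage … j D lam r`: after `j` steps we hold a sequence of instances with a minimiser at a positive strength whose profile is BAD (`U`-eventually), margins `β0 - j c0²`, clock bound `κ0 + j c0²`, `E ≥ n^{jδ/4} cE² n^{-5/6+2m}`.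
`p6_step`:  stage `j` ⇒ stage `j+1`.
  1. `p6_pick`: choose an offending mass `x ≥ A_λ` within a factor two of the supremum of all offending masses: `P6Reg … 2 x` and `P6Off … x`.      So `P6Par` holds.
  2. `aq_ultra_O_or_o U (x²) (e(x))`: either `x² = O(e(x))`: `p6_strong` contradicts `P6Off`;   or `e(x) = o(x²)`: `P6Wk`.
  3. child `D' = p6Child …`: `p6_child_seq`, `p6_child_ord_ev`; `P6ImpMin`: a minimiser `z` at the final strength `d'²`.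
  4. if `err ≤ n^{20δ}E'` eventually: `p6_succ` contradicts `P6Off`.   So (ultrafilter) the error FAILS eventually.
  5. contrapositive of `P6ImpSweep` for `D'` with `(c1,C1) = (cl,Ch)`: eventually there are `λ' ∈ [n^{-10}, d'²]` and a minimiser `r'` with `¬ P6Reg … 1 (A_λ')`: the next bad profile.
  6. margins and clock bounds: `p6_child_marg`;  growth: `p6_child_grow`.
-/

set_option autoImplicit false

namespace Claimed.Agent.R286

open Filter Topology Set MeasureTheory Asymptotics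

variable {fn : ℕ → (ℝ → ℝ) → (ℝ → ℝ) → ℝ} {U : Ultrafilter ℕ} {c : P6C} {cl Ch c0 β0 κ0 cκ Cκ cT CT : ℝ} {j0 : ℕ → ℝ}

/-- the stage invariant (`j` = number of completed steps) -/
structure P6Stage (fn : ℕ → (ℝ → ℝ) → (ℝ → ℝ) → ℝ) (U : Ultrafilter ℕ) (c : P6C) (cl Ch c0 β0 κ0 : ℝ) (j0 : ℕ → ℝ) (j : ℕ)
    (D : ℕ → P6D) (lam : ℕ → ℝ) (r : ℕ → ℝ → ℝ) : Prop where
  seq : P6Seq U c D
  lam_rng : ∀ᶠ k in U, 0 < lam k ∧ lam k ≤ (D k).P.d ^ 2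
  fam : ∀ᶠ k in U, (D k).Fam (lam k)
  min : ∀ᶠ k in U, (D k).IsMin fn (lam k) (r k)
  j0_rng : ∀ᶠ k in U, 0 ≤ j0 k ∧ j0 k ≤ (D k).P.u0
  marg : ∀ᶠ k in U, P6Marg ((D k).Pb (lam k) (r k)) (j0 k) (β0 - j * c0 ^ 2)
  clkP : ∀ᶠ k in U, P6Bd ((D k).Pb (lam k) (r k)) ((D k).Ph (lam k) (r k)) (κ0 + j * c0 ^ 2)
  grow : ∀ᶠ k in U, (D k).P.N ^ (j * (c.dl / 4)) * (c.cE ^ 2 * (D k).P.N ^ (-(5 / 6 : ℝ) + 2 * c.m)) ≤ (D k).P.E
  bad : ∀ᶠ k in U, ∃ u, (D k).P.Al (lam k) ≤ u ∧ u ≤ 1 ∧ P6Off (r k) cl Ch u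

/-- fixed size: selection of the bad scale -/
theorem p6_pick {r : ℝ → ℝ} {cl Ch A u0 : ℝ} (hA : 0 < A) (hbad : ∃ u, A ≤ u ∧ u ≤ 1 ∧ P6Off r cl Ch u) :
    ∃ x, A ≤ x ∧ x ≤ 1 ∧ P6Off r cl Ch x ∧ P6Reg u0 r cl Ch 2 x := by
  obtain ⟨x, h1, h2, h3, h4⟩ := p6ch_select hA hbad
  exact ⟨x, h1, h2, h3, fun u g1 g2 _ => h4 u g1 g2⟩

/-- **C8**: a bad profile at stage `j` produces a bad profile at stage `j+1` -/
theorem p6_step {j : ℕ} {D : ℕ → P6D} {lam : ℕ → ℝ} {r : ℕ → ℝ → ℝ} (hI : P6Imports fn c cκ Cκ cT CT)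
    (hk : P6K c (p6Lo Cκ cT) (p6Hi cκ CT) 2 c0 (β0 - j * c0 ^ 2)) (hK : κ0 + (j + 1) * c0 ^ 2 ≤ c.K)
    (h : P6Stage fn U c (p6Lo Cκ cT) (p6Hi cκ CT) c0 β0 κ0 j0 j D lam r) :
    ∃ D' lam' r', P6Stage fn U c (p6Lo Cκ cT) (p6Hi cκ CT) c0 β0 κ0 j0 (j + 1) D' lam' r' := by
  have hc := hk.ok
  have hlo := hk.cl_pos
  have hκ : κ0 + j * c0 ^ 2 ≤ c.K := by nlinarith [sq_nonneg c0]
  -- the bad scale
  have hsel : ∀ᶠ k in U, ∃ x, (D k).P.Al (lam k) ≤ x ∧ x ≤ 1 ∧ P6Off (r k) (p6Lo Cκ cT) (p6Hi cκ CT) x ∧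
      P6Reg (D k).P.u0 (r k) (p6Lo Cκ cT) (p6Hi cκ CT) 2 x := by
    filter_upwards [h.bad, h.seq.ok, h.lam_rng] with k hb hok hl
    obtain ⟨a1, a2, -, -⟩ := p6ch_scale hc.cE_pos hok hl.1 hl.2 le_rfl
    exact p6_pick (a1.trans_le a2) hb
  obtain ⟨x, hx⟩ := hsel.choice
  have hpar : P6Par fn U c D lam x r (p6Lo Cκ cT) (p6Hi cκ CT) 2 :=
    { seq := h.seq, lam_rng := h.lam_rng, fam := h.fam, min := h.min
      x_rng := hx.mono fun k hk => ⟨hk.1, hk.2.1⟩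
      outer := hx.mono fun k hk => hk.2.2.2 }
  have hoff : ∀ᶠ k in U, P6Off (r k) (p6Lo Cκ cT) (p6Hi cκ CT) (x k) := hx.mono fun k hk => hk.2.2.1
  -- strong / weak alternative
  rcases aq_ultra_O_or_o U (fun k => x k ^ 2) (fun k => (D k).P.e (lam k) (x k)) with hs | hw
  · exact absurd ((p6_strong hI hc hpar hs).and hoff) (fun hh => by
      obtain ⟨k, hk⟩ := hh.exists
      exact hk.1 hk.2)
  have hwk : P6Wk fn U c D lam x r (p6Lo Cκ cT) (p6Hi cκ CT) 2 (β0 - j * c0 ^ 2) j0 :=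
    { toP6Par := hpar, weak := hw, j0_rng := h.j0_rng, marg := h.marg
      clkP := h.clkP.mono fun k hk u hu => ⟨(hk u hu).1.trans hκ, (hk u hu).2.trans hκ⟩ }
  set D' : ℕ → P6D := p6Child c0 D lam x r j0 with hD'
  have hseq' : P6Seq U c D' := p6_child_seq hk hwk
  have hgrow' := p6_child_grow hk hwk
  have hord : ∀ᶠ k in U, (D' k).Ord := p6_child_ord_ev hk hwk
  -- budget of the child
  have hbud : ∀ᶠ k in U, ∀ l z, 0 ≤ l → l ≤ (D' k).P.d ^ 2 → (D' k).P.Fe z →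
      P6Marg ((D' k).Pb l z) (j0 k) (β0 - j * c0 ^ 2 - c0 ^ 2) ∧
        P6Bd ((D' k).Pb l z) ((D' k).Ph l z) (κ0 + j * c0 ^ 2 + c0 ^ 2) := by
    filter_upwards [hseq'.ok, h.marg, h.clkP, hx, h.seq.ok, h.lam_rng] with k hok' hmarg hclk hxk hok hl
    have hx0 : 0 < x k := by
      obtain ⟨a1, -, a3, -⟩ := p6ch_scale hc.cE_pos hok hl.1 hl.2 hxk.1
      exact a1.trans_le a3
    exact p6_child_marg hc.cE_pos hok' hx0 hxk.2.1 hk.c0_pos hmarg hclk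
  -- the final minimiser of the child
  have hexm : ∀ᶠ k in U, ∃ z, (D' k).IsMin fn ((D' k).P.d ^ 2) z := by
    filter_upwards [hI.exMin U D' hseq', hord] with k hk ho
    exact hk _ (sq_nonneg _) le_rfl (ho.2 _ (sq_nonneg _) le_rfl)
  obtain ⟨z, hz⟩ := hexm.choice
  -- the child error fails
  have hfail : ∀ᶠ k in U, ¬ (D' k).err fn ((D' k).P.d ^ 2) (z k) ≤ (D' k).P.N ^ (20 * (D' k).P.dl) * (D' k).P.E := by
    rcases U.em (fun k => (D' k).err fn ((D' k).P.d ^ 2) (z k) ≤ (D' k).P.N ^ (20 * (D' k).P.dl) * (D' k).P.E) with hs | hf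
    · have := p6_succ hI hk hwk (z := z) ⟨hz, hs⟩
      obtain ⟨k, hk⟩ := (this.and hoff).exists
      exact absurd hk.2 hk.1
    · exact hf
  -- a failed error selects the next profile failure
  have hlohi : p6Lo Cκ cT < p6Hi cκ CT := by linarith [p6ch_lo_le Cκ cT, p6ch_hi_ge cκ CT]
  have hnext : ∀ᶠ k in U, ¬ ∀ l s, (D' k).P.N ^ (-(10:ℝ)) ≤ l → l ≤ (D' k).P.d ^ 2 → (D' k).IsMin fn l s →
      P6Reg (D' k).P.u0 s (p6Lo Cκ cT) (p6Hi cκ CT) 1 ((D' k).P.Al l) := by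
    rcases U.em (fun k => ∀ l s, (D' k).P.N ^ (-(10:ℝ)) ≤ l → l ≤ (D' k).P.d ^ 2 → (D' k).IsMin fn l s →
      P6Reg (D' k).P.u0 s (p6Lo Cκ cT) (p6Hi cκ CT) 1 ((D' k).P.Al l)) with hs | hf
    · have := hI.sweep U D' _ _ hlo hlohi hseq' hord hs
      obtain ⟨k, hk⟩ := ((this.and hfail).and hz).exists
      exact absurd (hk.1.1 _ _ (sq_nonneg _) le_rfl hk.2).2 hk.1.2
    · exact hf
  have hnext' : ∀ᶠ k in U, ∃ p : ℝ × (ℝ → ℝ), (D' k).P.N ^ (-(10:ℝ)) ≤ p.1 ∧ p.1 ≤ (D' k).P.d ^ 2 ∧ (D' k).IsMin fn p.1 p.2 ∧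
      ∃ u, (D' k).P.Al p.1 ≤ u ∧ u ≤ 1 ∧ P6Off p.2 (p6Lo Cκ cT) (p6Hi cκ CT) u := by
    filter_upwards [hnext] with k hk
    push Not at hk
    obtain ⟨l, s, h1, h2, h3, h4⟩ := hk
    unfold P6Reg at h4
    push Not at h4
    obtain ⟨u, g1, g2, g3, g4⟩ := h4
    rw [one_mul] at g1
    exact ⟨(l, s), h1, h2, h3, u, g1, g2, fun hh => absurd hh.2 (not_le.2 (g4 hh.1))⟩
  obtain ⟨p, hp⟩ := hnext'.choice
  refine ⟨D', fun k => (p k).1, fun k => (p k).2, ?_⟩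
  have hlam : ∀ᶠ k in U, 0 < (p k).1 ∧ (p k).1 ≤ (D' k).P.d ^ 2 := by
    filter_upwards [hp, hseq'.ok] with k hk hok
    exact ⟨(Real.rpow_pos_of_pos (cm_N_pos hok) _).trans_le hk.1, hk.2.1⟩
  have e1 : β0 - ((j + 1 : ℕ) : ℝ) * c0 ^ 2 = β0 - j * c0 ^ 2 - c0 ^ 2 := by push_cast; ring
  have e2 : κ0 + ((j + 1 : ℕ) : ℝ) * c0 ^ 2 = κ0 + j * c0 ^ 2 + c0 ^ 2 := by push_cast; ring
  refine
    { seq := hseq', lam_rng := hlam
      fam := ?_, min := hp.mono fun k hk => hk.2.2.1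
      j0_rng := h.j0_rng.mono fun k hk => ⟨hk.1, le_rfl⟩
      marg := ?_, clkP := ?_, grow := ?_
      bad := hp.mono fun k hk => hk.2.2.2 }
  · filter_upwards [hord, hlam] with k ho hl
    exact ho.2 _ hl.1.le hl.2
  · rw [e1]
    filter_upwards [hbud, hlam, hp] with k hb hl hk
    exact (hb _ _ hl.1.le hl.2 hk.2.2.1.1).1
  · rw [e2]
    filter_upwards [hbud, hlam, hp] with k hb hl hk
    exact (hb _ _ hl.1.le hl.2 hk.2.2.1.1).2
  · filter_upwards [h.grow, hgrow', h.seq.m_eq, h.seq.ok] with k hg hg' hm hok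
    have hNp := cm_N_pos hok
    have eN : (D' k).P.N = (D k).P.N := rfl
    have edl : (D k).P.dl = c.dl := by unfold CmCall.dl P6C.dl; rw [hm]
    rw [eN]
    rw [edl] at hg'
    have e3 : (D k).P.N ^ (((j + 1 : ℕ) : ℝ) * (c.dl / 4)) = (D k).P.N ^ (c.dl / 4) * (D k).P.N ^ ((j : ℝ) * (c.dl / 4)) := by
      rw [← Real.rpow_add hNp]; congr 1; push_cast; ring
    rw [e3, mul_assoc]
    exact (mul_le_mul_of_nonneg_left hg (Real.rpow_nonneg hNp.le _)).trans hg'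

end Claimed.Agent.R286

/-!
# Row 286, PE Prop. 6.6 (finite propagation): the chain of length `N = ⌈10/δ⌉`      OWNER: helper14.

`p6_profile_seq`: if the profile fails (`U`-eventually, ultrafilter), stage `0` holds (`p6_E_ge`).   `N = ⌈10/δ⌉₊`, `c0 > 0` with `(N+1) c0² ≤ min(1, β0)`, `c0² < Tinf - ρ`, `c0 ≤ D0`.   `p6_chain`: stage `N`.
  `p6_stage_absurd`: `E_N ≥ n^{Nδ/4} cE² n^{-5/6+2m} ≥ cE² n^{5/3}` against `E_N ≤ n^{-1/2} D0²`.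
`p6_error_seq`: `P6ImpSweep` for the family itself; its hypothesis is `p6_profile_seq` applied to a violating selection `(λ_k, r_k)`.
-/

set_option autoImplicit false

namespace Claimed.Agent.R286

open Filter Topology Set MeasureTheory Asymptotics

variable {fn : ℕ → (ℝ → ℝ) → (ℝ → ℝ) → ℝ} {U : Ultrafilter ℕ} {c : P6C} {cl Ch c0 β0 κ0 cκ Cκ cT CT : ℝ} {j0 : ℕ → ℝ}

/-- iteration of `p6_step` -/
theorem p6_chain (hI : P6Imports fn c cκ Cκ cT CT) (hc : c.Ok) {N : ℕ} (hc0 : 0 < c0) (hc0T : c0 ^ 2 < c.Tinf - c.ρ) (hc0D : c0 ≤ c.D0)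
    (hβ : (N + 1) * c0 ^ 2 ≤ β0) (hK : κ0 + (N + 1) * c0 ^ 2 ≤ c.K) {D : ℕ → P6D} {lam : ℕ → ℝ} {r : ℕ → ℝ → ℝ}
    (h : P6Stage fn U c (p6Lo Cκ cT) (p6Hi cκ CT) c0 β0 κ0 j0 0 D lam r) :
    ∀ j ≤ N, ∃ D' lam' r', P6Stage fn U c (p6Lo Cκ cT) (p6Hi cκ CT) c0 β0 κ0 j0 j D' lam' r' := by
  have hCκ : 0 < Cκ := hI.κ_rng.1.trans_le hI.κ_rng.2
  intro j
  induction j with
  | zero => exact fun _ => ⟨D, lam, r, h⟩
  | succ j ih =>
    intro hj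
    obtain ⟨D', lam', r', hst⟩ := ih (by omega)
    have hjn : (j : ℝ) + 1 ≤ (N : ℝ) := by exact_mod_cast hj
    have hsq : 0 ≤ c0 ^ 2 := sq_nonneg _
    have g1 : ((j : ℝ) + 1) * c0 ^ 2 ≤ ((N : ℝ) + 1) * c0 ^ 2 := mul_le_mul_of_nonneg_right (by linarith) hsq
    refine p6_step (j := j) hI ?_ ?_ hst
    · exact
        { ok := hc, cl_pos := p6ch_lo_pos hCκ hI.T_rng.1, cl_le := (p6ch_lo_le _ _).trans (by norm_num)
          Ch_ge := by linarith [p6ch_hi_ge cκ CT]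
          C0_ge := by norm_num, c0_pos := hc0, c0_T := hc0T, c0_D := hc0D
          c0_β := by nlinarith }
    · linarith

/-- the error parameter cannot grow for the whole chain -/
theorem p6_stage_absurd (hc : c.Ok) {N : ℕ} (hN : 10 ≤ N * c.dl) {D : ℕ → P6D} {lam : ℕ → ℝ} {r : ℕ → ℝ → ℝ}
    (h : P6Stage fn U c cl Ch c0 β0 κ0 j0 N D lam r) : False := by
  have hj : 1 ≤ (N : ℝ) * (c.dl / 4) := by linarith
  have hcE := hc.cE_pos
  have hbig : ∀ᶠ k in U, c.D0 ^ 2 / c.cE ^ 2 < (D k).P.N ^ (2 / 3 : ℝ) :=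
    (aq_scale_rpow_tendsto h.seq.n_top (by norm_num : (0:ℝ) < 2 / 3)).eventually_gt_atTop _
  obtain ⟨k, ⟨⟨hg, hok⟩, hm⟩, hb⟩ := (((h.grow.and h.seq.ok).and h.seq.m_eq).and hbig).exists
  have hNp := cm_N_pos hok
  have hN1 : 1 ≤ (D k).P.N := by linarith [cm_N_ge hok]
  have h1 : (D k).P.E ≤ (D k).P.N ^ (-(1 / 2 : ℝ)) * c.D0 ^ 2 := by
    refine hok.E2.trans (mul_le_mul_of_nonneg_left ?_ (Real.rpow_nonneg hNp.le _))
    exact pow_le_pow_left₀ hok.d0.le hok.d1 2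
  have h2 : (D k).P.N ^ (1 : ℝ) ≤ (D k).P.N ^ ((N : ℝ) * (c.dl / 4)) := Real.rpow_le_rpow_of_exponent_le hN1 hj
  have h3 : (D k).P.N ^ (-(5 / 6 : ℝ)) ≤ (D k).P.N ^ (-(5 / 6 : ℝ) + 2 * c.m) :=
    Real.rpow_le_rpow_of_exponent_le hN1 (by linarith [hc.m_pos])
  have h4 : (D k).P.N ^ (1 : ℝ) * (c.cE ^ 2 * (D k).P.N ^ (-(5 / 6 : ℝ))) ≤ (D k).P.N ^ (-(1 / 2 : ℝ)) * c.D0 ^ 2 := by
    refine le_trans ?_ (hg.trans h1)
    exact mul_le_mul h2 (mul_le_mul_of_nonneg_left h3 (by positivity)) (by positivity) (by positivity)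
  have h5 : (D k).P.N ^ (2 / 3 : ℝ) * c.cE ^ 2 ≤ c.D0 ^ 2 := by
    have e1 : (D k).P.N ^ (2 / 3 : ℝ) = (D k).P.N ^ (1 / 2 : ℝ) * ((D k).P.N ^ (1 : ℝ) * (D k).P.N ^ (-(5 / 6 : ℝ))) := by
      rw [← Real.rpow_add hNp, ← Real.rpow_add hNp]; norm_num
    have e2 : (D k).P.N ^ (1 / 2 : ℝ) * (D k).P.N ^ (-(1 / 2 : ℝ)) = 1 := by
      rw [← Real.rpow_add hNp]; norm_num
    have h6 := mul_le_mul_of_nonneg_left h4 (Real.rpow_nonneg hNp.le (1 / 2 : ℝ))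
    calc (D k).P.N ^ (2 / 3 : ℝ) * c.cE ^ 2
        = (D k).P.N ^ (1 / 2 : ℝ) * ((D k).P.N ^ (1 : ℝ) * (c.cE ^ 2 * (D k).P.N ^ (-(5 / 6 : ℝ)))) := by rw [e1]; ring
      _ ≤ (D k).P.N ^ (1 / 2 : ℝ) * ((D k).P.N ^ (-(1 / 2 : ℝ)) * c.D0 ^ 2) := h6
      _ = c.D0 ^ 2 := by rw [← mul_assoc, e2, one_mul]
  rw [div_lt_iff₀ (by positivity)] at hb
  linarith

/-- **C9 = PE Prop. 6.6, profile** -/
theorem p6_profile_seq (hI : P6Imports fn c cκ Cκ cT CT) (hc : c.Ok) (hβ0 : 0 < β0) (hK : κ0 + 1 ≤ c.K)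
    {D : ℕ → P6D} {lam : ℕ → ℝ} {r : ℕ → ℝ → ℝ} (seq : P6Seq U c D)
    (lam_rng : ∀ᶠ k in U, 0 < lam k ∧ lam k ≤ (D k).P.d ^ 2)
    (fam : ∀ᶠ k in U, (D k).Fam (lam k))
    (min : ∀ᶠ k in U, (D k).IsMin fn (lam k) (r k))
    (j0_rng : ∀ᶠ k in U, 0 ≤ j0 k ∧ j0 k ≤ (D k).P.u0)
    (marg : ∀ᶠ k in U, P6Marg ((D k).Pb (lam k) (r k)) (j0 k) β0)
    (clkP : ∀ᶠ k in U, P6Bd ((D k).Pb (lam k) (r k)) ((D k).Ph (lam k) (r k)) κ0) :
    ∀ᶠ k in U, ∀ u, (D k).P.Al (lam k) ≤ u → u ≤ 1 → p6Lo Cκ cT * u ≤ r k u ∧ r k u ≤ p6Hi cκ CT * u := by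
  obtain ⟨n0, c0, hn0, hc0, hb1, hbβ, hcT, hcD⟩ := p6ch_consts hc hβ0
  rcases U.em (fun k => ∀ u, (D k).P.Al (lam k) ≤ u → u ≤ 1 → p6Lo Cκ cT * u ≤ r k u ∧ r k u ≤ p6Hi cκ CT * u) with hgood | hbad
  · exact hgood
  exfalso
  have h0 : P6Stage fn U c (p6Lo Cκ cT) (p6Hi cκ CT) c0 β0 κ0 j0 0 D lam r :=
    { seq := seq, lam_rng := lam_rng, fam := fam, min := min, j0_rng := j0_rng
      marg := by simpa using marg
      clkP := by simpa using clkP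
      grow := by
        filter_upwards [seq.ok, seq.m_eq] with k hok hm
        have := p6ch_E_ge hc.cE_pos hok
        rw [hm] at this
        simpa using this
      bad := by
        filter_upwards [hbad] with k hk
        push Not at hk
        obtain ⟨u, g1, g2, g3⟩ := hk
        exact ⟨u, g1, g2, fun hh => absurd hh.2 (not_le.2 (g3 hh.1))⟩ }
  obtain ⟨D', lam', r', hst⟩ := p6_chain hI hc (N := n0) hc0 hcT hcD hbβ (by linarith) h0 n0 le_rfl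
  exact p6_stage_absurd hc hn0 hst

/-- **C10 = PE Prop. 6.6, error bound for ordinary families** -/
theorem p6_error_seq (hI : P6Imports fn c cκ Cκ cT CT) (hc : c.Ok) (hβ0 : 0 < β0) (hK : κ0 + 1 ≤ c.K)
    {D : ℕ → P6D} (seq : P6Seq U c D)
    (ord : ∀ᶠ k in U, (D k).Ord)
    (j0_rng : ∀ᶠ k in U, 0 ≤ j0 k ∧ j0 k ≤ (D k).P.u0)
    (marg : ∀ᶠ k in U, ∀ l s, 0 < l → l ≤ (D k).P.d ^ 2 → (D k).P.Fe s →
      P6Marg ((D k).Pb l s) (j0 k) β0 ∧ P6Bd ((D k).Pb l s) ((D k).Ph l s) κ0) :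
    ∀ᶠ k in U, ∀ l s, 0 ≤ l → l ≤ (D k).P.d ^ 2 → (D k).IsMin fn l s →
      0 ≤ (D k).err fn l s ∧ (D k).err fn l s ≤ (D k).P.N ^ (20 * (D k).P.dl) * (D k).P.E := by
  have hCκ : 0 < Cκ := hI.κ_rng.1.trans_le hI.κ_rng.2
  have hlo := p6ch_lo_pos hCκ hI.T_rng.1
  have hlohi : p6Lo Cκ cT < p6Hi cκ CT := by linarith [p6ch_lo_le Cκ cT, p6ch_hi_ge cκ CT]
  refine hI.sweep U D _ _ hlo hlohi seq ord ?_
  rcases U.em (fun k => ∀ l s, (D k).P.N ^ (-(10:ℝ)) ≤ l → l ≤ (D k).P.d ^ 2 → (D k).IsMin fn l s →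
      P6Reg (D k).P.u0 s (p6Lo Cκ cT) (p6Hi cκ CT) 1 ((D k).P.Al l)) with hs | hf
  · exact hs
  exfalso
  have hsel : ∀ᶠ k in U, ∃ p : ℝ × (ℝ → ℝ), (D k).P.N ^ (-(10:ℝ)) ≤ p.1 ∧ p.1 ≤ (D k).P.d ^ 2 ∧ (D k).IsMin fn p.1 p.2 ∧
      ∃ u, (D k).P.Al p.1 ≤ u ∧ u ≤ 1 ∧ P6Off p.2 (p6Lo Cκ cT) (p6Hi cκ CT) u := by
    filter_upwards [hf] with k hk
    push Not at hk
    obtain ⟨l, s, h1, h2, h3, h4⟩ := hk
    unfold P6Reg at h4
    push Not at h4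
    obtain ⟨u, g1, g2, g3, g4⟩ := h4
    rw [one_mul] at g1
    exact ⟨(l, s), h1, h2, h3, u, g1, g2, fun hh => absurd hh.2 (not_le.2 (g4 hh.1))⟩
  obtain ⟨p, hp⟩ := hsel.choice
  have hlam : ∀ᶠ k in U, 0 < (p k).1 ∧ (p k).1 ≤ (D k).P.d ^ 2 := by
    filter_upwards [hp, seq.ok] with k hk hok
    exact ⟨(Real.rpow_pos_of_pos (cm_N_pos hok) _).trans_le hk.1, hk.2.1⟩
  have hprof := p6_profile_seq hI hc hβ0 hK (lam := fun k => (p k).1) (r := fun k => (p k).2) (j0 := j0) seq hlam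
    (by filter_upwards [ord, hlam] with k ho hl; exact ho.2 _ hl.1.le hl.2)
    (hp.mono fun k hk => hk.2.2.1) j0_rng
    (by filter_upwards [marg, hlam, hp] with k hm hl hk; exact (hm _ _ hl.1 hl.2 hk.2.2.1.1).1)
    (by filter_upwards [marg, hlam, hp] with k hm hl hk; exact (hm _ _ hl.1 hl.2 hk.2.2.1.1).2)
  obtain ⟨k, hk1, hk2⟩ := (hprof.and hp).exists
  obtain ⟨u, g1, g2, g3⟩ := hk2.2.2.2
  exact g3 (hk1 u g1 g2)

end Claimed.Agent.R286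

/-!
# Row 286, PE Cor. 6.7 (uniformity for the field wall)      OWNER: helper94 (after Fam).   architect helper14

Instance `W k = p6Wall (P k) (T k) (ε k) (θ k) (φ k)`, `s = (P k).u0 > 0`, strength `λ = d²`, `c_L = min(ε, T-ε)/2`, `r_0 = d² r_min/(2ε)`.
`p6_wall_fam_seq` (fixed size up to the two eventual facts `d² < ε`, `r_min ≤ d`):   feasible `r` (monotone on `[s,1]`, values in `[r_min,1]`):
   matrix: low value `T - ε - θ c_L ≥ (T-ε)/2 ≥ 0`, constant on `[0,s)`; high `T - e(r u)`, monotone; jump `ε + θ c_L - e ≥ ε - d² > 0`.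
   field: low `θ c_L r_0 φ ≤ c_L r_0 ≤ d² r_min/4`, monotone, `≥ 0`; high `e(r u) r u ≥ e(r_min) r_min = d² r_min` (`cm_re_mono`, `cm_e_eq` since `d² r_min ≤ d³`).
`p6_wall_seq`: `p6_profile_seq` with `j0 k = if ε k < T k/4 then 0 else s`, `β0 = Tinf/16`, `κ0 = Tinf + 1`:
   `P6Seq`: (4) is trivial above `s` (`b0 = T`, `h0 = 0`); `dT` from `d → 0`;  clocks `≤ Tinf + 1`.
   margins: `ε < T/4`: low `≥ T - 3ε/2 ≥ 5T/8`, high `≥ T - d² ≥ T/2`;      `ε ≥ T/4`: high `≥ T/2`, gap `≥ ε - d² ≥ T/8`.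
-/

set_option autoImplicit false

namespace Claimed.Agent.R286

open Filter Topology Set MeasureTheory Asymptotics

variable {fn : ℕ → (ℝ → ℝ) → (ℝ → ℝ) → ℝ} {c : P6C} {cκ Cκ cT CT : ℝ} {U : Ultrafilter ℕ}

variable {P : ℕ → CmCall} {T ε θ : ℕ → ℝ} {φ : ℕ → ℝ → ℝ}

/-! ## fixed size -/

/-- `r_min ≤ n^{-δ} L ≤ a³/d² ≤ d` -/
theorem p6w_rmin_le_d {cE D0 : ℝ} (hcE : 0 < cE) {P : CmCall} (hok : P.Ok cE D0) : P.rmin ≤ P.d := by
  have h1 := cm_rmin_le hcE hok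
  have hN : (1 : ℝ) ≤ P.N := by linarith [cm_N_ge hok]
  have h2 : P.N ^ (-P.dl) ≤ 1 := Real.rpow_le_one_of_one_le_of_nonpos hN (by linarith [cm_dl_pos hok])
  have hL := cm_L_pos hcE hok
  have h3 : P.L ≤ P.a ^ 3 / P.d ^ 2 := min_le_right _ _
  have ha := cm_a_pos hcE hok
  have had := cm_a_le_d hcE hok
  have hd := hok.d0
  have h4 : P.a ^ 3 / P.d ^ 2 ≤ P.d := by
    rw [div_le_iff₀ (by positivity)]
    calc P.a ^ 3 ≤ P.d ^ 3 := pow_le_pow_left₀ ha.le had 3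
      _ = P.d * P.d ^ 2 := by ring
  nlinarith

/-- the coefficient of the low field: `0 ≤ θ c_L r_0 ≤ d² r_min/4` -/
theorem p6w_coef {P : CmCall} {T ε θ : ℝ} (hε : 0 < ε) (hεT : ε ≤ T) (hθ0 : 0 ≤ θ) (hθ1 : θ ≤ 1) (hr : 0 ≤ P.rmin) :
    0 ≤ θ * (min ε (T - ε) / 2) * (P.d ^ 2 * P.rmin / (2 * ε)) ∧ θ * (min ε (T - ε) / 2) * (P.d ^ 2 * P.rmin / (2 * ε)) ≤ P.d ^ 2 * P.rmin / 4 := by
  have hc0 : 0 ≤ min ε (T - ε) / 2 := by
    have : 0 ≤ min ε (T - ε) := le_min hε.le (by linarith)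
    linarith
  have hc1 : min ε (T - ε) / 2 ≤ ε / 2 := by
    have := min_le_left ε (T - ε)
    linarith
  have hq : 0 ≤ P.d ^ 2 * P.rmin / (2 * ε) := by positivity
  refine ⟨by positivity, ?_⟩
  calc θ * (min ε (T - ε) / 2) * (P.d ^ 2 * P.rmin / (2 * ε)) ≤ 1 * (ε / 2) * (P.d ^ 2 * P.rmin / (2 * ε)) := by gcongr
    _ = P.d ^ 2 * P.rmin / 4 := by field_simp; ring

/-- the low matrix value: `(T-ε)/2 ≤ T - (ε + θ c_L) ≤ T - ε`, and `≥ T - 3ε/2` -/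
theorem p6w_low {T ε θ : ℝ} (hε : 0 < ε) (hεT : ε ≤ T) (hθ0 : 0 ≤ θ) (hθ1 : θ ≤ 1) :
    (T - ε) / 2 ≤ T - (ε + θ * (min ε (T - ε) / 2)) ∧ T - (ε + θ * (min ε (T - ε) / 2)) ≤ T - ε ∧ T - 3 * ε / 2 ≤ T - (ε + θ * (min ε (T - ε) / 2)) := by
  have hc0 : 0 ≤ min ε (T - ε) / 2 := by
    have : 0 ≤ min ε (T - ε) := le_min hε.le (by linarith)
    linarith
  have hc1 : min ε (T - ε) / 2 ≤ ε / 2 := by
    have := min_le_left ε (T - ε)
    linarith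
  have hc2 : min ε (T - ε) / 2 ≤ (T - ε) / 2 := by
    have := min_le_right ε (T - ε)
    linarith
  have h1 : θ * (min ε (T - ε) / 2) ≤ min ε (T - ε) / 2 := by nlinarith
  have h0 : 0 ≤ θ * (min ε (T - ε) / 2) := by positivity
  refine ⟨by linarith, by linarith, by linarith⟩

/-- fixed size: admissibility of every changed path of the wall instance -/
theorem p6_wall_adm {cE D0 : ℝ} (hcE : 0 < cE) {P : CmCall} (hok : P.Ok cE D0) {T ε θ : ℝ} {φ : ℝ → ℝ} (hε : 0 < ε) (hεT : ε ≤ T) (hθ0 : 0 ≤ θ) (hθ1 : θ ≤ 1)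
    (hφ : MonotoneOn φ (Icc 0 P.u0)) (hφ1 : ∀ u ∈ Icc 0 P.u0, 0 ≤ φ u ∧ φ u ≤ 1) (hdε : P.d ^ 2 ≤ ε) (hrd : P.rmin ≤ P.d) :
    (p6Wall P T ε θ φ).Fam (P.d ^ 2) := by
  intro z hz
  have hz' : P.Fe z := hz
  have hl : 0 ≤ P.d ^ 2 := by positivity
  obtain ⟨l1, l2, -⟩ := p6w_low hε hεT hθ0 hθ1
  obtain ⟨k0, k1⟩ := p6w_coef (P := P) hε hεT hθ0 hθ1 hok.r0
  set Kc : ℝ := θ * (min ε (T - ε) / 2) * (P.d ^ 2 * P.rmin / (2 * ε)) with hKc
  set bl : ℝ := T - (ε + θ * (min ε (T - ε) / 2)) with hbl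
  have hb : ∀ u, (p6Wall P T ε θ φ).b0 u = if u < P.u0 then bl else T := fun _ => rfl
  have hh : ∀ u, (p6Wall P T ε θ φ).h0 u = if u < P.u0 then Kc * φ u else 0 := fun _ => rfl
  have hPu : (p6Wall P T ε θ φ).P = P := rfl
  refine ⟨?_, ?_⟩
  · refine p6f_Pb_clk (D := p6Wall P T ε θ φ) hcE hok hz hl ?_ ?_ ?_ ?_
    · intro u _ v _ huv
      rw [hb, hb]
      by_cases h2 : v < P.u0
      · rw [if_pos h2, if_pos (lt_of_le_of_lt huv h2)]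
      · rw [if_neg h2]
        split_ifs <;> linarith
    · rw [hb]
      split_ifs <;> linarith
    · intro u v _ h2 h3 _
      have h2' : u < P.u0 := h2
      have h3' : P.u0 ≤ v := h3
      rw [hb, hb, if_pos h2', if_neg (not_lt.2 h3')]
      linarith
    · intro h0
      have h0' : P.u0 = 0 := h0
      rw [hb, if_neg (by rw [h0']; exact lt_irrefl _)]
      linarith
  · refine p6f_Ph_clk (D := p6Wall P T ε θ φ) hcE hok hz hl ?_ ?_ ?_ ?_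
    · intro u hu v hv huv
      have hu2 : u < P.u0 := hu.2
      have hv2 : v < P.u0 := hv.2
      rw [hh, hh, if_pos hu2, if_pos hv2]
      exact mul_le_mul_of_nonneg_left (hφ ⟨hu.1, hu2.le⟩ ⟨hv.1, hv2.le⟩ huv) k0
    · intro u hu v hv _
      have hu1 : P.u0 ≤ u := hu.1
      have hv1 : P.u0 ≤ v := hv.1
      rw [hh, hh, if_neg (not_lt.2 hu1), if_neg (not_lt.2 hv1)]
    · rw [hh]
      split_ifs with h0
      · exact mul_nonneg k0 (hφ1 0 ⟨le_rfl, h0.le⟩).1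
      · exact le_rfl
    · intro u v h1 h2 h3 h4
      have h2' : u < P.u0 := h2
      have h3' : P.u0 ≤ v := h3
      rw [hh, hh, if_pos h2', if_neg (not_lt.2 h3'), zero_add]
      have a1 : Kc * φ u ≤ Kc := by
        have := (hφ1 u ⟨h1, h2'.le⟩).2
        nlinarith
      obtain ⟨-, hzb⟩ := p6f_fe hcE hok hz'
      have hzv := (hzb v ⟨h3', h4⟩).1
      have a2 := cm_re_mono P hok.d0 hl (mem_Ici.2 hok.r0) (mem_Ici.2 (hok.r0.trans hzv)) hzv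
      simp only at a2
      have a3 : P.e (P.d ^ 2) P.rmin = P.d ^ 2 := by
        apply cm_e_eq P hok.d0
        have := mul_le_mul_of_nonneg_left hrd hl
        calc P.d ^ 2 * P.rmin ≤ P.d ^ 2 * P.d := this
          _ = P.d ^ 3 := by ring
      rw [a3] at a2
      have a4 : 0 ≤ P.d ^ 2 * P.rmin := mul_nonneg hl hok.r0
      show Kc * φ u ≤ P.e (P.d ^ 2) (z v) * z v
      nlinarith

/-! ## sequences -/

theorem p6w_d_sq (h : P6WallSeq U c P T ε θ φ) {η : ℝ} (hη : 0 < η) : ∀ᶠ k in U, (P k).d ^ 2 ≤ η := by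
  have h1 : Tendsto (fun k => (P k).d ^ 2) U (𝓝 0) := by simpa using h.d_small.pow 2
  exact (h1.eventually_lt_const hη).mono fun _ hk => hk.le

theorem p6w_T_rng (h : P6WallSeq U c P T ε θ φ) {η : ℝ} (hη : 0 < η) : ∀ᶠ k in U, c.Tinf - η ≤ T k ∧ T k ≤ c.Tinf + η := by
  filter_upwards [h.T_lim.eventually_const_lt (show c.Tinf - η < c.Tinf by linarith), h.T_lim.eventually_lt_const (show c.Tinf < c.Tinf + η by linarith)] with k h1 h2
  exact ⟨h1.le, h2.le⟩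

theorem p6w_d_eps (h : P6WallSeq U c P T ε θ φ) {η : ℝ} (hη : 0 < η) : ∀ᶠ k in U, (P k).d ^ 2 ≤ η * ε k := by
  filter_upwards [h.d_ε.def hη, h.ε_rng] with k h1 h2
  rw [Real.norm_of_nonneg (by positivity), Real.norm_of_nonneg h2.1.le] at h1
  exact h1

theorem p6_wall_fam_seq (hc : c.Ok) (h : P6WallSeq U c P T ε θ φ) :
    ∀ᶠ k in U, (p6Wall (P k) (T k) (ε k) (θ k) (φ k)).Fam ((P k).d ^ 2) := by
  filter_upwards [h.ok, h.ε_rng, h.θ_rng, h.φ_ok, p6w_d_eps h one_pos] with k h1 h2 h3 h4 h5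
  exact p6_wall_adm hc.cE_pos h1 h2.1 h2.2 h3.1 h3.2 h4.1 h4.2 (by linarith) (p6w_rmin_le_d hc.cE_pos h1)

/-- the low field is in `[0, 1/4]` as soon as `d² ≤ 1` -/
theorem p6w_h0_bd {cE D0 : ℝ} (hcE : 0 < cE) {P : CmCall} (hok : P.Ok cE D0) {T ε θ : ℝ} {φ : ℝ → ℝ} (hε : 0 < ε) (hεT : ε ≤ T) (hθ0 : 0 ≤ θ) (hθ1 : θ ≤ 1)
    (hφ1 : ∀ u ∈ Icc 0 P.u0, 0 ≤ φ u ∧ φ u ≤ 1) (hd1 : P.d ^ 2 ≤ 1) {u : ℝ} (hu : 0 ≤ u) :
    0 ≤ (p6Wall P T ε θ φ).h0 u ∧ (p6Wall P T ε θ φ).h0 u ≤ 1 / 4 := by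
  obtain ⟨k0, k1⟩ := p6w_coef (P := P) hε hεT hθ0 hθ1 hok.r0
  have hrd := p6w_rmin_le_d hcE hok
  have hd : P.d ≤ 1 := by
    have := hok.d0
    nlinarith
  have k2 : P.d ^ 2 * P.rmin / 4 ≤ 1 / 4 := by
    have h1 : P.rmin ≤ 1 := hrd.trans hd
    have h2 : 0 ≤ P.d ^ 2 := by positivity
    have := hok.r0
    nlinarith
  show 0 ≤ (if u < P.u0 then θ * (min ε (T - ε) / 2) * (P.d ^ 2 * P.rmin / (2 * ε)) * φ u else 0) ∧
    (if u < P.u0 then θ * (min ε (T - ε) / 2) * (P.d ^ 2 * P.rmin / (2 * ε)) * φ u else 0) ≤ 1 / 4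
  split_ifs with h0
  · obtain ⟨f0, f1⟩ := hφ1 u ⟨hu, h0.le⟩
    refine ⟨mul_nonneg k0 f0, ?_⟩
    nlinarith
  · norm_num

/-- the wall instances form a sequence of instances -/
theorem p6_wall_P6Seq (hc : c.Ok) (hK : c.Tinf + 2 ≤ c.K) (h : P6WallSeq U c P T ε θ φ) :
    P6Seq U c (fun k => p6Wall (P k) (T k) (ε k) (θ k) (φ k)) where
  n_top := h.n_top
  m_eq := h.m_eq
  ok := h.ok
  T_lim := h.T_lim
  dT := by
    have hρ : 0 < (c.Tinf - c.ρ) / 2 := by linarith [hc.ρ_lt]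
    filter_upwards [p6w_d_sq h hρ, p6w_T_rng h hρ] with k h1 h2
    show (P k).d ^ 2 ≤ T k - c.ρ
    linarith [h2.1]
  u0_small := h.u0_small
  ep4 := by
    intro κ η hκ hη
    filter_upwards [h.ok] with k hok z u h1 _ h3 _ _ _
    have h3' : (P k).u0 < u := h3
    have ha := cm_a_pos hc.cE_pos hok
    have hz : 0 < z := lt_of_lt_of_le (by positivity) (h1 : (P k).a / κ ≤ z)
    have e1 : (p6Wall (P k) (T k) (ε k) (θ k) (φ k)).b0 u = T k := if_neg (not_lt.2 h3'.le)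
    have e2 : (p6Wall (P k) (T k) (ε k) (θ k) (φ k)).h0 u = 0 := if_neg (not_lt.2 h3'.le)
    have e3 : (p6Wall (P k) (T k) (ε k) (θ k) (φ k)).T = T k := rfl
    rw [e1, e2, e3]
    simp only [sub_self, abs_zero]
    exact ⟨by positivity, by positivity⟩
  clk := by
    filter_upwards [h.ok, h.ε_rng, h.θ_rng, h.φ_ok, p6w_T_rng h one_pos, p6w_d_sq h one_pos] with k h1 h2 h3 h4 h5 h6 u hu
    obtain ⟨l1, l2, -⟩ := p6w_low h2.1 h2.2 h3.1 h3.2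
    obtain ⟨f0, f1⟩ := p6w_h0_bd hc.cE_pos h1 h2.1 h2.2 h3.1 h3.2 h4.2 h6 hu.1
    have hT1 := hc.T_gt
    refine ⟨?_, ?_⟩
    · show |if u < (P k).u0 then T k - (ε k + θ k * (min (ε k) (T k - ε k) / 2)) else T k| ≤ c.K
      split_ifs <;> rw [abs_le] <;> constructor <;> linarith [h2.1, h2.2, h5.1, h5.2]
    · rw [abs_le]
      constructor <;> linarith [h5.1, h5.2]
  mono := by
    refine Eventually.of_forall fun k => ⟨?_, ?_⟩
    · intro u hu v hv _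
      have hu1 : (P k).u0 ≤ u := hu.1
      have hv1 : (P k).u0 ≤ v := hv.1
      show (if u < (P k).u0 then _ else T k) ≤ (if v < (P k).u0 then _ else T k)
      rw [if_neg (not_lt.2 hu1), if_neg (not_lt.2 hv1)]
    · intro u hu v hv _
      have hu1 : (P k).u0 ≤ u := hu.1
      have hv1 : (P k).u0 ≤ v := hv.1
      show (if u < (P k).u0 then _ else (0 : ℝ)) ≤ (if v < (P k).u0 then _ else (0 : ℝ))
      rw [if_neg (not_lt.2 hu1), if_neg (not_lt.2 hv1)]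

/-- margins and clock bounds of the changed wall paths -/
theorem p6_wall_marg (hc : c.Ok) (h : P6WallSeq U c P T ε θ φ) :
    ∀ᶠ k in U, ∀ r, (P k).Fe r →
      P6Marg ((p6Wall (P k) (T k) (ε k) (θ k) (φ k)).Pb ((P k).d ^ 2) r) (if ε k < T k / 4 then 0 else (P k).u0) (c.Tinf / 16) ∧
      P6Bd ((p6Wall (P k) (T k) (ε k) (θ k) (φ k)).Pb ((P k).d ^ 2) r) ((p6Wall (P k) (T k) (ε k) (θ k) (φ k)).Ph ((P k).d ^ 2) r) (c.Tinf + 1) := by
  have hT1 := hc.T_gt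
  have hη : 0 < c.Tinf / 16 := by linarith
  have hη2 : 0 < min (c.Tinf / 2) 1 := lt_min (by linarith) one_pos
  filter_upwards [h.ok, h.ε_rng, h.θ_rng, h.φ_ok, p6w_T_rng h hη2, p6w_d_sq h one_pos, p6w_d_sq h hη] with k h1 h2 h3 h4 h5' h6 h7 r hr
  have h5 : c.Tinf / 2 ≤ T k ∧ T k ≤ c.Tinf + 1 :=
    ⟨by linarith [h5'.1, min_le_left (c.Tinf / 2) 1], by linarith [h5'.2, min_le_right (c.Tinf / 2) 1]⟩
  obtain ⟨l1, l2, l3⟩ := p6w_low h2.1 h2.2 h3.1 h3.2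
  have hl : 0 ≤ (P k).d ^ 2 := by positivity
  set bl : ℝ := T k - (ε k + θ k * (min (ε k) (T k - ε k) / 2)) with hbl
  have hPb : ∀ u, (p6Wall (P k) (T k) (ε k) (θ k) (φ k)).Pb ((P k).d ^ 2) r u =
      if (P k).u0 ≤ u then T k - (P k).e ((P k).d ^ 2) (r u) else bl := by
    intro u
    unfold P6D.Pb
    by_cases h0 : (P k).u0 ≤ u
    · have h0' : (p6Wall (P k) (T k) (ε k) (θ k) (φ k)).P.u0 ≤ u := h0
      rw [if_pos h0', if_pos h0]
      have e1 : (p6Wall (P k) (T k) (ε k) (θ k) (φ k)).b0 u = T k := if_neg (not_lt.2 h0)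
      rw [e1]
      rfl
    · have h0' : ¬ (p6Wall (P k) (T k) (ε k) (θ k) (φ k)).P.u0 ≤ u := h0
      rw [if_neg h0', if_neg h0]
      exact if_pos (not_le.1 h0)
  have he : ∀ t, 0 ≤ (P k).e ((P k).d ^ 2) t ∧ (P k).e ((P k).d ^ 2) t ≤ (P k).d ^ 2 := fun t => p6f_e_bd hl t
  refine ⟨?_, ?_⟩
  · by_cases hε4 : ε k < T k / 4
    · rw [if_pos hε4]
      refine ⟨?_, ?_⟩
      · intro u _ _
        rw [hPb]
        split_ifs
        · linarith [(he (r u)).2, h5.1]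
        · linarith [h5.1]
      · intro u v a1 a2 _ _
        exact absurd a1 (not_le.2 a2)
    · rw [if_neg hε4]
      refine ⟨?_, ?_⟩
      · intro u a1 _
        rw [hPb, if_pos a1]
        linarith [(he (r u)).2, h5.1]
      · intro u v _ a2 a3 _
        rw [hPb, hPb, if_pos a3, if_neg (not_le.2 a2)]
        have := not_lt.1 hε4
        linarith [(he (r v)).2, h5.1]
  · intro u hu
    refine ⟨?_, ?_⟩
    · rw [hPb]
      split_ifs <;> rw [abs_le] <;> constructor <;> linarith [(he (r u)).1, (he (r u)).2, h5.1, h5.2, h2.1, h2.2]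
    · unfold P6D.Ph
      obtain ⟨f0, f1⟩ := p6w_h0_bd hc.cE_pos h1 h2.1 h2.2 h3.1 h3.2 h4.2 h6 hu.1
      by_cases h0 : (P k).u0 ≤ u
      · have h0' : (p6Wall (P k) (T k) (ε k) (θ k) (φ k)).P.u0 ≤ u := h0
        rw [if_pos h0']
        obtain ⟨g0, g1⟩ := p6f_re_bd hc.cE_pos h1 hr hl (⟨h0, hu.2⟩ : u ∈ Icc (P k).u0 1)
        have g0' : 0 ≤ (p6Wall (P k) (T k) (ε k) (θ k) (φ k)).P.e ((P k).d ^ 2) (r u) * r u := g0
        have g1' : (p6Wall (P k) (T k) (ε k) (θ k) (φ k)).P.e ((P k).d ^ 2) (r u) * r u ≤ (P k).d ^ 2 := g1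
        rw [abs_le]
        constructor <;> linarith [h5.1, h5.2]
      · have h0' : ¬ (p6Wall (P k) (T k) (ε k) (θ k) (φ k)).P.u0 ≤ u := h0
        rw [if_neg h0', abs_le]
        constructor <;> linarith [h5.1, h5.2]

/-- **C11 = PE Cor. 6.7** -/
theorem p6_wall_seq (hI : P6Imports fn c cκ Cκ cT CT) (hc : c.Ok) (hK : c.Tinf + 2 ≤ c.K) {r : ℕ → ℝ → ℝ} (h : P6WallSeq U c P T ε θ φ)
    (min : ∀ᶠ k in U, (p6Wall (P k) (T k) (ε k) (θ k) (φ k)).IsMin fn ((P k).d ^ 2) (r k)) :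
    ∀ᶠ k in U, ∀ u, (P k).Al ((P k).d ^ 2) ≤ u → u ≤ 1 → p6Lo Cκ cT * u ≤ r k u ∧ r k u ≤ p6Hi cκ CT * u := by
  have hT1 := hc.T_gt
  have hm := p6_wall_marg hc h
  refine p6_profile_seq (β0 := c.Tinf / 16) (κ0 := c.Tinf + 1) (j0 := fun k => if ε k < T k / 4 then 0 else (P k).u0)
    (D := fun k => p6Wall (P k) (T k) (ε k) (θ k) (φ k)) (lam := fun k => (P k).d ^ 2) hI hc (by linarith) (by linarith)
    (p6_wall_P6Seq hc hK h) ?_ (p6_wall_fam_seq hc h) min ?_ ?_ ?_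
  · filter_upwards [h.ok] with k h1
    have := h1.d0
    exact ⟨by positivity, le_rfl⟩
  · filter_upwards [h.ok] with k h1
    have := h1.u00
    show 0 ≤ (if ε k < T k / 4 then 0 else (P k).u0) ∧ (if ε k < T k / 4 then 0 else (P k).u0) ≤ (P k).u0
    split_ifs
    · exact ⟨le_rfl, this⟩
    · exact ⟨this, le_rfl⟩
  · filter_upwards [hm, min] with k h1 h2
    exact (h1 (r k) h2.1).1
  · filter_upwards [hm, min] with k h1 h2
    exact (h1 (r k) h2.1).2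

end Claimed.Agent.R286

/-!
# Row 286 (S0533), unit PE6 = PE Section 6 (propagation.tex): CONTRACT      (section head helper14, ADV / second head helper1, chief helper142)

## EXITS (users: PE Sec. 7 = helper196/158: S2, S3, S4, S7;   LL 06/07 through the same forms)
* `p6_profile`   Prop. 6.6, profile assertion (fixed strength families AND ordinary families), CONSTANTS FIRST: the constants are `p6Lo Cκ cT < p6Hi cκ CT`.
* `p6_error`     Prop. 6.6, error bound `0 ≤ V(λ) - f_n(b0,h0) ≤ n^{20δ} E` for ordinary families, all `0 ≤ λ ≤ d²`, all minimisers.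
* `p6_wall_fam`, `p6_wall`   Cor. 6.7 (field wall): admissibility of every changed path and the profile, along ARBITRARY sequences of wall parameters `(T, ε, θ, φ)`.
All exits are sequence statements along an arbitrary ultrafilter `U` on `ℕ` (uniform statements follow by `aq_eventually_iff_ultra` + choice of a violating sequence).

## IMPORTS (file `Pe6/Imports.lean`; hypothesis `hI : P6Imports fn c cκ Cκ cT CT`; to be supplied for `fn = fun n => skCPr n 1`)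
* `P6Chord` (PE L7.1)  from 158/196      * `P6ImpMin` (PE L3.1) from 255      * `P6ImpSweep` (PE conditional error + envelope) from 294
* `P6ImpDirect` (PE T5.1) from 24/98      * `P6ImpMacro` (PE P5.9 + L5.8) from 67
* numerics of a call `cm_*` (Cmp/Num, Cmp/Prof; 192's platoon);   asymptotic calculus `aq_*` (298).
The imports are used at the clock bound `c.K`; the families to which the exits apply have clocks bounded by `κ0 ≤ c.K - 1` ("enlarge the initial total-clock bounds by one").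

## INTERNAL DAG (all files in `R286/Pe6/`)
 Lattice, Harm, MoveAlg (proved) -> BarUp, BarDn (L6.4 fixed size) ; Defs -> Bridge (CmQ <-> forward class) -> Basic -> Move (L6.3) -> Gain ; Fam (Def 6.1) ; Asy -> Child (L6.2)
 -> NoSep (no threshold separation) -> Succ (L6.5 + strong case) -> Step -> Chain (P6.6) -> Wall (C6.7) -> Contract (this file: the exits, proved from the DAG).

## HOW TO USE `j0`, `β0`  (Def. 6.1, the two covariance alternatives)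
`j0 k ∈ [0, u0]` = left end of the working interval of ALL descendants (`j0 = u0`: high-only descendants; `j0 = 0`: all-mass descendants).
`P6Marg b j0 β0`: the changed matrix clock `b` is `≥ β0` on `[j0,1]` and jumps by `≥ β0` across `j0`.
-/

set_option autoImplicit false

namespace Claimed.Agent.R286

open Filter Topology Set MeasureTheory Asymptotics

variable {fn : ℕ → (ℝ → ℝ) → (ℝ → ℝ) → ℝ} {c : P6C} {cκ Cκ cT CT β0 κ0 : ℝ} {U : Ultrafilter ℕ}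

/-- **EXIT 1 = PE Prop. 6.6, profile.**   TEX[PE:reg:finite-propagation] -/
theorem p6_profile (hI : P6Imports fn c cκ Cκ cT CT) (hc : c.Ok) (hβ0 : 0 < β0) (hK : κ0 + 1 ≤ c.K)
    {D : ℕ → P6D} {lam : ℕ → ℝ} {r : ℕ → ℝ → ℝ} {j0 : ℕ → ℝ} (seq : P6Seq U c D)
    (lam_rng : ∀ᶠ k in U, 0 < lam k ∧ lam k ≤ (D k).P.d ^ 2)
    (fam : ∀ᶠ k in U, (D k).Fam (lam k))
    (min : ∀ᶠ k in U, (D k).IsMin fn (lam k) (r k))
    (j0_rng : ∀ᶠ k in U, 0 ≤ j0 k ∧ j0 k ≤ (D k).P.u0)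
    (marg : ∀ᶠ k in U, P6Marg ((D k).Pb (lam k) (r k)) (j0 k) β0)
    (clkP : ∀ᶠ k in U, P6Bd ((D k).Pb (lam k) (r k)) ((D k).Ph (lam k) (r k)) κ0) :
    ∀ᶠ k in U, ∀ u, (D k).P.Al (lam k) ≤ u → u ≤ 1 → p6Lo Cκ cT * u ≤ r k u ∧ r k u ≤ p6Hi cκ CT * u :=
  p6_profile_seq hI hc hβ0 hK seq lam_rng fam min j0_rng marg clkP

/-- **EXIT 2 = PE Prop. 6.6, error bound for ordinary families.**   TEX[PE:reg:finite-propagation] -/
theorem p6_error (hI : P6Imports fn c cκ Cκ cT CT) (hc : c.Ok) (hβ0 : 0 < β0) (hK : κ0 + 1 ≤ c.K)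
    {D : ℕ → P6D} {j0 : ℕ → ℝ} (seq : P6Seq U c D)
    (ord : ∀ᶠ k in U, (D k).Ord)
    (j0_rng : ∀ᶠ k in U, 0 ≤ j0 k ∧ j0 k ≤ (D k).P.u0)
    (marg : ∀ᶠ k in U, ∀ l s, 0 < l → l ≤ (D k).P.d ^ 2 → (D k).P.Fe s →
      P6Marg ((D k).Pb l s) (j0 k) β0 ∧ P6Bd ((D k).Pb l s) ((D k).Ph l s) κ0) :
    ∀ᶠ k in U, ∀ l s, 0 ≤ l → l ≤ (D k).P.d ^ 2 → (D k).IsMin fn l s →
      0 ≤ (D k).err fn l s ∧ (D k).err fn l s ≤ (D k).P.N ^ (20 * (D k).P.dl) * (D k).P.E :=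
  p6_error_seq hI hc hβ0 hK seq ord j0_rng marg

/-- **EXIT 3a = PE Cor. 6.7, admissibility**: every changed parent trial is an admissible path   TEX[PE:reg:wall-uniformity] -/
theorem p6_wall_fam (hc : c.Ok) {P : ℕ → CmCall} {T ε θ : ℕ → ℝ} {φ : ℕ → ℝ → ℝ} (h : P6WallSeq U c P T ε θ φ) :
    ∀ᶠ k in U, (p6Wall (P k) (T k) (ε k) (θ k) (φ k)).Fam ((P k).d ^ 2) :=
  p6_wall_fam_seq hc h

/-- **EXIT 3b = PE Cor. 6.7, uniformity for the field wall**   TEX[PE:reg:wall-uniformity] -/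
theorem p6_wall (hI : P6Imports fn c cκ Cκ cT CT) (hc : c.Ok) (hK : c.Tinf + 2 ≤ c.K)
    {P : ℕ → CmCall} {T ε θ : ℕ → ℝ} {φ : ℕ → ℝ → ℝ} {r : ℕ → ℝ → ℝ} (h : P6WallSeq U c P T ε θ φ)
    (min : ∀ᶠ k in U, (p6Wall (P k) (T k) (ε k) (θ k) (φ k)).IsMin fn ((P k).d ^ 2) (r k)) :
    ∀ᶠ k in U, ∀ u, (P k).Al ((P k).d ^ 2) ≤ u → u ≤ 1 → p6Lo Cκ cT * u ≤ r k u ∧ r k u ≤ p6Hi cκ CT * u :=
  p6_wall_seq hI hc hK h min

/-- **all exits in one record** -/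
theorem p6_exit (hI : P6Imports fn c cκ Cκ cT CT) (hc : c.Ok) : P6Exit fn c (p6Lo Cκ cT) (p6Hi cκ CT) where
  profile := fun _ _ _ _ _ _ _ hβ0 hK seq lam_rng fam min j0_rng marg clkP => p6_profile hI hc hβ0 hK seq lam_rng fam min j0_rng marg clkP
  error := fun _ _ _ _ _ hβ0 hK seq ord j0_rng marg => p6_error hI hc hβ0 hK seq ord j0_rng marg
  wall_fam := fun _ _ _ _ _ _ h => p6_wall_fam hc h
  wall := fun hK _ _ _ _ _ _ _ h min => p6_wall hI hc hK h min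

/-- `p6Lo < p6Hi` -/
theorem p6Lo_lt_Hi : p6Lo Cκ cT < p6Hi cκ CT :=
  lt_of_le_of_lt (min_le_left _ _) (lt_of_lt_of_le (by norm_num) (le_max_left _ _))

end Claimed.Agent.R286

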