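import Mathlib

/-! # Row 286, PE Sec. 6: file `Pe6/Kit` = the closed files Lattice, Harm, MoveAlg, BarUp, BarDn merged (file cap, helper14 04:2xZ); every part keeps its own header, owners and namespace block. -/

/-! Row 286, PE Sec. 6 : slope constraints (5) in integrated (monotone) form and their closure
properties.  Everything is derivative free.  `Λ` = forced rise, `ψ(q) = A (1/B - 1/(q+B))`. -/

set_option autoImplicit false
open Set

namespace Claimed.Agent.R286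

/-- lower slope constraint `r' ≥ l` in integrated form (`Λ' = l`). -/
def P6Lo (Λ w : ℝ → ℝ) (s : Set ℝ) : Prop := MonotoneOn (fun u => w u - Λ u) s

/-- the primitive of the floor `k(q) = A/(q+B)^2`. -/
noncomputable def p6Psi (A B q : ℝ) : ℝ := A * (1 / B - 1 / (q + B))

/-- upper slope constraint `r' ≤ 1/k(r)` in integrated form. -/
def P6Up (A B : ℝ) (w : ℝ → ℝ) (s : Set ℝ) : Prop :=
  MonotoneOn (fun u => u - p6Psi A B (w u)) s

theorem p6Psi_sub {A B q q' : ℝ} (hq : 0 < q + B) (hq' : 0 < q' + B) :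
    p6Psi A B q' - p6Psi A B q = A * (q' - q) / ((q + B) * (q' + B)) := by
  unfold p6Psi
  field_simp
  ring

theorem p6Psi_mono {A B : ℝ} (hA : 0 ≤ A) (hB : 0 < B) : MonotoneOn (p6Psi A B) (Ici 0) := by
  intro q hq q' hq' h
  have h1 : 0 < q + B := by have := mem_Ici.1 hq; linarith
  have h2 : 0 < q' + B := by have := mem_Ici.1 hq'; linarith
  have := p6Psi_sub (A := A) h1 h2
  have h3 : 0 ≤ A * (q' - q) / ((q + B) * (q' + B)) := by
    apply div_nonneg (mul_nonneg hA (by linarith)) (by positivity)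
  linarith

/-- `ψ` is `k(0)`-Lipschitz on nonnegative radii. -/
theorem p6Psi_sub_le {A B q q' : ℝ} (hA : 0 ≤ A) (hB : 0 < B) (hq : 0 ≤ q) (h : q ≤ q') :
    p6Psi A B q' - p6Psi A B q ≤ A / B ^ 2 * (q' - q) := by
  have h1 : 0 < q + B := by linarith
  have h2 : 0 < q' + B := by linarith
  rw [p6Psi_sub h1 h2, div_mul_eq_mul_div]
  apply div_le_div_of_nonneg_left (mul_nonneg hA (by linarith)) (by positivity)
  nlinarith

/-- upward shifts decrease `ψ`-increments. -/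
theorem p6Psi_shift {A B q q' τ : ℝ} (hA : 0 ≤ A) (hB : 0 < B) (hq : 0 ≤ q) (h : q ≤ q')
    (hτ : 0 ≤ τ) :
    p6Psi A B (q' + τ) - p6Psi A B (q + τ) ≤ p6Psi A B q' - p6Psi A B q := by
  have h1 : 0 < q + B := by linarith
  have h2 : 0 < q' + B := by linarith
  have h3 : 0 < q + τ + B := by linarith
  have h4 : 0 < q' + τ + B := by linarith
  rw [p6Psi_sub h1 h2, p6Psi_sub h3 h4]
  have : q' + τ - (q + τ) = q' - q := by ring
  rw [this]
  apply div_le_div_of_nonneg_left (mul_nonneg hA (by linarith)) (by positivity)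
  nlinarith [mul_nonneg hτ hτ, mul_nonneg hτ h1.le, mul_nonneg hτ h2.le]

theorem P6Lo.max {Λ w₁ w₂ : ℝ → ℝ} {s : Set ℝ} (h₁ : P6Lo Λ w₁ s) (h₂ : P6Lo Λ w₂ s) :
    P6Lo Λ (fun u => max (w₁ u) (w₂ u)) s := by
  have := MonotoneOn.max h₁ h₂
  refine this.congr ?_
  intro u _
  simp only
  rw [max_sub_sub_right]

theorem P6Lo.min {Λ w₁ w₂ : ℝ → ℝ} {s : Set ℝ} (h₁ : P6Lo Λ w₁ s) (h₂ : P6Lo Λ w₂ s) :
    P6Lo Λ (fun u => min (w₁ u) (w₂ u)) s := by
  have := MonotoneOn.min h₁ h₂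
  refine this.congr ?_
  intro u _
  simp only
  rw [min_sub_sub_right]

theorem P6Lo.add_const {Λ w : ℝ → ℝ} {s : Set ℝ} (h : P6Lo Λ w s) (τ : ℝ) :
    P6Lo Λ (fun u => w u + τ) s := by
  intro u hu v hv huv
  have := h hu hv huv
  simp only at this ⊢
  linarith

/-- `Lo` and a monotone `Λ` give monotonicity. -/
theorem P6Lo.mono {Λ w : ℝ → ℝ} {s : Set ℝ} (h : P6Lo Λ w s) (hΛ : MonotoneOn Λ s) :
    MonotoneOn w s := by
  intro u hu v hv huv
  have h1 := h hu hv huv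
  have h2 := hΛ hu hv huv
  simp only at h1
  linarith

theorem P6Up.max {A B : ℝ} {w₁ w₂ : ℝ → ℝ} {s : Set ℝ} (hA : 0 ≤ A) (hB : 0 < B)
    (p₁ : ∀ u ∈ s, 0 ≤ w₁ u) (p₂ : ∀ u ∈ s, 0 ≤ w₂ u)
    (h₁ : P6Up A B w₁ s) (h₂ : P6Up A B w₂ s) :
    P6Up A B (fun u => max (w₁ u) (w₂ u)) s := by
  have := MonotoneOn.min h₁ h₂
  refine this.congr ?_
  intro u hu
  simp only
  rw [(p6Psi_mono hA hB).map_max (mem_Ici.2 (p₁ u hu)) (mem_Ici.2 (p₂ u hu)),
    min_sub_sub_left]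

theorem P6Up.min {A B : ℝ} {w₁ w₂ : ℝ → ℝ} {s : Set ℝ} (hA : 0 ≤ A) (hB : 0 < B)
    (p₁ : ∀ u ∈ s, 0 ≤ w₁ u) (p₂ : ∀ u ∈ s, 0 ≤ w₂ u)
    (h₁ : P6Up A B w₁ s) (h₂ : P6Up A B w₂ s) :
    P6Up A B (fun u => min (w₁ u) (w₂ u)) s := by
  have := MonotoneOn.max h₁ h₂
  refine this.congr ?_
  intro u hu
  simp only
  rw [(p6Psi_mono hA hB).map_min (mem_Ici.2 (p₁ u hu)) (mem_Ici.2 (p₂ u hu)),
    max_sub_sub_left]

theorem P6Up.add_const {A B τ : ℝ} {w : ℝ → ℝ} {s : Set ℝ} (hA : 0 ≤ A) (hB : 0 < B)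
    (p : ∀ u ∈ s, 0 ≤ w u) (hw : MonotoneOn w s) (h : P6Up A B w s) (hτ : 0 ≤ τ) :
    P6Up A B (fun u => w u + τ) s := by
  intro u hu v hv huv
  have h1 := h hu hv huv
  have h2 := p6Psi_shift hA hB (p u hu) (hw hu hv huv) hτ
  simp only at h1 ⊢
  linarith

/-- a nonnegative function with slope at most `σ`, `k(0) σ ≤ 1`, satisfies `Up`. -/
theorem P6Up.of_lipschitz {A B σ : ℝ} {w : ℝ → ℝ} {s : Set ℝ} (hA : 0 ≤ A) (hB : 0 < B)
    (p : ∀ u ∈ s, 0 ≤ w u) (hw : MonotoneOn w s)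
    (hσ : ∀ u ∈ s, ∀ v ∈ s, u ≤ v → w v - w u ≤ σ * (v - u)) (hk : A / B ^ 2 * σ ≤ 1) :
    P6Up A B w s := by
  intro u hu v hv huv
  have h1 := p6Psi_sub_le hA hB (p u hu) (hw hu hv huv)
  have h2 := hσ u hu v hv huv
  have h3 : 0 ≤ A / B ^ 2 := by positivity
  have h4 : A / B ^ 2 * (w v - w u) ≤ A / B ^ 2 * σ * (v - u) := by
    calc A / B ^ 2 * (w v - w u) ≤ A / B ^ 2 * (σ * (v - u)) :=
          mul_le_mul_of_nonneg_left h2 h3
      _ = A / B ^ 2 * σ * (v - u) := by ring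
  have h5 : A / B ^ 2 * σ * (v - u) ≤ 1 * (v - u) :=
    mul_le_mul_of_nonneg_right hk (by linarith)
  simp only
  linarith

/-- gluing of monotone pieces. -/
theorem p6_monoOn_glue {g : ℝ → ℝ} {a b c : ℝ} (h₁ : MonotoneOn g (Icc a b))
    (h₂ : MonotoneOn g (Icc b c)) : MonotoneOn g (Icc a c) := by
  intro u hu v hv huv
  rcases le_total v b with hvb | hvb
  · exact h₁ ⟨hu.1, huv.trans hvb⟩ ⟨hv.1, hvb⟩ huv
  · rcases le_total u b with hub | hub
    · have hab : a ≤ b := hu.1.trans hub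
      have hbc : b ≤ c := hvb.trans hv.2
      exact (h₁ ⟨hu.1, hub⟩ ⟨hab, le_rfl⟩ hub).trans (h₂ ⟨le_rfl, hbc⟩ ⟨hvb, hv.2⟩ hvb)
    · exact h₂ ⟨hub, huv.trans hv.2⟩ ⟨hvb, hv.2⟩ huv

end Claimed.Agent.R286

/-! Row 286, PE Sec. 6 : the `ψ`-interpolation of two feasible radii is a weighted harmonic mean of
`r + B`; it preserves both slope constraints (superadditivity of the harmonic mean). -/

set_option autoImplicit false
open Set

namespace Claimed.Agent.R286

/-- weighted harmonic mean. -/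
noncomputable def p6Hm (t X Y : ℝ) : ℝ := X * Y / ((1 - t) * Y + t * X)

theorem p6Hm_den_pos {t X Y : ℝ} (ht0 : 0 ≤ t) (ht1 : t ≤ 1) (hX : 0 < X) (hY : 0 < Y) :
    0 < (1 - t) * Y + t * X := by
  rcases eq_or_lt_of_le ht0 with h | h
  · subst h; simpa using hY
  · have : 0 ≤ (1 - t) * Y := mul_nonneg (by linarith) hY.le
    have : 0 < t * X := mul_pos h hX
    linarith

theorem p6Hm_pos {t X Y : ℝ} (ht0 : 0 ≤ t) (ht1 : t ≤ 1) (hX : 0 < X) (hY : 0 < Y) :
    0 < p6Hm t X Y := div_pos (mul_pos hX hY) (p6Hm_den_pos ht0 ht1 hX hY)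

theorem p6Hm_inv {t X Y : ℝ} (ht0 : 0 ≤ t) (ht1 : t ≤ 1) (hX : 0 < X) (hY : 0 < Y) :
    1 / p6Hm t X Y = (1 - t) / X + t / Y := by
  have := p6Hm_den_pos ht0 ht1 hX hY
  unfold p6Hm
  field_simp

theorem p6Hm_mono {t X Y X' Y' : ℝ} (ht0 : 0 ≤ t) (ht1 : t ≤ 1) (hX : 0 < X) (hY : 0 < Y)
    (hXX : X ≤ X') (hYY : Y ≤ Y') : p6Hm t X Y ≤ p6Hm t X' Y' := by
  have hX' : 0 < X' := hX.trans_le hXX
  have hY' : 0 < Y' := hY.trans_le hYY
  have h1 := p6Hm_pos ht0 ht1 hX hY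
  have h2 := p6Hm_pos ht0 ht1 hX' hY'
  have h3 : 1 / p6Hm t X' Y' ≤ 1 / p6Hm t X Y := by
    rw [p6Hm_inv ht0 ht1 hX hY, p6Hm_inv ht0 ht1 hX' hY']
    have a1 : (1 - t) / X' ≤ (1 - t) / X :=
      div_le_div_of_nonneg_left (by linarith) hX hXX
    have a2 : t / Y' ≤ t / Y := div_le_div_of_nonneg_left ht0 hY hYY
    linarith
  exact (one_div_le_one_div h2 h1).1 h3

/-- superadditivity under a common shift. -/
theorem p6Hm_shift {t X Y s : ℝ} (ht0 : 0 ≤ t) (ht1 : t ≤ 1) (hX : 0 < X) (hY : 0 < Y)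
    (hs : 0 ≤ s) : p6Hm t X Y + s ≤ p6Hm t (X + s) (Y + s) := by
  have hN := p6Hm_den_pos ht0 ht1 hX hY
  have hN' := p6Hm_den_pos ht0 ht1 (show 0 < X + s by linarith) (show 0 < Y + s by linarith)
  unfold p6Hm
  rw [div_add' _ _ _ hN.ne', div_le_div_iff₀ hN hN']
  have key : X * Y ≤ ((1 - t) * Y + t * X) * (t * Y + (1 - t) * X) := by
    have : ((1 - t) * Y + t * X) * (t * Y + (1 - t) * X) - X * Y = t * (1 - t) * (X - Y) ^ 2 := by
      ring
    have h2 : 0 ≤ t * (1 - t) * (X - Y) ^ 2 :=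
      mul_nonneg (mul_nonneg ht0 (by linarith)) (sq_nonneg _)
    linarith
  have : (X + s) * (Y + s) * ((1 - t) * Y + t * X)
      - (X * Y + s * ((1 - t) * Y + t * X)) * ((1 - t) * (Y + s) + t * (X + s))
      = s * (((1 - t) * Y + t * X) * (t * Y + (1 - t) * X) - X * Y) := by ring
  have h3 : 0 ≤ s * (((1 - t) * Y + t * X) * (t * Y + (1 - t) * X) - X * Y) :=
    mul_nonneg hs (by linarith)
  linarith

theorem p6Hm_sub {t X Y : ℝ} (ht0 : 0 ≤ t) (ht1 : t ≤ 1) (hX : 0 < X) (hY : 0 < Y) :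
    X - p6Hm t X Y = t * X * (X - Y) / ((1 - t) * Y + t * X) := by
  have := p6Hm_den_pos ht0 ht1 hX hY
  unfold p6Hm
  rw [eq_div_iff this.ne', sub_mul, div_mul_cancel₀ _ this.ne']
  ring

/-- lower bound of the displacement. -/
theorem p6Hm_disp_ge {t X Y : ℝ} (ht0 : 0 ≤ t) (ht1 : t ≤ 1) (hY : 0 < Y) (hYX : Y ≤ X) :
    t * (X - Y) ≤ X - p6Hm t X Y := by
  have hX : 0 < X := hY.trans_le hYX
  have hN := p6Hm_den_pos ht0 ht1 hX hY
  rw [p6Hm_sub ht0 ht1 hX hY, le_div_iff₀ hN]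
  have : t * X * (X - Y) - t * (X - Y) * ((1 - t) * Y + t * X) = t * (1 - t) * (X - Y) ^ 2 := by ring
  have h2 : 0 ≤ t * (1 - t) * (X - Y) ^ 2 :=
    mul_nonneg (mul_nonneg ht0 (by linarith)) (sq_nonneg _)
  linarith

/-- upper bound of the displacement. -/
theorem p6Hm_disp_le {t X Y : ℝ} (ht0 : 0 ≤ t) (ht1 : t ≤ 1) (hY : 0 < Y) (hYX : Y ≤ X) :
    X - p6Hm t X Y ≤ t * (X / Y) * (X - Y) := by
  have hX : 0 < X := hY.trans_le hYX
  have hN := p6Hm_den_pos ht0 ht1 hX hY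
  rw [p6Hm_sub ht0 ht1 hX hY, div_le_iff₀ hN]
  have h1 : Y ≤ (1 - t) * Y + t * X := by nlinarith
  have h2 : 0 ≤ t * (X / Y) * (X - Y) :=
    mul_nonneg (mul_nonneg ht0 (div_nonneg hX.le hY.le)) (by linarith)
  calc t * X * (X - Y) = t * (X / Y) * (X - Y) * Y := by field_simp
    _ ≤ t * (X / Y) * (X - Y) * ((1 - t) * Y + t * X) := mul_le_mul_of_nonneg_left h1 h2

theorem p6Hm_ge_right {t X Y : ℝ} (ht0 : 0 ≤ t) (ht1 : t ≤ 1) (hY : 0 < Y) (hYX : Y ≤ X) :
    Y ≤ p6Hm t X Y := by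
  have hX : 0 < X := hY.trans_le hYX
  have hN := p6Hm_den_pos ht0 ht1 hX hY
  unfold p6Hm
  rw [le_div_iff₀ hN]
  nlinarith [mul_nonneg (mul_nonneg (show 0 ≤ 1 - t by linarith) hY.le) (show 0 ≤ X - Y by linarith)]

theorem p6Hm_self {t X : ℝ} (hX : 0 < X) : p6Hm t X X = X := by
  unfold p6Hm
  have : (1 - t) * X + t * X = X := by ring
  rw [this]
  field_simp

/-- the interpolated radius. -/
noncomputable def p6HmR (B t : ℝ) (w₁ w₂ : ℝ → ℝ) (u : ℝ) : ℝ :=
  p6Hm t (w₁ u + B) (w₂ u + B) - B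

theorem P6Lo.harm {Λ w₁ w₂ : ℝ → ℝ} {s : Set ℝ} {B t : ℝ} (hB : 0 < B) (ht0 : 0 ≤ t)
    (ht1 : t ≤ 1) (hΛ : MonotoneOn Λ s) (p₁ : ∀ u ∈ s, 0 ≤ w₁ u) (p₂ : ∀ u ∈ s, 0 ≤ w₂ u)
    (h₁ : P6Lo Λ w₁ s) (h₂ : P6Lo Λ w₂ s) : P6Lo Λ (p6HmR B t w₁ w₂) s := by
  intro u hu v hv huv
  have a1 := h₁ hu hv huv
  have a2 := h₂ hu hv huv
  have a3 := hΛ hu hv huv
  simp only at a1 a2
  have hX : 0 < w₁ u + B := by have := p₁ u hu; linarith
  have hY : 0 < w₂ u + B := by have := p₂ u hu; linarith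
  have b1 := p6Hm_shift (s := Λ v - Λ u) ht0 ht1 hX hY (by linarith)
  have b2 : p6Hm t (w₁ u + B + (Λ v - Λ u)) (w₂ u + B + (Λ v - Λ u))
      ≤ p6Hm t (w₁ v + B) (w₂ v + B) :=
    p6Hm_mono ht0 ht1 (by linarith) (by linarith) (by linarith) (by linarith)
  simp only [p6HmR]
  linarith

theorem p6Psi_harm {A B t : ℝ} {q₁ q₂ : ℝ} (ht0 : 0 ≤ t) (ht1 : t ≤ 1)
    (h₁ : 0 < q₁ + B) (h₂ : 0 < q₂ + B) :
    p6Psi A B (p6Hm t (q₁ + B) (q₂ + B) - B) = (1 - t) * p6Psi A B q₁ + t * p6Psi A B q₂ := by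
  unfold p6Psi
  have : p6Hm t (q₁ + B) (q₂ + B) - B + B = p6Hm t (q₁ + B) (q₂ + B) := by ring
  rw [this, p6Hm_inv ht0 ht1 h₁ h₂]
  ring

theorem P6Up.harm {A B t : ℝ} {w₁ w₂ : ℝ → ℝ} {s : Set ℝ} (hB : 0 < B) (ht0 : 0 ≤ t)
    (ht1 : t ≤ 1) (p₁ : ∀ u ∈ s, 0 ≤ w₁ u) (p₂ : ∀ u ∈ s, 0 ≤ w₂ u)
    (h₁ : P6Up A B w₁ s) (h₂ : P6Up A B w₂ s) : P6Up A B (p6HmR B t w₁ w₂) s := by
  intro u hu v hv huv
  have a1 := h₁ hu hv huv
  have a2 := h₂ hu hv huv
  simp only at a1 a2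
  simp only [p6HmR]
  rw [p6Psi_harm ht0 ht1 (by have := p₁ u hu; linarith) (by have := p₂ u hu; linarith),
    p6Psi_harm ht0 ht1 (by have := p₁ v hv; linarith) (by have := p₂ v hv; linarith)]
  nlinarith [mul_le_mul_of_nonneg_left a1 (show 0 ≤ 1 - t by linarith),
    mul_le_mul_of_nonneg_left a2 ht0]

end Claimed.Agent.R286

/-! Row 286, PE Lemma 6.3 (movement using admissible paths) : the pointwise algebra. -/

set_option autoImplicit false

namespace Claimed.Agent.R286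

/-- `-aB/4 + cS/2 ≤ c²/(4a)` for `B ≥ S²`, `a > 0`. -/
theorem p6_move_sup {a c S B : ℝ} (ha : 0 < a) (hB : S ^ 2 ≤ B) :
    -(1 / 4) * B * a - (1 / 2) * S * (-c) ≤ c ^ 2 / a / 4 := by
  have h1 : -(1 / 4) * B * a ≤ -(1 / 4) * S ^ 2 * a := by nlinarith
  have h2 : c ^ 2 / a / 4 - (-(1 / 4) * S ^ 2 * a - (1 / 2) * S * (-c)) = (c - a * S) ^ 2 / a / 4 := by
    field_simp
    ring
  have h3 : 0 ≤ (c - a * S) ^ 2 / a / 4 := by positivity
  linarith

/-- positivity of the residual matrix coefficient. -/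
theorem p6_move_a_pos {e D eh ω : ℝ} (he : 0 < e) (hD : 0 < D) (hP : ω * (e + D) < D)
    (heh : eh * (1 - ω) ≤ e) : 0 < e + D - eh := by
  have h1 : ω < 1 := by
    by_contra h
    have h' : 1 ≤ ω := not_lt.1 h
    nlinarith
  have h2 : 0 < (e + D - eh) * (1 - ω) := by nlinarith
  exact (pos_iff_pos_of_mul_pos h2).2 (by linarith)

/-- the key inequality of Lemma 6.3. -/
theorem p6_move_key {e D eh ω r z : ℝ} (he : 0 < e) (hD : 0 < D) (hP : ω * (e + D) < D)
    (heh : eh * (1 - ω) ≤ e) :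
    e * ω * (z - r) ^ 2 ≤ e * r ^ 2 + D * z ^ 2 - eh * (r + ω * (z - r)) ^ 2
      - (e * r + D * z - eh * (r + ω * (z - r))) ^ 2 / (e + D - eh) := by
  have ha := p6_move_a_pos he hD hP heh
  have hid : e * r ^ 2 + D * z ^ 2 - eh * (r + ω * (z - r)) ^ 2
      - (e * r + D * z - eh * (r + ω * (z - r))) ^ 2 / (e + D - eh) - e * ω * (z - r) ^ 2
      = (z - r) ^ 2 * ((D - ω * (e + D)) * (e - eh * (1 - ω))) / (e + D - eh) := by
    field_simp
    ring
  have : 0 ≤ (z - r) ^ 2 * ((D - ω * (e + D)) * (e - eh * (1 - ω))) / (e + D - eh) := by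
    apply div_nonneg _ ha.le
    apply mul_nonneg (sq_nonneg _)
    apply mul_nonneg <;> linarith
  linarith

/-- `0 ≤ c ≤ a` when the radii lie in `[0,1]`; hence `c²/a ≤ a`. -/
theorem p6_move_ratio {e D eh ω r z : ℝ} (he : 0 < e) (hD : 0 < D) (hP : ω * (e + D) < D)
    (heh : eh * (1 - ω) ≤ e) (hz0 : 0 ≤ z) (hz1 : z ≤ 1)
    (hr0 : 0 ≤ r + ω * (z - r)) (hr1 : r + ω * (z - r) ≤ 1) :
    0 ≤ (e * r + D * z - eh * (r + ω * (z - r))) ^ 2 / (e + D - eh) ∧
    (e * r + D * z - eh * (r + ω * (z - r))) ^ 2 / (e + D - eh) ≤ e + D - eh := by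
  have ha := p6_move_a_pos he hD hP heh
  set a := e + D - eh with hadef
  set c := e * r + D * z - eh * (r + ω * (z - r)) with hcdef
  have e1 : c = a * (r + ω * (z - r)) + (D - ω * (e + D)) * (z - r) := by
    rw [hcdef, hadef]; ring
  have e2 : c = a * z - (e - eh * (1 - ω)) * (z - r) := by
    rw [hcdef, hadef]; ring
  have hP' : 0 ≤ D - ω * (e + D) := by linarith
  have hQ' : 0 ≤ e - eh * (1 - ω) := by linarith
  have hc : 0 ≤ c ∧ c ≤ a := by
    rcases le_total r z with h | h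
    · constructor
      · rw [e1]
        have := mul_nonneg ha.le hr0
        have := mul_nonneg hP' (sub_nonneg.2 h)
        linarith
      · rw [e2]
        have := mul_nonneg hQ' (sub_nonneg.2 h)
        nlinarith
    · constructor
      · rw [e2]
        have := mul_nonneg ha.le hz0
        have := mul_nonneg hQ' (sub_nonneg.2 h)
        nlinarith
      · rw [e1]
        have := mul_nonneg hP' (sub_nonneg.2 h)
        nlinarith
  refine ⟨by positivity, ?_⟩
  rw [div_le_iff₀ ha]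
  nlinarith [hc.1, hc.2]

/-- the strength at the moved radius: `ê (1-ω) ≤ e`. -/
theorem p6_move_ehat {ev : ℝ → ℝ} (hanti : AntitoneOn ev (Set.Ici 0))
    (hmul : MonotoneOn (fun t => t * ev t) (Set.Ici 0)) (hpos : ∀ t, 0 ≤ t → 0 ≤ ev t)
    {r z ω : ℝ} (hr : 0 ≤ r) (hz : 0 ≤ z) (hω0 : 0 ≤ ω) (hω1 : ω ≤ 1) :
    ev (r + ω * (z - r)) * (1 - ω) ≤ ev r := by
  have hrh : 0 ≤ r + ω * (z - r) := by nlinarith [mul_nonneg hω0 hz, mul_nonneg (sub_nonneg.2 hω1) hr]
  rcases le_total r (r + ω * (z - r)) with h | h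
  · have h1 := hanti (Set.mem_Ici.2 hr) (Set.mem_Ici.2 hrh) h
    have h2 := hpos _ hrh
    nlinarith
  · have h1 := hmul (Set.mem_Ici.2 hrh) (Set.mem_Ici.2 hr) h
    simp only at h1
    have h2 := hpos _ hrh
    have h3 : (1 - ω) * r ≤ r + ω * (z - r) := by nlinarith [mul_nonneg hω0 hz]
    rcases eq_or_lt_of_le hr with h0 | h0
    · -- r = 0, then r̂ ≤ 0 so r̂ = 0 = r
      have : r + ω * (z - r) = r := le_antisymm h (by rw [← h0] at hrh ⊢; exact hrh)
      rw [this]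
      have := hpos r hr
      nlinarith
    · have h4 : (1 - ω) * r * ev (r + ω * (z - r)) ≤ r * ev r :=
        (mul_le_mul_of_nonneg_right h3 h2).trans h1
      have h5 : r * (ev (r + ω * (z - r)) * (1 - ω)) ≤ r * ev r := by nlinarith
      exact le_of_mul_le_mul_left h5 h0

end Claimed.Agent.R286

/-! # Row 286, PE Lemma 6.4 (feasible barriers), UPWARD barrier at FIXED size, derivative free.      OWNER (prover): helper241.   architect helper14

`Λ` forced rise (`Λ u0 = 0`, monotone, `σ0`-Lipschitz), `ψ = p6Psi A B`.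
PROOF PLAN.  ramp(u) = max 0 (min 1 (2 (u - u1)/(u2 - u1))),   w u = r u0 + Λ u + H * ramp u,   rh u = min (max (w u) (r u)) (r u + τ).
* `w` : `P6Lo` (w - Λ = const + H ramp, monotone);  `w` is `(σ0 + 2H/(u2-u1))`-Lipschitz and `≥ 0`, so `P6Up.of_lipschitz` with `hslope`.
* `rh`: `P6Lo.max`, `P6Lo.min`, `P6Lo.add_const`, `P6Up.max`, `P6Up.min`, `P6Up.add_const` (file Lattice).
* `rh u0 = r u0` (ramp u0 = 0);  `rh 1 = 1` (`htop`: w 1 < 1);  `rh ≠ r → r < w`; for `u < u1`: `w u = r u0 + Λ u ≤ r u` by `hlo`;  `w ≤ r u0 + Λ 1 + H`.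
* on `[(u1+u2)/2, 1]`: ramp = 1, `w ≥ H ≥ r + τ`, so `rh = r + τ`. -/

set_option autoImplicit false
open Set

namespace Claimed.Agent.R286

/-- the ramp of the upward barrier -/
theorem p6_bar_up_ramp {u1 u2 : ℝ} (h12 : u1 < u2) :
    (∀ u, 0 ≤ max 0 (min 1 (2 * (u - u1) / (u2 - u1)))) ∧
    (∀ u, max 0 (min 1 (2 * (u - u1) / (u2 - u1))) ≤ 1) ∧
    (∀ u, u ≤ u1 → max 0 (min 1 (2 * (u - u1) / (u2 - u1))) = 0) ∧
    (∀ u, (u1 + u2) / 2 ≤ u → max 0 (min 1 (2 * (u - u1) / (u2 - u1))) = 1) ∧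
    (∀ u v, u ≤ v → max 0 (min 1 (2 * (u - u1) / (u2 - u1))) ≤ max 0 (min 1 (2 * (v - u1) / (u2 - u1)))) ∧
    (∀ u v, u ≤ v → max 0 (min 1 (2 * (v - u1) / (u2 - u1))) - max 0 (min 1 (2 * (u - u1) / (u2 - u1)))
      ≤ 2 / (u2 - u1) * (v - u)) := by
  have hd : 0 < u2 - u1 := sub_pos.2 h12
  refine ⟨fun u => le_max_left _ _, fun u => max_le zero_le_one (min_le_left _ _), ?_, ?_, ?_, ?_⟩
  · intro u hu
    have : 2 * (u - u1) / (u2 - u1) ≤ 0 := div_nonpos_of_nonpos_of_nonneg (by linarith) hd.le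
    exact max_eq_left ((min_le_right _ _).trans this)
  · intro u hu
    have : 1 ≤ 2 * (u - u1) / (u2 - u1) := by rw [le_div_iff₀ hd]; linarith
    rw [min_eq_left this]; exact max_eq_right zero_le_one
  · intro u v huv
    have : 2 * (u - u1) / (u2 - u1) ≤ 2 * (v - u1) / (u2 - u1) :=
      div_le_div_of_nonneg_right (by linarith) hd.le
    exact max_le_max le_rfl (min_le_min le_rfl this)
  · intro u v huv
    have e : 2 * (v - u1) / (u2 - u1) = 2 * (u - u1) / (u2 - u1) + 2 / (u2 - u1) * (v - u) := by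
      field_simp; ring
    have hnn : 0 ≤ 2 / (u2 - u1) * (v - u) := mul_nonneg (by positivity) (by linarith)
    set x := 2 * (u - u1) / (u2 - u1)
    set δ := 2 / (u2 - u1) * (v - u)
    rw [e]
    have h1 : min 1 (x + δ) ≤ min 1 x + δ := by
      rcases le_total 1 x with h | h
      · rw [min_eq_left h]; exact (min_le_left _ _).trans (by linarith)
      · rw [min_eq_right h]; exact min_le_right _ _
    have h2 : max 0 (min 1 (x + δ)) ≤ max 0 (min 1 x) + δ := by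
      apply max_le
      · linarith [le_max_left (0 : ℝ) (min 1 x)]
      · linarith [le_max_right (0 : ℝ) (min 1 x)]
    linarith

/-- Lemma 6.4, upward barrier. -/
theorem p6_bar_up {Λ r : ℝ → ℝ} {A B σ0 u0 u1 u2 H τ : ℝ} (hA : 0 ≤ A) (hB : 0 < B)
    (h01 : u0 ≤ u1) (h12 : u1 < u2) (h21 : u2 ≤ 1)
    (hΛ : MonotoneOn Λ (Icc u0 1)) (hΛ0 : Λ u0 = 0)
    (hΛl : ∀ u ∈ Icc u0 1, ∀ v ∈ Icc u0 1, u ≤ v → Λ v - Λ u ≤ σ0 * (v - u))
    (hlo : P6Lo Λ r (Icc u0 1)) (hup : P6Up A B r (Icc u0 1)) (hr0 : 0 ≤ r u0) (hr1 : r 1 = 1)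
    (hH : 0 < H) (hτ : 0 ≤ τ) (hslope : A / B ^ 2 * (σ0 + 2 * H / (u2 - u1)) ≤ 1)
    (htop : r u0 + Λ 1 + H < 1) :
    ∃ rh : ℝ → ℝ, P6Lo Λ rh (Icc u0 1) ∧ P6Up A B rh (Icc u0 1) ∧ rh u0 = r u0 ∧ rh 1 = 1 ∧
      (∀ u ∈ Icc u0 1, r u ≤ rh u ∧ rh u ≤ r u + τ) ∧
      (∀ u ∈ Icc u0 1, rh u ≠ r u → u1 ≤ u ∧ r u < r u0 + Λ 1 + H) ∧
      (∀ u ∈ Icc ((u1 + u2) / 2) 1, r u + τ ≤ H → rh u = r u + τ) := by
  obtain ⟨ρ0, ρ1, ρz, ρo, ρm, ρl⟩ := p6_bar_up_ramp h12
  obtain ⟨ρ, hρ⟩ : ∃ ρ : ℝ → ℝ, ρ = fun u => max 0 (min 1 (2 * (u - u1) / (u2 - u1))) := ⟨_, rfl⟩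
  have ρ0' : ∀ u, 0 ≤ ρ u := by rw [hρ]; exact ρ0
  have ρ1' : ∀ u, ρ u ≤ 1 := by rw [hρ]; exact ρ1
  have ρz' : ∀ u, u ≤ u1 → ρ u = 0 := by rw [hρ]; exact ρz
  have ρo' : ∀ u, (u1 + u2) / 2 ≤ u → ρ u = 1 := by rw [hρ]; exact ρo
  have ρm' : ∀ u v, u ≤ v → ρ u ≤ ρ v := by rw [hρ]; exact ρm
  have ρl' : ∀ u v, u ≤ v → ρ v - ρ u ≤ 2 / (u2 - u1) * (v - u) := by rw [hρ]; exact ρl
  clear ρ0 ρ1 ρz ρo ρm ρl hρ
  have h0le1 : u0 ≤ 1 := by linarith
  have m0 : u0 ∈ Icc u0 1 := ⟨le_rfl, h0le1⟩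
  have m1 : (1 : ℝ) ∈ Icc u0 1 := ⟨h0le1, le_rfl⟩
  have hrm : MonotoneOn r (Icc u0 1) := hlo.mono hΛ
  have pr : ∀ u ∈ Icc u0 1, 0 ≤ r u := fun u hu => hr0.trans (hrm m0 hu hu.1)
  have pΛ : ∀ u ∈ Icc u0 1, 0 ≤ Λ u := fun u hu => by rw [← hΛ0]; exact hΛ m0 hu hu.1
  have pΛ1 : ∀ u ∈ Icc u0 1, Λ u ≤ Λ 1 := fun u hu => hΛ hu m1 hu.2
  set w : ℝ → ℝ := fun u => r u0 + Λ u + H * ρ u with hw
  have pw : ∀ u ∈ Icc u0 1, 0 ≤ w u := fun u hu => by
    have := pΛ u hu; have := mul_nonneg hH.le (ρ0' u); simp only [hw]; linarith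
  have wlo : P6Lo Λ w (Icc u0 1) := by
    intro u _ v _ huv
    have := mul_le_mul_of_nonneg_left (ρm' u v huv) hH.le
    simp only [hw]; linarith
  have wm : MonotoneOn w (Icc u0 1) := wlo.mono hΛ
  have wup : P6Up A B w (Icc u0 1) := by
    refine P6Up.of_lipschitz hA hB pw wm ?_ hslope
    intro u hu v hv huv
    have a1 := hΛl u hu v hv huv
    have a2 := mul_le_mul_of_nonneg_left (ρl' u v huv) hH.le
    have a3 : H * (2 / (u2 - u1) * (v - u)) = 2 * H / (u2 - u1) * (v - u) := by ring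
    simp only [hw]
    nlinarith
  have wle : ∀ u ∈ Icc u0 1, w u ≤ r u0 + Λ 1 + H := fun u hu => by
    have := pΛ1 u hu; have := mul_le_mul_of_nonneg_left (ρ1' u) hH.le; simp only [hw]; linarith
  refine ⟨fun u => min (max (w u) (r u)) (r u + τ), ?_, ?_, ?_, ?_, ?_, ?_, ?_⟩
  · exact (wlo.max hlo).min (hlo.add_const τ)
  · refine P6Up.min hA hB (fun u hu => (pr u hu).trans (le_max_right _ _))
      (fun u hu => by have := pr u hu; linarith) (P6Up.max hA hB pw pr wup hup)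
      (P6Up.add_const hA hB pr hrm hup hτ)
  · have : w u0 = r u0 := by simp only [hw]; rw [hΛ0, ρz' u0 h01]; ring
    simp only
    rw [this, max_self]; exact min_eq_left (by linarith)
  · have : w 1 ≤ r 1 := by rw [hr1]; exact ((wle 1 m1).trans_lt htop).le
    simp only
    rw [max_eq_right this, hr1]; exact min_eq_left (by linarith)
  · intro u _
    exact ⟨le_min (le_max_right _ _) (by linarith), min_le_right _ _⟩
  · intro u hu hne
    have hlt : r u < w u := by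
      by_contra hcon
      rw [not_lt] at hcon
      apply hne
      simp only
      rw [max_eq_right hcon]; exact min_eq_left (by linarith)
    refine ⟨?_, hlt.trans_le (wle u hu)⟩
    by_contra hcon
    rw [not_le] at hcon
    have h1 : w u = r u0 + Λ u := by simp only [hw]; rw [ρz' u hcon.le]; ring
    have h2 := hlo m0 hu hu.1
    simp only at h2
    rw [hΛ0] at h2
    linarith
  · intro u hu hle
    have hu' : u ∈ Icc u0 1 := ⟨by linarith [hu.1], hu.2⟩
    have h1 : w u = r u0 + Λ u + H := by simp only [hw]; rw [ρo' u hu.1]; ring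
    have h2 : r u + τ ≤ w u := by have := pΛ u hu'; linarith
    simp only
    exact min_eq_right (h2.trans (le_max_left _ _))

end Claimed.Agent.R286

/-! # Row 286, PE Lemma 6.4 (feasible barriers), DOWNWARD barrier at FIXED size, derivative free.      OWNER (prover): helper254 (proof by helper264).   architect helper14

`Λ` forced rise (`Λ u0 = 0`, monotone, `σ0`-Lipschitz), `ψ = p6Psi A B` (range `[0, A/B)` on `[0,∞)`; inverse `ψ⁻¹ s = B s/(A/B - s)`... compute it).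
PROOF PLAN.  s(u) = ψ(H + Λ ur) + (u - ur).   v u = min (r u) (H + Λ u) for `u ≤ ur`;   v u = ψ⁻¹ (min (ψ (r u)) (s u)) for `u ≥ ur` (well defined: the min is `≤ ψ(r u) < A/B`; the two formulas agree at `ur`).
   rh = p6HmR B t r v  (rh + B = weighted harmonic mean of r + B and v + B).
* `v` satisfies `P6Lo`, `P6Up` on `[u0,ur]` (Lattice: min of r and H + Λ; `H + Λ` is `σ0`-Lipschitz: `P6Up.of_lipschitz` + `hσ`) and on `[ur,1]`:
   `P6Up`: `u - min(ψ(r u), s u) = max(u - ψ(r u), u - s u)`;   `P6Lo`: the ramp `q(u) = ψ⁻¹(s u)` (where `s u < A/B`) has `q' - q = (u'-u)(q+B)(q'+B)/A ≥ (u'-u) B²/A ≥ σ0 (u'-u) ≥ Λ u' - Λ u`; min with `r`.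
   glue the two intervals by `p6_monoOn_glue`.
* `P6Lo.harm`, `P6Up.harm` (file Harm) give feasibility of `rh`.
* `v u0 = r u0` (`hrH`), `v 1 = r 1` (`s 1 ≥ 1 - ur ≥ A/B > ψ(r 1)`), for `u > ur + A/B`: `v = r`.
* displacement: `R - Hm = t R (R - V)/((1-t) V + t R)`, `V ≤ (1-t)V + tR ≤ R`  (`p6Hm_disp_ge`, `p6Hm_disp_le`). -/

set_option autoImplicit false
open Set

namespace Claimed.Agent.R286


theorem p6Psi_eq_sub {A B q : ℝ} : p6Psi A B q = A / B - A / (q + B) := by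
  unfold p6Psi; ring

theorem p6Hm_le_left {t X Y : ℝ} (ht0 : 0 ≤ t) (ht1 : t ≤ 1) (hY : 0 < Y) (hYX : Y ≤ X) :
    p6Hm t X Y ≤ X := by
  have := p6Hm_disp_ge ht0 ht1 hY hYX
  have h2 : 0 ≤ t * (X - Y) := mul_nonneg ht0 (by linarith)
  linarith

/-- Lemma 6.4, downward barrier. -/
theorem p6_bar_dn {Λ r : ℝ → ℝ} {A B σ0 u0 ur H t : ℝ} (hA : 0 < A) (hB : 0 < B)
    (h0r : u0 ≤ ur) (hr1' : ur + A / B ≤ 1)
    (hΛ : MonotoneOn Λ (Icc u0 1)) (hΛ0 : Λ u0 = 0)
    (hΛl : ∀ u ∈ Icc u0 1, ∀ v ∈ Icc u0 1, u ≤ v → Λ v - Λ u ≤ σ0 * (v - u))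
    (hσ : A / B ^ 2 * σ0 ≤ 1)
    (hlo : P6Lo Λ r (Icc u0 1)) (hup : P6Up A B r (Icc u0 1)) (hr0 : 0 ≤ r u0) (hr1 : r 1 = 1)
    (hH : 0 < H) (hrH : r u0 ≤ H) (htop : H + Λ 1 ≤ 1) (ht0 : 0 ≤ t) (ht1 : t ≤ 1) :
    ∃ rh : ℝ → ℝ, P6Lo Λ rh (Icc u0 1) ∧ P6Up A B rh (Icc u0 1) ∧ rh u0 = r u0 ∧ rh 1 = 1 ∧
      (∀ u ∈ Icc u0 1, rh u ≤ r u) ∧
      (∀ u ∈ Icc u0 1, rh u ≠ r u → u ≤ ur + A / B ∧ H ≤ rh u ∧
        r u - rh u ≤ t * ((r u + B) / (H + B)) * (r u - H)) ∧
      (∀ u ∈ Icc u0 ur, t * (r u - (H + Λ 1)) ≤ r u - rh u) := by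
  have hAB : 0 < A / B := div_pos hA hB
  have hur1 : ur ≤ 1 := by linarith
  have hur1' : ur < 1 := by linarith
  have hu01 : u0 ≤ 1 := by linarith
  have m0 : u0 ∈ Icc u0 1 := ⟨le_rfl, hu01⟩
  have m1 : (1:ℝ) ∈ Icc u0 1 := ⟨hu01, le_rfl⟩
  have mr : ur ∈ Icc u0 1 := ⟨h0r, hur1⟩
  have sub1 : Icc u0 ur ⊆ Icc u0 1 := Icc_subset_Icc le_rfl hur1
  have sub2 : Icc ur 1 ⊆ Icc u0 1 := Icc_subset_Icc h0r le_rfl
  have hrmono : MonotoneOn r (Icc u0 1) := hlo.mono hΛ
  have hrpos : ∀ u ∈ Icc u0 1, 0 ≤ r u := fun u hu => hr0.trans (hrmono m0 hu hu.1)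
  have hΛpos : ∀ u ∈ Icc u0 1, 0 ≤ Λ u := fun u hu => by
    have := hΛ m0 hu hu.1; rw [hΛ0] at this; exact this
  have hΛ1 : ∀ u ∈ Icc u0 1, Λ u ≤ Λ 1 := fun u hu => hΛ hu m1 hu.2
  have hRpos : ∀ u ∈ Icc u0 1, 0 < r u + B := fun u hu => by have := hrpos u hu; linarith
  -- the first barrier
  set w1 : ℝ → ℝ := fun u => H + Λ u with hw1
  have hw1pos : ∀ u ∈ Icc u0 1, 0 ≤ w1 u := fun u hu => by
    have := hΛpos u hu; simp only [hw1]; linarith
  have hw1lo : P6Lo Λ w1 (Icc u0 1) := by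
    intro u _ v _ _; simp only [hw1]; linarith
  have hw1mono : MonotoneOn w1 (Icc u0 1) := hw1lo.mono hΛ
  have hw1up : P6Up A B w1 (Icc u0 1) := by
    refine P6Up.of_lipschitz (σ := σ0) hA.le hB hw1pos hw1mono ?_ hσ
    intro u hu v hv huv
    have := hΛl u hu v hv huv
    simp only [hw1]; linarith
  -- the ramp in reciprocal coordinates
  have hWr : 0 < H + Λ ur + B := by have := hΛpos ur mr; linarith
  set ρ0 : ℝ := A / (H + Λ ur + B) with hρ0
  have hρ0pos : 0 < ρ0 := div_pos hA hWr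
  have hρ0le : ρ0 ≤ A / B := by
    apply div_le_div_of_nonneg_left hA.le hB
    have := hΛpos ur mr; linarith
  set g : ℝ → ℝ := fun u => ρ0 - (u - ur) with hg
  set M : ℝ → ℝ := fun u => max (A / (r u + B)) (g u) with hM
  have hMpos : ∀ u ∈ Icc u0 1, 0 < M u := fun u hu =>
    lt_of_lt_of_le (div_pos hA (hRpos u hu)) (le_max_left _ _)
  set v2 : ℝ → ℝ := fun u => A / M u - B with hv2
  have hv2B : ∀ u, v2 u + B = A / M u := fun u => by simp only [hv2]; ring
  have hMle : ∀ u ∈ Icc ur 1, M u ≤ A / B := fun u hu => by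
    apply max_le
    · apply div_le_div_of_nonneg_left hA.le hB
      have := hrpos u (sub2 hu); linarith
    · simp only [hg]; have := hu.1; linarith
  have hv2le : ∀ u ∈ Icc u0 1, v2 u ≤ r u := fun u hu => by
    have h1 : A / M u ≤ r u + B := by
      rw [div_le_iff₀ (hMpos u hu)]
      have h2 : A / (r u + B) ≤ M u := le_max_left _ _
      rw [div_le_iff₀ (hRpos u hu)] at h2
      linarith
    simp only [hv2]; linarith
  have hv2pos : ∀ u ∈ Icc ur 1, 0 ≤ v2 u := fun u hu => by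
    have h1 : B ≤ A / M u := by
      rw [le_div_iff₀ (hMpos u (sub2 hu))]
      have h2 := hMle u hu
      rw [le_div_iff₀ hB] at h2
      linarith
    simp only [hv2]; linarith
  -- value at `ur`
  have hv2ur : v2 ur = min (r ur) (w1 ur) := by
    have hR := hRpos ur mr
    have hgur : g ur = ρ0 := by simp only [hg]; ring
    simp only [hv2, hM, hgur, hw1]
    rcases le_total (r ur) (H + Λ ur) with h | h
    · have : ρ0 ≤ A / (r ur + B) := div_le_div_of_nonneg_left hA.le hR (by linarith)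
      rw [max_eq_left this, min_eq_left h]
      field_simp
      ring
    · have : A / (r ur + B) ≤ ρ0 := div_le_div_of_nonneg_left hA.le hWr (by linarith)
      rw [max_eq_right this, min_eq_right h, hρ0]
      field_simp
      ring
  -- the clipped quantile
  set v : ℝ → ℝ := fun u => if u ≤ ur then min (r u) (w1 u) else v2 u with hv
  have hv_1 : ∀ u, u ≤ ur → v u = min (r u) (w1 u) := fun u hu => by simp only [hv, if_pos hu]
  have hv_2 : ∀ u ∈ Icc ur 1, v u = v2 u := fun u hu => by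
    rcases eq_or_lt_of_le hu.1 with h | h
    · rw [← h, hv_1 ur le_rfl, hv2ur]
    · simp only [hv, if_neg (not_le.2 h)]
  have hvle : ∀ u ∈ Icc u0 1, v u ≤ r u := fun u hu => by
    rcases le_total u ur with h | h
    · rw [hv_1 u h]; exact min_le_left _ _
    · rw [hv_2 u ⟨h, hu.2⟩]; exact hv2le u hu
  have hvpos : ∀ u ∈ Icc u0 1, 0 ≤ v u := fun u hu => by
    rcases le_total u ur with h | h
    · rw [hv_1 u h]; exact le_min (hrpos u hu) (hw1pos u hu)
    · rw [hv_2 u ⟨h, hu.2⟩]; exact hv2pos u ⟨h, hu.2⟩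
  -- `Lo` for `v`
  have hvlo : P6Lo Λ v (Icc u0 1) := by
    apply p6_monoOn_glue (b := ur)
    · have h1 : P6Lo Λ (fun u => min (r u) (w1 u)) (Icc u0 ur) :=
        P6Lo.min (MonotoneOn.mono hlo sub1) (MonotoneOn.mono hw1lo sub1)
      refine MonotoneOn.congr h1 ?_
      intro u hu
      simp only
      rw [hv_1 u hu.2]
    · intro u hu u' hu' huu
      simp only
      rw [hv_2 u hu, hv_2 u' hu']
      have hs := hΛl u (sub2 hu) u' (sub2 hu') huu
      rcases le_total (g u') (A / (r u' + B)) with h | h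
      · -- `v2 u' = r u'`
        have e : v2 u' = r u' := by
          have hR := hRpos u' (sub2 hu')
          simp only [hv2, hM]
          rw [max_eq_left h]
          field_simp
          ring
        have a := hlo (sub2 hu) (sub2 hu') huu
        simp only at a
        have b := hv2le u (sub2 hu)
        rw [e]; linarith
      · have hgpos' : 0 < g u' := lt_of_lt_of_le (div_pos hA (hRpos u' (sub2 hu'))) h
        have hgu : g u = g u' + (u' - u) := by simp only [hg]; ring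
        have hgpos : 0 < g u := by rw [hgu]; linarith
        have e' : v2 u' = A / g u' - B := by simp only [hv2, hM]; rw [max_eq_right h]
        have e : v2 u ≤ A / g u - B := by
          have : A / M u ≤ A / g u := div_le_div_of_nonneg_left hA.le hgpos (le_max_right _ _)
          simp only [hv2]; linarith
        have hgle : g u ≤ A / B := by simp only [hg]; have := hu.1; linarith
        have hgle' : g u' ≤ A / B := by simp only [hg]; have := hu'.1; linarith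
        have key : σ0 * (u' - u) ≤ A / g u' - A / g u := by
          have e1 : A / g u' - A / g u = A * (u' - u) / (g u * g u') := by
            rw [hgu]; field_simp; ring
          rw [e1, le_div_iff₀ (mul_pos hgpos hgpos')]
          have h1 : g u * g u' ≤ A / B * (A / B) :=
            mul_le_mul hgle hgle' hgpos'.le hAB.le
          have h2 : 0 ≤ u' - u := by linarith
          rcases le_total σ0 0 with hs0 | hs0
          · have : σ0 * (u' - u) * (g u * g u') ≤ 0 :=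
              mul_nonpos_of_nonpos_of_nonneg (mul_nonpos_of_nonpos_of_nonneg hs0 h2)
                (mul_pos hgpos hgpos').le
            have : 0 ≤ A * (u' - u) := mul_nonneg hA.le h2
            linarith
          · have h3 : σ0 * (u' - u) * (g u * g u') ≤ σ0 * (u' - u) * (A / B * (A / B)) :=
              mul_le_mul_of_nonneg_left h1 (mul_nonneg hs0 h2)
            have h4 : σ0 * (u' - u) * (A / B * (A / B)) = A / B ^ 2 * σ0 * (A * (u' - u)) := by
              field_simp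
            have h5 : A / B ^ 2 * σ0 * (A * (u' - u)) ≤ 1 * (A * (u' - u)) :=
              mul_le_mul_of_nonneg_right hσ (mul_nonneg hA.le h2)
            linarith
        rw [e']; linarith
  -- `Up` for `v`
  have hvup : P6Up A B v (Icc u0 1) := by
    apply p6_monoOn_glue (b := ur)
    · have h1 : P6Up A B (fun u => min (r u) (w1 u)) (Icc u0 ur) :=
        P6Up.min hA.le hB (fun u hu => hrpos u (sub1 hu)) (fun u hu => hw1pos u (sub1 hu))
          (MonotoneOn.mono hup sub1) (MonotoneOn.mono hw1up sub1)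
      refine MonotoneOn.congr h1 ?_
      intro u hu
      simp only
      rw [hv_1 u hu.2]
    · intro u hu u' hu' huu
      simp only
      rw [hv_2 u hu, hv_2 u' hu']
      have eM : ∀ x ∈ Icc ur 1, p6Psi A B (v2 x) = A / B - M x := fun x hx => by
        have := hMpos x (sub2 hx)
        rw [p6Psi_eq_sub, hv2B]
        field_simp
      rw [eM u hu, eM u' hu']
      have a := hup (sub2 hu) (sub2 hu') huu
      simp only at a
      rw [p6Psi_eq_sub, p6Psi_eq_sub] at a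
      have b1 : A / (r u' + B) ≤ M u' := le_max_left _ _
      have b2 : g u' ≤ M u' := le_max_right _ _
      have hgu : g u = g u' + (u' - u) := by simp only [hg]; ring
      have : M u ≤ M u' + (u' - u) := by
        apply max_le
        · linarith
        · linarith
      linarith
  -- the interpolation
  refine ⟨p6HmR B t r v, P6Lo.harm hB ht0 ht1 hΛ hrpos hvpos hlo hvlo,
    P6Up.harm hB ht0 ht1 hrpos hvpos hup hvup, ?_, ?_, ?_, ?_, ?_⟩
  · have : v u0 = r u0 := by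
      rw [hv_1 u0 h0r]
      apply min_eq_left
      simp only [hw1, hΛ0]; linarith
    simp only [p6HmR, this]
    rw [p6Hm_self (hRpos u0 m0)]; ring
  · have hg1 : g 1 ≤ 0 := by simp only [hg]; linarith
    have : v 1 = r 1 := by
      rw [hv_2 1 ⟨hur1, le_rfl⟩]
      have hR := hRpos 1 m1
      have : g 1 ≤ A / (r 1 + B) := hg1.trans (div_pos hA hR).le
      simp only [hv2, hM]
      rw [max_eq_left this]
      field_simp
      ring
    simp only [p6HmR, this]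
    rw [p6Hm_self (hRpos 1 m1), hr1]; ring
  · intro u hu
    have hY : 0 < v u + B := by have := hvpos u hu; linarith
    have := p6Hm_le_left ht0 ht1 hY (show v u + B ≤ r u + B by have := hvle u hu; linarith)
    simp only [p6HmR]; linarith
  · intro u hu hne
    have hY : 0 < v u + B := by have := hvpos u hu; linarith
    have hYX : v u + B ≤ r u + B := by have := hvle u hu; linarith
    have hvr : v u < r u := by
      rcases eq_or_lt_of_le (hvle u hu) with h | h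
      · exfalso; apply hne
        simp only [p6HmR, h]
        rw [p6Hm_self (hRpos u hu)]; ring
      · exact h
    -- location and lower bound of `v`
    have hloc : u ≤ ur + A / B ∧ H ≤ v u := by
      rcases le_total u ur with h | h
      · refine ⟨by linarith, ?_⟩
        rw [hv_1 u h] at hvr ⊢
        have : w1 u < r u := by
          by_contra hc
          rw [min_eq_left (not_lt.1 hc)] at hvr
          exact lt_irrefl _ hvr
        rw [min_eq_right this.le]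
        have := hΛpos u hu
        simp only [hw1]; linarith
      · have hu2 : u ∈ Icc ur 1 := ⟨h, hu.2⟩
        rw [hv_2 u hu2] at hvr ⊢
        have hR := hRpos u hu
        have hgl : A / (r u + B) < g u := by
          by_contra hc
          have e : v2 u = r u := by
            simp only [hv2, hM]
            rw [max_eq_left (not_lt.1 hc)]
            field_simp
            ring
          rw [e] at hvr
          exact lt_irrefl _ hvr
        have hgpos : 0 < g u := (div_pos hA hR).trans hgl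
        constructor
        · simp only [hg] at hgpos; linarith
        · have e : v2 u = A / g u - B := by simp only [hv2, hM]; rw [max_eq_right hgl.le]
          have hgle : g u ≤ ρ0 := by simp only [hg]; linarith
          have h1 : A / ρ0 ≤ A / g u := div_le_div_of_nonneg_left hA.le hgpos hgle
          have h2 : A / ρ0 = H + Λ ur + B := by rw [hρ0]; field_simp
          have := hΛpos ur mr
          rw [e]; linarith
    refine ⟨hloc.1, ?_, ?_⟩
    · have := p6Hm_ge_right ht0 ht1 hY hYX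
      simp only [p6HmR]; linarith [hloc.2]
    · have h1 := p6Hm_disp_le ht0 ht1 hY hYX
      have hHB : 0 < H + B := by linarith
      have hX : 0 < r u + B := hRpos u hu
      have h2 : (r u + B) / (v u + B) ≤ (r u + B) / (H + B) :=
        div_le_div_of_nonneg_left hX.le hHB (by linarith [hloc.2])
      have h3 : r u + B - (v u + B) ≤ r u - H := by linarith [hloc.2]
      have h4 : 0 ≤ r u + B - (v u + B) := by linarith
      have h5 : t * ((r u + B) / (v u + B)) * (r u + B - (v u + B))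
          ≤ t * ((r u + B) / (H + B)) * (r u - H) := by
        apply mul_le_mul (mul_le_mul_of_nonneg_left h2 ht0) h3 h4
        exact mul_nonneg ht0 (div_nonneg hX.le hHB.le)
      simp only [p6HmR]; linarith
  · intro u hu
    have hu' := sub1 hu
    have hY : 0 < v u + B := by have := hvpos u hu'; linarith
    have hYX : v u + B ≤ r u + B := by have := hvle u hu'; linarith
    have h1 := p6Hm_disp_ge ht0 ht1 hY hYX
    have h2 : v u ≤ H + Λ 1 := by
      rw [hv_1 u hu.2]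
      have := hΛ1 u hu'
      exact (min_le_right _ _).trans (by simp only [hw1]; linarith)
    have h3 : t * (r u - (H + Λ 1)) ≤ t * (r u + B - (v u + B)) :=
      mul_le_mul_of_nonneg_left (by linarith) ht0
    simp only [p6HmR]; linarith

end Claimed.Agent.R286

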