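import Claimed.Agent.R286.Cmp.Num
import Claimed.Agent.R286.Defs.Clk
import Claimed.Agent.R286.SeqUltra
import Claimed.Agent.R286.Pe6.Kit

/-!
# Row 286 (S0533), PE Section 6 "Propagation of regularity and the comparison error": VOCABULARY      (section head helper14, ADV helper1; prefix `p6`, types `P6*`)

Built on the shared vocabulary: `CmCall`, `CmQ`, `cmF`, `P.e`, `P.Al`, `P.Ok` (Cmp/Defs, helper192), `GhClk1` (Defs/Clk), `=O[U]`, `=o[U]` (SeqCalc/SeqUltra, helper298).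
* The whole section is ABSTRACT over the pressure `fn : ℕ → (ℝ → ℝ) → (ℝ → ℝ) → ℝ`  (instance: `fun n => skCPr n 1`).
* FRAME (ledger 142, D1-D3): `U : Ultrafilter ℕ`; data = sequences `k ↦ D k : P6D` of instances; the size is a field (`(D k).P.n`) and tends to infinity along `U`; the temperature `T` is a field; constants FIRST (record `P6C`).
* quantiles are PLAIN functions `r : ℝ → ℝ` (no dependent types in sequences); feasibility is `P.Fe r := ∃ q : CmQ P, q.r = r`.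
  `P6Fw P r` = the same class in FORWARD INTEGRATED form (`r - Λ` monotone, `u - ψ(r u)` monotone); bridge `p6_fe_iff` (file Bridge).
-/

set_option autoImplicit false

namespace Claimed.Agent.R286

open Filter Topology Set MeasureTheory Asymptotics

noncomputable section

/-! ## the class (5) -/

namespace CmCall

variable (P : CmCall)

/-- numerator of the floor: `k(r) = A0/(r + B0)²`, `A0 = n^δ u_*²` -/
def A0 : ℝ := P.N ^ P.dl * P.us ^ 2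
/-- `B0 = n^{2δ} u_*` -/
def B0 : ℝ := P.N ^ (2 * P.dl) * P.us
/-- forced rise `Λ(u) = ∫_{u0}^u dt/M(t)` -/
def Lm (u : ℝ) : ℝ := ∫ t in P.u0..u, (P.M t)⁻¹
/-- `r` is (the quantile of) a feasible element of the class (5) -/
def Fe (r : ℝ → ℝ) : Prop := ∃ q : CmQ P, q.r = r

end CmCall

/-- the class (5) in forward integrated form -/
structure P6Fw (P : CmCall) (r : ℝ → ℝ) : Prop where
  left : r P.u0 = P.rmin
  right : r 1 = 1
  lo : P6Lo P.Lm r (Icc P.u0 1)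
  up : P6Up P.A0 P.B0 r (Icc P.u0 1)

/-! ## one instance -/

/-- admissible covariance path: both clocks nonnegative and nondecreasing on `[0,1]` -/
def P6Adm (b h : ℝ → ℝ) : Prop := GhClk1 1 b ∧ GhClk1 1 h

/-- one instance: a comparison call, its temperature and its bare endpoint -/
structure P6D where
  P : CmCall
  T : ℝ
  b0 : ℝ → ℝ
  h0 : ℝ → ℝ

namespace P6D

variable (D : P6D)

/-- changed matrix clock of (6)  (`= q.bq lam D.b0` for `r = q.r`) -/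
def Pb (lam : ℝ) (r : ℝ → ℝ) (u : ℝ) : ℝ := if D.P.u0 ≤ u then D.b0 u - D.P.e lam (r u) else D.b0 u
/-- changed field clock of (6)  (`= q.hq lam D.h0`) -/
def Ph (lam : ℝ) (r : ℝ → ℝ) (u : ℝ) : ℝ := if D.P.u0 ≤ u then D.h0 u + D.P.e lam (r u) * r u else D.h0 u
/-- the penalty of (6)  (`= q.pen lam`) -/
def pen (lam : ℝ) (r : ℝ → ℝ) : ℝ := (1 / 4) * ∫ u in D.P.u0..1, D.P.e lam (r u) * r u ^ 2
/-- the objective `F_λ(r)` of (6) -/
def obj (fn : ℕ → (ℝ → ℝ) → (ℝ → ℝ) → ℝ) (lam : ℝ) (r : ℝ → ℝ) : ℝ := fn D.P.n (D.Pb lam r) (D.Ph lam r) + D.pen lam r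
/-- `r` minimises (6) over the class (5) -/
def IsMin (fn : ℕ → (ℝ → ℝ) → (ℝ → ℝ) → ℝ) (lam : ℝ) (r : ℝ → ℝ) : Prop :=
  D.P.Fe r ∧ ∀ r', D.P.Fe r' → D.obj fn lam r ≤ D.obj fn lam r'
/-- the call is admissible at the strength `lam` (PE after (6), Def. 6.1) -/
def Fam (lam : ℝ) : Prop := ∀ r, D.P.Fe r → P6Adm (D.Pb lam r) (D.Ph lam r)
/-- ordinary family: admissible bare endpoint and admissible sweep   TEX[PE:reg:families] (with `Fam`, `P6Marg`, `P6Bd`, `P6Seq.dT`) -/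
def Ord : Prop := P6Adm D.b0 D.h0 ∧ ∀ lam, 0 ≤ lam → lam ≤ D.P.d ^ 2 → D.Fam lam
/-- the comparison error `F_λ(r) - f_n(b0,h0)` -/
def err (fn : ℕ → (ℝ → ℝ) → (ℝ → ℝ) → ℝ) (lam : ℝ) (r : ℝ → ℝ) : ℝ := D.obj fn lam r - fn D.P.n D.b0 D.h0

end P6D

/-- outer regularity above `x` (PE Def. 3.2;  `= q.Reg c C C0 x` for `r = q.r`, `u0 = P.u0`) -/
def P6Reg (u0 : ℝ) (r : ℝ → ℝ) (c C C0 x : ℝ) : Prop := ∀ u : ℝ, C0 * x ≤ u → u ≤ 1 → u0 ≤ u → c * u ≤ r u ∧ r u ≤ C * u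

/-- the mass `u` violates the profile `c u ≤ r u ≤ C u` -/
def P6Off (r : ℝ → ℝ) (c C u : ℝ) : Prop := ¬ (c * u ≤ r u ∧ r u ≤ C * u)

/-- covariance margin `β` of a matrix clock for descendants which work on `[j0,1]` (Def. 6.1): lower bound on `[j0,1]`, gap across `j0` (void if `j0 = 0`) -/
def P6Marg (b : ℝ → ℝ) (j0 β : ℝ) : Prop :=
  (∀ u, j0 ≤ u → u ≤ 1 → β ≤ b u) ∧ ∀ u v, 0 ≤ u → u < j0 → j0 ≤ v → v ≤ 1 → β ≤ b v - b u

/-- both clocks are bounded by `κ` on `[0,1]` -/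
def P6Bd (b h : ℝ → ℝ) (κ : ℝ) : Prop := ∀ u ∈ Icc (0:ℝ) 1, |b u| ≤ κ ∧ |h u| ≤ κ

/-! ## constants and sequences of instances -/

/-- the constants which are fixed BEFORE the sequences: `m` (and `δ = m/10000`), clock bound `K`, margin `d² ≤ T - ρ`, the limit `Tinf > 1` of the temperatures (ruling 142 = D3: `T_k → Tinf` along `U`), the constants `cE, D0` of `CmCall.Ok` -/
structure P6C where
  m : ℝ
  K : ℝ
  ρ : ℝ
  Tinf : ℝ
  cE : ℝ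
  D0 : ℝ

/-- `δ = m/10000` -/
def P6C.dl (c : P6C) : ℝ := c.m / 10000

structure P6C.Ok (c : P6C) : Prop where
  m_pos : 0 < c.m
  m_le : c.m ≤ 1 / 100
  K_pos : 0 < c.K
  ρ_pos : 0 < c.ρ
  ρ_lt : c.ρ < c.Tinf
  T_gt : 1 < c.Tinf
  cE_pos : 0 < c.cE
  D0_pos : 0 < c.D0

/-- **hypotheses on a sequence of instances**: PE (3), (4), (5) (wall), omitted mass `u0 = o(a)`, bounded clocks, monotone on the working interval, `d² ≤ T - ρ` -/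
structure P6Seq (U : Ultrafilter ℕ) (c : P6C) (D : ℕ → P6D) : Prop where
  n_top : Tendsto (fun k => (D k).P.N) U atTop
  m_eq : ∀ᶠ k in U, (D k).P.m = c.m
  ok : ∀ᶠ k in U, (D k).P.Ok c.cE c.D0
  T_lim : Tendsto (fun k => (D k).T) U (𝓝 c.Tinf)
  dT : ∀ᶠ k in U, (D k).P.d ^ 2 ≤ (D k).T - c.ρ
  u0_small : (fun k => (D k).P.u0) =o[U] (fun k => (D k).P.a)
  /-- (4), sequential form made uniform: comparability constant `κ`, tolerance `ε` -/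
  ep4 : ∀ κ ε : ℝ, 1 ≤ κ → 0 < ε → ∀ᶠ k in U, ∀ z u : ℝ, (D k).P.a / κ ≤ z → z ≤ 1 → (D k).P.u0 < u → u < 1 → z / κ ≤ u → u ≤ κ * z →
    |(D k).b0 u - (D k).T| ≤ ε * z ^ 2 ∧ |(D k).h0 u| ≤ ε * z ^ 3
  clk : ∀ᶠ k in U, P6Bd (D k).b0 (D k).h0 c.K
  mono : ∀ᶠ k in U, MonotoneOn (D k).b0 (Icc (D k).P.u0 1) ∧ MonotoneOn (D k).h0 (Icc (D k).P.u0 1)

/-! ## parent and child (Lemma 6.2) -/

/-- **the child call** of PE Lemma 6.2: `d' = c0 x`, `E' = min(n^{-1/2} d'², n^{-100δ} e(x) x³)`, bare endpoint = the changed parent path, working interval `[j0,1]`, zero wall -/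
def P6D.child (D : P6D) (lam : ℝ) (r : ℝ → ℝ) (x c0 j0 : ℝ) : P6D where
  P := { n := D.P.n, m := D.P.m, E := min (D.P.N ^ (-(1 / 2 : ℝ)) * (c0 * x) ^ 2) (D.P.N ^ (-(100 * D.P.dl)) * D.P.e lam x * x ^ 3),
         d := c0 * x, u0 := j0, rmin := 0 }
  T := D.T
  b0 := D.Pb lam r
  h0 := D.Ph lam r

/-- sequence of children -/
def p6Child (c0 : ℝ) (D : ℕ → P6D) (lam x : ℕ → ℝ) (r : ℕ → ℝ → ℝ) (j0 : ℕ → ℝ) : ℕ → P6D :=
  fun k => (D k).child (lam k) (r k) (x k) c0 (j0 k)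

/-- a parent call at a positive strength with a selected minimiser and a regular outer region above `x ≥ A_λ` -/
structure P6Par (fn : ℕ → (ℝ → ℝ) → (ℝ → ℝ) → ℝ) (U : Ultrafilter ℕ) (c : P6C) (D : ℕ → P6D) (lam x : ℕ → ℝ) (r : ℕ → ℝ → ℝ) (cl Ch C0 : ℝ) : Prop where
  seq : P6Seq U c D
  lam_rng : ∀ᶠ k in U, 0 < lam k ∧ lam k ≤ (D k).P.d ^ 2
  fam : ∀ᶠ k in U, (D k).Fam (lam k)
  min : ∀ᶠ k in U, (D k).IsMin fn (lam k) (r k)
  x_rng : ∀ᶠ k in U, (D k).P.Al (lam k) ≤ x k ∧ x k ≤ 1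
  outer : ∀ᶠ k in U, P6Reg (D k).P.u0 (r k) cl Ch C0 (x k)

/-- the weak case `e(x) = o(x²)`, with the covariance budget for a child on `[j0,1]` -/
structure P6Wk (fn : ℕ → (ℝ → ℝ) → (ℝ → ℝ) → ℝ) (U : Ultrafilter ℕ) (c : P6C) (D : ℕ → P6D) (lam x : ℕ → ℝ) (r : ℕ → ℝ → ℝ) (cl Ch C0 β : ℝ) (j0 : ℕ → ℝ) : Prop
    extends P6Par fn U c D lam x r cl Ch C0 where
  weak : (fun k => (D k).P.e (lam k) (x k)) =o[U] (fun k => x k ^ 2)
  j0_rng : ∀ᶠ k in U, 0 ≤ j0 k ∧ j0 k ≤ (D k).P.u0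
  marg : ∀ᶠ k in U, P6Marg ((D k).Pb (lam k) (r k)) (j0 k) β
  clkP : ∀ᶠ k in U, P6Bd ((D k).Pb (lam k) (r k)) ((D k).Ph (lam k) (r k)) c.K

/-- constraints on the fixed constants of Sec. 6: outer constants `cl ≤ 1 ≤ Ch`, cutoff `C0 ≥ 1`, child coefficient `c0`, margin `β` -/
structure P6K (c : P6C) (cl Ch C0 c0 β : ℝ) : Prop where
  ok : c.Ok
  cl_pos : 0 < cl
  cl_le : cl ≤ 1
  Ch_ge : 1 ≤ Ch
  C0_ge : 1 ≤ C0
  c0_pos : 0 < c0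
  c0_T : c0 ^ 2 < c.Tinf - c.ρ
  c0_D : c0 ≤ c.D0
  c0_β : c0 ^ 2 ≤ β

/-- the child's final minimiser, with a successful error bound `≤ n^{20δ} E'` -/
structure P6Succ (fn : ℕ → (ℝ → ℝ) → (ℝ → ℝ) → ℝ) (U : Ultrafilter ℕ) (D' : ℕ → P6D) (z : ℕ → ℝ → ℝ) : Prop where
  min : ∀ᶠ k in U, (D' k).IsMin fn ((D' k).P.d ^ 2) (z k)
  succ : ∀ᶠ k in U, (D' k).err fn ((D' k).P.d ^ 2) (z k) ≤ (D' k).P.N ^ (20 * (D' k).P.dl) * (D' k).P.E

/-- upward separation at the scale `y` on `[c1 y, c2 y]` -/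
def P6SepUp (r z : ℝ → ℝ) (y θ1 θ2 c1 c2 : ℝ) : Prop := ∀ u, c1 * y ≤ u → u ≤ c2 * y → r u ≤ θ1 * y ∧ θ2 * y ≤ z u

/-- downward separation at the scale `y` on `[c1 y, c2 y]` (with the bound `r ≤ Cr y`) -/
def P6SepDn (r z : ℝ → ℝ) (y θ1 θ2 c1 c2 Cr : ℝ) : Prop := ∀ u, c1 * y ≤ u → u ≤ c2 * y → z u ≤ θ1 * y ∧ θ2 * y ≤ r u ∧ r u ≤ Cr * y

/-! ## the field wall (Cor. 6.7) -/

/-- the wall instance of PE Cor. 6.7: `s = P.u0`, `c_L = ½ min(ε, T-ε)`, `r_0 = d² r_min/(2ε)`,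
`b0 = T - (ε + θ c_L) 1_{u<s}`, `h0 = θ c_L r_0 φ(u) 1_{u<s}` -/
def p6Wall (P : CmCall) (T ε θ : ℝ) (φ : ℝ → ℝ) : P6D where
  P := P
  T := T
  b0 := fun u => if u < P.u0 then T - (ε + θ * (min ε (T - ε) / 2)) else T
  h0 := fun u => if u < P.u0 then θ * (min ε (T - ε) / 2) * (P.d ^ 2 * P.rmin / (2 * ε)) * φ u else 0

/-- hypotheses of Cor. 6.7 on a sequence of wall parameters -/
structure P6WallSeq (U : Ultrafilter ℕ) (c : P6C) (P : ℕ → CmCall) (T ε θ : ℕ → ℝ) (φ : ℕ → ℝ → ℝ) : Prop where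
  n_top : Tendsto (fun k => (P k).N) U atTop
  m_eq : ∀ᶠ k in U, (P k).m = c.m
  ok : ∀ᶠ k in U, (P k).Ok c.cE c.D0
  T_lim : Tendsto T U (𝓝 c.Tinf)
  u0_small : (fun k => (P k).u0) =o[U] (fun k => (P k).a)
  rmin_pos : ∀ᶠ k in U, 0 < (P k).rmin
  d_small : Tendsto (fun k => (P k).d) U (𝓝 0)
  d_ε : (fun k => (P k).d ^ 2) =o[U] ε
  ε_rng : ∀ᶠ k in U, 0 < ε k ∧ ε k ≤ T k
  θ_rng : ∀ᶠ k in U, 0 ≤ θ k ∧ θ k ≤ 1
  φ_ok : ∀ᶠ k in U, MonotoneOn (φ k) (Icc 0 (P k).u0) ∧ ∀ u ∈ Icc 0 (P k).u0, 0 ≤ φ k u ∧ φ k u ≤ 1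

/-- lower loose constant of Prop. 6.6 -/
def p6Lo (Cκ cT : ℝ) : ℝ := min (1 / 2) (min (cT / 3) (1 / (2 * Cκ)))
/-- upper loose constant of Prop. 6.6 -/
def p6Hi (cκ CT : ℝ) : ℝ := max 3 (max (3 * CT) (2 / cκ))

end

end Claimed.Agent.R286
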