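import Claimed.Agent.R286.Pe6.Defs

/-!
# Row 286, PE Sec. 6 : THE FIVE IMPORTS, typed as `Prop`s about the abstract pressure `fn`      (section head helper14)

Each import is to be PROVED BY ITS OWNER for `fn = fun n => skCPr n 1`  (a theorem `... : P6ImpX (fun n => skCPr n 1) c ...`).   Sec. 6 uses NOTHING else of the model.
* `P6Chord`     PE Lemma 7.1 (chord inequality)                                   owner PE Sec. 7 (helper158 S1 / head 196), from (G1) of Sec. 2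
* `P6ImpMin`    PE Lemma 3.1 (the minimum of (6) is attained)                      owner PE Sec. 3, P04 (helper255)
* `P6ImpSweep`  PE Prop. 3.x (conditional error) + Lemma 3.1 (envelope), integrated along an admissible sweep      owner PE Sec. 3, P06 (helper294)
* `P6ImpDirect` PE Thm 5.1 (28) for a PE call                                     owner PE Sec. 5, P10 (helper24 / head 98)
* `P6ImpMacro`  PE Prop. 5.9 + the two-sided bound of Lemma 5.8                    owner PE Sec. 5, P11 (helper67)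

CONSTANTS FIRST (ledger D2): `cκ Cκ cT CT` depend only on the record `c : P6C`; they are fixed before the ultrafilter and the sequences and do NOT depend on the outer-regularity constants `c1 C1 C0`.
-/

set_option autoImplicit false

namespace Claimed.Agent.R286

open Filter Topology Set MeasureTheory Asymptotics

/-- PE Lemma 7.1 (chord): `f_n(b + a, h - c) ≤ f_n(b,h) + ¼ ∫ c²/a`   (`c²/a := 0` where `a = 0`: Lean's `x/0 = 0`) -/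
def P6Chord (fn : ℕ → (ℝ → ℝ) → (ℝ → ℝ) → ℝ) : Prop :=
  ∀ (n : ℕ) (b h b' h' a c : ℝ → ℝ), 0 < n → P6Adm b h → P6Adm b' h' →
    (∀ u ∈ Icc (0:ℝ) 1, b' u = b u + a u ∧ h' u = h u - c u) →
    (∀ u ∈ Icc (0:ℝ) 1, 0 ≤ a u ∧ (a u = 0 → c u = 0)) →
    IntervalIntegrable (fun u => c u ^ 2 / a u) volume 0 1 →
    fn n b' h' ≤ fn n b h + (1 / 4) * ∫ u in (0:ℝ)..1, c u ^ 2 / a u

section

variable (fn : ℕ → (ℝ → ℝ) → (ℝ → ℝ) → ℝ) (c : P6C)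

/-- PE Lemma 3.1: along every sequence of instances, eventually every admissible strength has a minimiser -/
def P6ImpMin : Prop :=
  ∀ (U : Ultrafilter ℕ) (D : ℕ → P6D), P6Seq U c D →
    ∀ᶠ k in U, ∀ lam, 0 ≤ lam → lam ≤ (D k).P.d ^ 2 → (D k).Fam lam → ∃ r, (D k).IsMin fn lam r

/-- PE Prop. 3.x, last assertion: if ALL minimisers at ALL strengths `n^{-10} ≤ λ ≤ d²` of an ordinary family are regular above `A_λ`, then the whole comparison has error in `[0, n^{20δ} E]` -/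
def P6ImpSweep : Prop :=
  ∀ (U : Ultrafilter ℕ) (D : ℕ → P6D) (c1 C1 : ℝ), 0 < c1 → c1 < C1 → P6Seq U c D → (∀ᶠ k in U, (D k).Ord) →
    (∀ᶠ k in U, ∀ lam r, (D k).P.N ^ (-(10:ℝ)) ≤ lam → lam ≤ (D k).P.d ^ 2 → (D k).IsMin fn lam r → P6Reg (D k).P.u0 r c1 C1 1 ((D k).P.Al lam)) →
    ∀ᶠ k in U, ∀ lam r, 0 ≤ lam → lam ≤ (D k).P.d ^ 2 → (D k).IsMin fn lam r →
      0 ≤ (D k).err fn lam r ∧ (D k).err fn lam r ≤ (D k).P.N ^ (20 * (D k).P.dl) * (D k).P.E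

/-- PE Thm 5.1 (rigidity at a small test scale) for a PE call -/
def P6ImpDirect (cκ Cκ : ℝ) : Prop :=
  ∀ (U : Ultrafilter ℕ) (D : ℕ → P6D) (lam x : ℕ → ℝ) (r : ℕ → ℝ → ℝ) (c1 C1 C0 : ℝ), 0 < c1 → 0 < C1 → 0 < C0 → P6Seq U c D →
    (∀ᶠ k in U, 0 < lam k ∧ lam k ≤ (D k).P.d ^ 2) → (∀ᶠ k in U, (D k).Fam (lam k)) → (∀ᶠ k in U, (D k).IsMin fn (lam k) (r k)) →
    (∀ᶠ k in U, 0 < x k) → Tendsto x U (𝓝 0) →
    (fun k => (D k).P.a) =O[U] x →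
    (fun k => (D k).P.N * (D k).P.E ^ 2) =O[U] (fun k => (D k).P.e (lam k) (x k) * x k ^ 2) →
    (fun k => x k ^ 2) =O[U] (fun k => (D k).P.e (lam k) (x k)) →
    (∀ᶠ k in U, P6Reg (D k).P.u0 (r k) c1 C1 C0 (x k)) →
    ∃ κ, cκ ≤ κ ∧ κ ≤ Cκ ∧ ∀ v : ℝ, 0 < v → Tendsto (fun k => r k (x k * v) / x k) U (𝓝 (v / κ))

/-- PE Prop. 5.9 (rigidity at macroscopic scales) with the two-sided bound of Lemma 5.8 -/
def P6ImpMacro (cT CT : ℝ) : Prop :=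
  ∀ (U : Ultrafilter ℕ) (D : ℕ → P6D) (lam x : ℕ → ℝ) (r : ℕ → ℝ → ℝ) (c1 : ℝ), 0 < c1 → P6Seq U c D →
    (∀ᶠ k in U, 0 < lam k ∧ lam k ≤ (D k).P.d ^ 2) → (∀ᶠ k in U, (D k).Fam (lam k)) → (∀ᶠ k in U, (D k).IsMin fn (lam k) (r k)) →
    (∀ᶠ k in U, c1 ≤ x k ∧ x k ≤ 1) → (∀ᶠ k in U, c1 * x k ^ 2 ≤ (D k).P.e (lam k) (x k)) →
    ∃ q : ℝ → ℝ, (∀ v, 0 < v → v < 1 → cT * v ≤ q v ∧ q v ≤ CT * v) ∧ ∀ v : ℝ, 0 < v → v < 1 → Tendsto (fun k => r k v) U (𝓝 (q v))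

/-- **all imports of Sec. 6**, with their constants.      INSTANCE for the SK pressure `fun n => skCPr n 1`: the five exits `exit_p6_chord` (49), `exit_p6_min` (255), `exit_p6_sweep` (294),
`exit_p6_direct` (98/24), `exit_p6_macro` (155/67) in `R286/Exit/P6*.lean`; assembled in `R286/Exit/Prop.lean` (14). -/
structure P6Imports (cκ Cκ cT CT : ℝ) : Prop where
  chord : P6Chord fn
  exMin : P6ImpMin fn c
  sweep : P6ImpSweep fn c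
  direct : P6ImpDirect fn c cκ Cκ
  macr : P6ImpMacro fn c cT CT
  κ_rng : 0 < cκ ∧ cκ ≤ Cκ
  T_rng : 0 < cT ∧ cT ≤ CT

end

/-- **THE EXITS OF SEC. 6 in one record** (PE Prop. 6.6 + Cor. 6.7), constants `cl < Ch` FIRST.      INSTANCE for the SK pressure: `exit_prop` (`R286/Exit/Prop.lean`, owner helper14).
Abstract theorem: `p6_exit : P6Imports fn c cκ Cκ cT CT → c.Ok → P6Exit fn c (p6Lo Cκ cT) (p6Hi cκ CT)` (`Pe6/Contract.lean`). -/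
structure P6Exit (fn : ℕ → (ℝ → ℝ) → (ℝ → ℝ) → ℝ) (c : P6C) (cl Ch : ℝ) : Prop where
  /-- Prop. 6.6, profile: fixed strength families and ordinary families -/
  profile : ∀ (U : Ultrafilter ℕ) (β0 κ0 : ℝ) (D : ℕ → P6D) (lam : ℕ → ℝ) (r : ℕ → ℝ → ℝ) (j0 : ℕ → ℝ), 0 < β0 → κ0 + 1 ≤ c.K → P6Seq U c D →
    (∀ᶠ k in U, 0 < lam k ∧ lam k ≤ (D k).P.d ^ 2) → (∀ᶠ k in U, (D k).Fam (lam k)) → (∀ᶠ k in U, (D k).IsMin fn (lam k) (r k)) →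
    (∀ᶠ k in U, 0 ≤ j0 k ∧ j0 k ≤ (D k).P.u0) → (∀ᶠ k in U, P6Marg ((D k).Pb (lam k) (r k)) (j0 k) β0) →
    (∀ᶠ k in U, P6Bd ((D k).Pb (lam k) (r k)) ((D k).Ph (lam k) (r k)) κ0) →
    ∀ᶠ k in U, ∀ u, (D k).P.Al (lam k) ≤ u → u ≤ 1 → cl * u ≤ r k u ∧ r k u ≤ Ch * u
  /-- Prop. 6.6, error bound for ordinary families -/
  error : ∀ (U : Ultrafilter ℕ) (β0 κ0 : ℝ) (D : ℕ → P6D) (j0 : ℕ → ℝ), 0 < β0 → κ0 + 1 ≤ c.K → P6Seq U c D → (∀ᶠ k in U, (D k).Ord) →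
    (∀ᶠ k in U, 0 ≤ j0 k ∧ j0 k ≤ (D k).P.u0) →
    (∀ᶠ k in U, ∀ l s, 0 < l → l ≤ (D k).P.d ^ 2 → (D k).P.Fe s → P6Marg ((D k).Pb l s) (j0 k) β0 ∧ P6Bd ((D k).Pb l s) ((D k).Ph l s) κ0) →
    ∀ᶠ k in U, ∀ l s, 0 ≤ l → l ≤ (D k).P.d ^ 2 → (D k).IsMin fn l s →
      0 ≤ (D k).err fn l s ∧ (D k).err fn l s ≤ (D k).P.N ^ (20 * (D k).P.dl) * (D k).P.E
  /-- Cor. 6.7, admissibility of the changed wall paths -/
  wall_fam : ∀ (U : Ultrafilter ℕ) (P : ℕ → CmCall) (T ε θ : ℕ → ℝ) (φ : ℕ → ℝ → ℝ), P6WallSeq U c P T ε θ φ →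
    ∀ᶠ k in U, (p6Wall (P k) (T k) (ε k) (θ k) (φ k)).Fam ((P k).d ^ 2)
  /-- Cor. 6.7, the profile along arbitrary sequences of wall parameters -/
  wall : c.Tinf + 2 ≤ c.K → ∀ (U : Ultrafilter ℕ) (P : ℕ → CmCall) (T ε θ : ℕ → ℝ) (φ : ℕ → ℝ → ℝ) (r : ℕ → ℝ → ℝ), P6WallSeq U c P T ε θ φ →
    (∀ᶠ k in U, (p6Wall (P k) (T k) (ε k) (θ k) (φ k)).IsMin fn ((P k).d ^ 2) (r k)) →
    ∀ᶠ k in U, ∀ u, (P k).Al ((P k).d ^ 2) ≤ u → u ≤ 1 → cl * u ≤ r k u ∧ r k u ≤ Ch * u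

end Claimed.Agent.R286
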