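import Claimed.Agent.R286.Pe6.Contract
import Claimed.Agent.R286.Pe6.Agree
import Claimed.Agent.R286.Bud.Cp

/-!
# Row 286 (S0533), PE Sec. 6 for a CLASS-FREE PARENT      OWNER helper252 (arrow I7 of the LL chain, order of helper136);   section head helper14;   prefix `p6fr_`, type `P6Fr`

WHY.   LL 07-budgets l.889-985 (Step 1 of (C7)), l.1104-1150 (Step 3) run PE Lemma 6.2 and Lemma 6.5 for a parent which minimises over ANOTHER class (the box (C5): floor `k + κ 1_I`, constant cap `M_j`):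
"the data verification in that lemma uses (3) and the parent strength, cutoff and outer bound (not the parent's optimization constraints)".
In `Pe6/Child.lean`, `Pe6/Succ.lean` the parent is typed by `P6Wk` (fields `min : IsMin`, `fam : Fam` = the class (5) of PE).      HERE the same statements for `P6Fr`:
of the parent quantile `r` ONLY: monotone, values in `[0,1]`, the changed path `(Pb lam r, Ph lam r)` is admissible, outer regularity above `x ≥ A_λ`, `e(x) = o(x²)`, margin `β`, clock bound `κ0`.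
The temperature `(D k).T` is a field of the instance, `T_k → c.Tinf` (`P6Seq.T_lim`), and the child keeps the SAME `T_k` (PE appendix "A common prelimit temperature", LL 06 l.83-110).

EXITS
* `P6Wk.toFr`          the PE parent is a class-free parent.
* `p6fr_seq`           PE Lemma 6.2: the child data satisfy (3), (4), (5) with the same constants and the same `T_k`.      TEX[PE:reg:child-data]
* `p6fr_ord`, `p6fr_bud`      the child is an ordinary family; margins `β - c0²`, clock bound `κ0 + c0²` of all its changed paths.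
* `p6fr_succ`          the child has a final minimiser, and EVERY final minimiser is successful: error `≤ n^{20δ} E'`  (= `p6_error` for the child; no induction here).
* `p6fr_err_le`        `n^{20δ} E' ≤ n^{-80δ} e(x) x³`.
* `p6fr_ag`            `P6NoSep U r z x` ⟹ the standing hypotheses `P6Ag` of the model-free half of Lemma 6.5 (`Pe6/Agree.lean`, helper101).
* `p6fr_child_reg`     the child is regular above `x`.
* `p6fr_small`         `x → 0`: the rescaled PARENT quantile converges, `r(x v)/x → v/κ`, `cκ ≤ κ ≤ Cκ`, and `κ` is the slope of the child.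
* `p6fr_macro`         `x ≥ c1 > 0`: pointwise limit of the parent with the two-sided bound.
* `p6fr_not_off`       **PE Lemma 6.5 for a class-free parent**: no failure of the loose profile at `x`.      TEX[PE:reg:successful-child]
The ONLY hypothesis which knows the class of the parent is `P6NoSep U r z x` (no threshold separation): SUPPLIER for the box (C5) = LL 07 l.903-975 (`p6_move_core` = class-free PE Lemma 6.3 + the barriers of the box).
-/

set_option autoImplicit false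

namespace Claimed.Agent.R286

open Filter Topology Set MeasureTheory Asymptotics

/-- **a class-free weak parent** -/
structure P6Fr (U : Ultrafilter ℕ) (c : P6C) (D : ℕ → P6D) (lam x : ℕ → ℝ) (r : ℕ → ℝ → ℝ) (cl Ch C0 β κ0 : ℝ) (j0 : ℕ → ℝ) : Prop where
  seq : P6Seq U c D
  lam_rng : ∀ᶠ k in U, 0 < lam k ∧ lam k ≤ (D k).P.d ^ 2
  adm : ∀ᶠ k in U, P6Adm ((D k).Pb (lam k) (r k)) ((D k).Ph (lam k) (r k))
  mono : ∀ᶠ k in U, MonotoneOn (r k) (Icc (D k).P.u0 1)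
  rng : ∀ᶠ k in U, ∀ u ∈ Icc (D k).P.u0 1, 0 ≤ r k u ∧ r k u ≤ 1
  x_rng : ∀ᶠ k in U, (D k).P.Al (lam k) ≤ x k ∧ x k ≤ 1
  outer : ∀ᶠ k in U, P6Reg (D k).P.u0 (r k) cl Ch C0 (x k)
  weak : (fun k => (D k).P.e (lam k) (x k)) =o[U] (fun k => x k ^ 2)
  j0_rng : ∀ᶠ k in U, 0 ≤ j0 k ∧ j0 k ≤ (D k).P.u0
  marg : ∀ᶠ k in U, P6Marg ((D k).Pb (lam k) (r k)) (j0 k) β
  clkP : ∀ᶠ k in U, P6Bd ((D k).Pb (lam k) (r k)) ((D k).Ph (lam k) (r k)) κ0

variable {fn : ℕ → (ℝ → ℝ) → (ℝ → ℝ) → ℝ} {U : Ultrafilter ℕ} {c : P6C} {D : ℕ → P6D} {lam x : ℕ → ℝ} {r : ℕ → ℝ → ℝ}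
  {cl Ch C0 c0 β κ0 cκ Cκ cT CT : ℝ} {j0 : ℕ → ℝ}

/-- the parent of PE Sec. 6 is a class-free parent -/
theorem P6Wk.toFr (hc : c.Ok) (h : P6Wk fn U c D lam x r cl Ch C0 β j0) : P6Fr U c D lam x r cl Ch C0 β c.K j0 where
  seq := h.seq
  lam_rng := h.lam_rng
  adm := by filter_upwards [h.fam, h.min] with k hf hm using hf _ hm.1
  mono := by filter_upwards [h.seq.ok, h.min] with k hok hm using (p6_fe_rng hc.cE_pos hok hm.1).1
  rng := by filter_upwards [h.seq.ok, h.min] with k hok hm using (p6_fe_rng hc.cE_pos hok hm.1).2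
  x_rng := h.x_rng
  outer := h.outer
  weak := h.weak
  j0_rng := h.j0_rng
  marg := h.marg
  clkP := h.clkP

/-! ## 1. elementary asymptotics (as `Pe6/Asy.lean`) -/

theorem p6fr_x_pos (hc : c.Ok) (h : P6Fr U c D lam x r cl Ch C0 β κ0 j0) : ∀ᶠ k in U, 0 < x k := by
  filter_upwards [h.seq.ok, h.lam_rng, h.x_rng] with k hk hl hx
  have h1 := cm_Al_ge hc.cE_pos hk hl.1 hl.2
  have h2 : 0 < (D k).P.N ^ (D k).P.dl * (D k).P.a :=
    mul_pos (Real.rpow_pos_of_pos (cm_N_pos hk) _) (cm_a_pos hc.cE_pos hk)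
  linarith [hx.1]

/-- `x ≥ n^δ a` -/
theorem p6fr_a_x (hc : c.Ok) (h : P6Fr U c D lam x r cl Ch C0 β κ0 j0) : ∀ᶠ k in U, (D k).P.N ^ (D k).P.dl * (D k).P.a ≤ x k := by
  filter_upwards [h.seq.ok, h.lam_rng, h.x_rng] with k hk hl hx
  exact (cm_Al_ge hc.cE_pos hk hl.1 hl.2).trans hx.1

theorem p6fr_a_o (hc : c.Ok) (h : P6Fr U c D lam x r cl Ch C0 β κ0 j0) : (fun k => (D k).P.a) =o[U] x := by
  refine aq_o_of_le fun ε hε => ?_
  have hdl : 0 < c.dl := by have := hc.m_pos; unfold P6C.dl; positivity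
  filter_upwards [h.seq.ok, p6fr_a_x hc h, p6_seq_dl h.seq, p6_seq_pow_small h.seq hdl hε] with k hk h1 h2 h3
  have hN := cm_N_pos hk
  have ha := cm_a_pos hc.cE_pos hk
  rw [abs_of_pos ha]
  rw [h2] at h1
  have hp : 0 < (D k).P.N ^ c.dl := Real.rpow_pos_of_pos hN _
  have hx : 0 ≤ x k := le_trans (by positivity) h1
  calc (D k).P.a = (D k).P.N ^ (-c.dl) * ((D k).P.N ^ c.dl * (D k).P.a) := by
        rw [Real.rpow_neg hN.le]; field_simp
    _ ≤ (D k).P.N ^ (-c.dl) * x k := mul_le_mul_of_nonneg_left h1 (Real.rpow_nonneg hN.le _)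
    _ ≤ ε * x k := mul_le_mul_of_nonneg_right h3 hx

theorem p6fr_u0 (hc : c.Ok) (h : P6Fr U c D lam x r cl Ch C0 β κ0 j0) : (fun k => (D k).P.u0) =o[U] x :=
  h.seq.u0_small.trans (p6fr_a_o hc h)

/-- fixed size: outer bound + monotonicity: `r u ≤ Ch max(u, C0 x)` on the whole working interval -/
theorem p6fr_reg_le {u0 : ℝ} {r : ℝ → ℝ} (hmono : MonotoneOn r (Icc u0 1)) (hr1 : ∀ u ∈ Icc u0 1, r u ≤ 1) {cl Ch C0 x : ℝ} (hCh : 1 ≤ Ch)
    (hu0 : u0 ≤ C0 * x) (hreg : P6Reg u0 r cl Ch C0 x) {u : ℝ} (hu : u ∈ Icc u0 1) : r u ≤ Ch * max u (C0 * x) := by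
  rcases le_total (C0 * x) u with h1 | h1
  · rw [max_eq_left h1]
    exact (hreg u h1 hu.2 hu.1).2
  · rw [max_eq_right h1]
    rcases le_total (C0 * x) 1 with h2 | h2
    · exact (hmono hu ⟨hu0, h2⟩ h1).trans (hreg (C0 * x) le_rfl h2 hu0).2
    · calc r u ≤ 1 := hr1 u hu
        _ ≤ Ch * (C0 * x) := by nlinarith

/-- `e(0) = λ = o(x²)` -/
theorem p6fr_lam (hc : c.Ok) (h : P6Fr U c D lam x r cl Ch C0 β κ0 j0) : lam =o[U] (fun k => x k ^ 2) := by
  refine aq_o_of_le fun ε hε => ?_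
  set t0 : ℝ := 1 / Real.sqrt ε with ht0
  have hs : 0 < Real.sqrt ε := Real.sqrt_pos.2 hε
  have hf : 0 < cmF t0 := cm_f_pos t0
  have hw := aq_o_bound h.weak (Eventually.of_forall fun k => sq_nonneg (x k)) (show 0 < ε * cmF t0 by positivity)
  filter_upwards [h.seq.ok, h.lam_rng, p6fr_x_pos hc h, hw] with k hk hl hx hw
  have hd := hk.d0
  rw [abs_of_pos hl.1]
  rcases le_total ((D k).P.d ^ 2) (ε * x k ^ 2) with h1 | h1
  · exact hl.2.trans h1
  · have h2 : x k / (D k).P.d ≤ t0 := by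
      rw [ht0, div_le_div_iff₀ hd hs, one_mul]
      have : (x k * Real.sqrt ε) ^ 2 ≤ (D k).P.d ^ 2 := by
        rw [mul_pow, Real.sq_sqrt hε.le]; linarith
      exact abs_le_of_sq_le_sq' this hd.le |>.2
    have h3 : lam k * x k / (D k).P.d ^ 3 ≤ t0 := by
      refine le_trans ?_ h2
      rw [div_le_div_iff₀ (by positivity) hd]
      have : lam k * x k * (D k).P.d ≤ (D k).P.d ^ 2 * x k * (D k).P.d := by
        apply mul_le_mul_of_nonneg_right _ hd.le
        exact mul_le_mul_of_nonneg_right hl.2 hx.le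
      nlinarith
    have h4 : lam k * cmF t0 ≤ (D k).P.e (lam k) (x k) := by
      unfold CmCall.e
      exact mul_le_mul_of_nonneg_left (cm_f_anti h3) hl.1.le
    have h5 : (D k).P.e (lam k) (x k) ≤ ε * cmF t0 * x k ^ 2 := (le_abs_self _).trans hw
    have h6 : lam k * cmF t0 ≤ (ε * x k ^ 2) * cmF t0 := by linarith
    exact le_of_mul_le_mul_right h6 hf

/-! ## 2. PE Lemma 6.2 (as `Pe6/ChildFix.lean`, `Pe6/Child.lean`) -/

theorem p6fr_ok (hk : P6K c cl Ch C0 c0 β) (h : P6Fr U c D lam x r cl Ch C0 β κ0 j0) :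
    ∀ᶠ k in U, (p6Child c0 D lam x r j0 k).P.Ok c.cE c.D0 := by
  filter_upwards [h.seq.ok, h.lam_rng, h.x_rng, h.j0_rng, p6_ch_ev_thr hk.ok h.seq hk.c0_pos one_pos] with k ok hl hx hj thr
  exact p6_ch_ok hk.ok.cE_pos ok hl.1 hl.2 hx.1 hx.2 hk.c0_pos hk.c0_D hj.1 hj.2 thr.1 thr.2.1

/-- the error parameter grows by `n^{δ/4}`, and `a' ≥ a` -/
theorem p6fr_gain (hk : P6K c cl Ch C0 c0 β) (h : P6Fr U c D lam x r cl Ch C0 β κ0 j0) :
    ∀ᶠ k in U, (D k).P.N ^ ((D k).P.dl / 4) * (D k).P.E ≤ (p6Child c0 D lam x r j0 k).P.E ∧ (D k).P.a ≤ (p6Child c0 D lam x r j0 k).P.a := by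
  have hw := aq_o_bound h.weak (Eventually.of_forall fun k => sq_nonneg (x k)) one_pos
  filter_upwards [h.seq.ok, h.lam_rng, h.x_rng, hw, p6_ch_ev_thr hk.ok h.seq hk.c0_pos one_pos] with k ok hl hx hw thr
  have hw' : (D k).P.e (lam k) (x k) ≤ x k ^ 2 := by
    have := (le_abs_self _).trans hw
    linarith
  exact p6_ch_gain hk.ok.cE_pos ok hl.1 hl.2 hx.1 hk.c0_pos hw' thr.1 thr.2.1 thr.2.2.1 thr.2.2.2.1

/-- (N1) `e(x) x = o(a'³)` -/
theorem p6fr_N1 (hk : P6K c cl Ch C0 c0 β) (h : P6Fr U c D lam x r cl Ch C0 β κ0 j0) :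
    (fun k => (D k).P.e (lam k) (x k) * x k) =o[U] (fun k => (p6Child c0 D lam x r j0 k).P.a ^ 3) := by
  refine aq_o_of_le fun ε hε => ?_
  have hc0 := hk.c0_pos
  have hcE := hk.ok.cE_pos
  have ht : 0 < min 1 ε := lt_min one_pos hε
  have hw := aq_o_bound h.weak (Eventually.of_forall fun k => sq_nonneg (x k)) (show 0 < ε * c0 ^ 3 by positivity)
  filter_upwards [h.seq.ok, h.lam_rng, h.x_rng, hw, p6_ch_ev_thr hk.ok h.seq hc0 ht] with k ok hl hx hw thr
  have A := p6_ch_A hcE ok hl.1 hl.2 hx.1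
  have hx0 := A.x0
  have he0 := A.ex0
  have hs0 := p6_ch_s_pos hcE ok hl.1 hl.2 hx.1 hc0
  have hst := p6_ch_star hcE ok hl.1 hl.2 hx.1 hc0 thr.2.2.2.2
  rw [abs_of_pos (by positivity)]
  show _ ≤ ε * ((D k).child (lam k) (r k) (x k) c0 (j0 k)).P.a ^ 3
  rw [p6_ch_a_eq (cm_N_pos ok) hx0 hc0]
  rcases le_total (c0 * x k) (p6ChS (D k).P (lam k) (x k) c0) with hm | hm
  · rw [min_eq_left hm]
    have hw' : (D k).P.e (lam k) (x k) ≤ ε * c0 ^ 3 * x k ^ 2 := (le_abs_self _).trans hw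
    calc (D k).P.e (lam k) (x k) * x k ≤ (ε * c0 ^ 3 * x k ^ 2) * x k := by gcongr
      _ = ε * (c0 * x k) ^ 3 := by ring
  · rw [min_eq_right hm]
    have h3 : (min 1 ε) ^ 3 ≤ ε := by
      calc (min 1 ε) ^ 3 ≤ (min 1 ε) ^ 1 := pow_le_pow_of_le_one ht.le (min_le_left _ _) (by norm_num)
        _ = min 1 ε := pow_one _
        _ ≤ ε := min_le_right _ _
    calc (D k).P.e (lam k) (x k) * x k ≤ (min 1 ε * p6ChS (D k).P (lam k) (x k) c0) ^ 3 := hst
      _ = (min 1 ε) ^ 3 * p6ChS (D k).P (lam k) (x k) c0 ^ 3 := by ring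
      _ ≤ ε * p6ChS (D k).P (lam k) (x k) c0 ^ 3 := by gcongr

/-- (N2) `λ = o(a'²)` -/
theorem p6fr_N2 (hk : P6K c cl Ch C0 c0 β) (h : P6Fr U c D lam x r cl Ch C0 β κ0 j0) :
    lam =o[U] (fun k => (p6Child c0 D lam x r j0 k).P.a ^ 2) := by
  refine aq_o_of_le fun ε hε => ?_
  have hc0 := hk.c0_pos
  have hcE := hk.ok.cE_pos
  have ht : 0 < min 1 (ε / (c0 + 1)) := lt_min one_pos (by positivity)
  have hw := aq_o_bound (p6fr_lam hk.ok h) (Eventually.of_forall fun k => sq_nonneg (x k)) (show 0 < ε * c0 ^ 2 by positivity)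
  filter_upwards [h.seq.ok, h.lam_rng, h.x_rng, hw, p6_ch_ev_thr hk.ok h.seq hc0 ht] with k ok hl hx hw thr
  have A := p6_ch_A hcE ok hl.1 hl.2 hx.1
  have hx0 := A.x0
  have hs0 := p6_ch_s_pos hcE ok hl.1 hl.2 hx.1 hc0
  rw [abs_of_pos hl.1]
  show _ ≤ ε * ((D k).child (lam k) (r k) (x k) c0 (j0 k)).P.a ^ 2
  rw [p6_ch_a_eq (cm_N_pos ok) hx0 hc0]
  rcases le_total (c0 * x k) (p6ChS (D k).P (lam k) (x k) c0) with hm | hm
  · rw [min_eq_left hm]
    calc lam k ≤ ε * c0 ^ 2 * x k ^ 2 := (le_abs_self _).trans hw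
      _ = ε * (c0 * x k) ^ 2 := by ring
  · rw [min_eq_right hm]
    have hl3 := p6_ch_lam2 hcE ok hl.1 hl.2 hx.1 hc0 thr.2.2.2.2 (min_le_left _ _) hm
    have h3 : (c0 + 1) * (min 1 (ε / (c0 + 1))) ^ 2 ≤ ε := by
      have h4 : (min 1 (ε / (c0 + 1))) ^ 2 ≤ ε / (c0 + 1) := by
        calc (min 1 (ε / (c0 + 1))) ^ 2 ≤ (min 1 (ε / (c0 + 1))) ^ 1 := pow_le_pow_of_le_one ht.le (min_le_left _ _) (by norm_num)
          _ = min 1 (ε / (c0 + 1)) := pow_one _
          _ ≤ _ := min_le_right _ _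
      calc (c0 + 1) * (min 1 (ε / (c0 + 1))) ^ 2 ≤ (c0 + 1) * (ε / (c0 + 1)) := by gcongr
        _ = ε := by field_simp
    calc lam k ≤ (c0 + 1) * (min 1 (ε / (c0 + 1))) ^ 2 * p6ChS (D k).P (lam k) (x k) c0 ^ 2 := hl3
      _ ≤ ε * p6ChS (D k).P (lam k) (x k) c0 ^ 2 := by gcongr

/-- (4) for the child, with the SAME temperature `T_k` -/
theorem p6fr_ep4 (hk : P6K c cl Ch C0 c0 β) (h : P6Fr U c D lam x r cl Ch C0 β κ0 j0) :
    ∀ κ ε : ℝ, 1 ≤ κ → 0 < ε → ∀ᶠ k in U, ∀ z u : ℝ, (p6Child c0 D lam x r j0 k).P.a / κ ≤ z → z ≤ 1 → j0 k < u → u < 1 → z / κ ≤ u → u ≤ κ * z →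
      |(D k).Pb (lam k) (r k) u - (D k).T| ≤ ε * z ^ 2 ∧ |(D k).Ph (lam k) (r k) u| ≤ ε * z ^ 3 := by
  intro κ ε hκ hε
  have hc := hk.ok
  have hκ0 : 0 < κ := by linarith
  have hCh0 : 0 < Ch := by linarith [hk.Ch_ge]
  have hC00 : 0 < C0 := by linarith [hk.C0_ge]
  set C' : ℝ := Ch * max κ C0 with hC'
  have hmx : 1 ≤ max κ C0 := hκ.trans (le_max_left _ _)
  have hC'1 : 1 ≤ C' := by rw [hC']; nlinarith [hk.Ch_ge]
  have hC'0 : 0 < C' := by linarith
  have hchild_a : ∀ᶠ k in U, (D k).P.a ≤ (p6Child c0 D lam x r j0 k).P.a := (p6fr_gain hk h).mono fun _ h => h.2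
  have hapos : ∀ᶠ k in U, 0 ≤ (p6Child c0 D lam x r j0 k).P.a := by
    filter_upwards [hchild_a, p6_seq_a_pos hc h.seq] with k h1 h2
    linarith
  have n1 := aq_o_bound (p6fr_N1 hk h) (hapos.mono fun k hk => pow_nonneg hk 3)
    (show 0 < ε / (2 * C' * κ ^ 3) by positivity)
  have n2 := aq_o_bound (p6fr_N2 hk h) (hapos.mono fun k hk => pow_nonneg hk 2)
    (show 0 < ε / (2 * κ ^ 2) by positivity)
  have n3 := aq_o_bound (p6fr_lam hc h) (Eventually.of_forall fun k => sq_nonneg (x k))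
    (show 0 < ε / (2 * C') by positivity)
  have u0a := aq_o_bound h.seq.u0_small ((p6_seq_a_pos hc h.seq).mono fun k hk => hk.le)
    (show 0 < 1 / (2 * κ ^ 2) by positivity)
  have u0x := aq_o_bound (p6fr_u0 hc h) ((p6fr_x_pos hc h).mono fun k hk => hk.le) one_pos
  filter_upwards [n1, n2, n3, u0a, u0x, h.seq.ep4 κ (ε / 2) hκ (by positivity), hchild_a, p6_seq_a_pos hc h.seq,
    h.seq.ok, h.lam_rng, h.mono, h.rng, h.outer, p6fr_x_pos hc h] with k n1 n2 n3 u0a u0x ep4 haa ha hok hl hmono hrng hreg hx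
  intro z u hz hz1 hj hu1 hzu huz
  set a' := (p6Child c0 D lam x r j0 k).P.a with ha'
  have ha'0 : 0 < a' := lt_of_lt_of_le ha haa
  have hz0 : 0 < z := lt_of_lt_of_le (by positivity) hz
  have ha'z : a' ≤ κ * z := by rw [div_le_iff₀ hκ0] at hz; linarith
  have hu0u : (D k).P.u0 < u := by
    have h1 : (D k).P.u0 ≤ 1 / (2 * κ ^ 2) * (D k).P.a := (le_abs_self _).trans u0a
    have h2 : (D k).P.a / κ ^ 2 ≤ u := by
      calc (D k).P.a / κ ^ 2 ≤ a' / κ ^ 2 := div_le_div_of_nonneg_right haa (by positivity)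
        _ = a' / κ / κ := by field_simp
        _ ≤ z / κ := div_le_div_of_nonneg_right hz hκ0.le
        _ ≤ u := hzu
    have h3 : 1 / (2 * κ ^ 2) * (D k).P.a < (D k).P.a / κ ^ 2 := by
      have : 1 / (2 * κ ^ 2) * (D k).P.a = (D k).P.a / κ ^ 2 / 2 := by field_simp
      rw [this]
      have : 0 < (D k).P.a / κ ^ 2 := by positivity
      linarith
    linarith
  obtain ⟨eb, eh⟩ := ep4 z u ((div_le_div_of_nonneg_right haa hκ0.le).trans hz) hz1 hu0u hu1 hzu huz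
  have huI : u ∈ Icc (D k).P.u0 1 := ⟨hu0u.le, hu1.le⟩
  have hr0 : 0 ≤ r k u := (hrng u huI).1
  have he0 : 0 ≤ (D k).P.e (lam k) (r k u) := cm_e_nonneg _ hl.1.le _
  have hel : (D k).P.e (lam k) (r k u) ≤ lam k := cm_e_le _ hl.1.le _
  have hlam2 : lam k ≤ ε / 2 * z ^ 2 := by
    have h1 : lam k ≤ ε / (2 * κ ^ 2) * a' ^ 2 := (le_abs_self _).trans n2
    have h2 : a' ^ 2 ≤ (κ * z) ^ 2 := pow_le_pow_left₀ ha'0.le ha'z 2
    calc lam k ≤ ε / (2 * κ ^ 2) * a' ^ 2 := h1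
      _ ≤ ε / (2 * κ ^ 2) * (κ * z) ^ 2 := mul_le_mul_of_nonneg_left h2 (by positivity)
      _ = ε / 2 * z ^ 2 := by field_simp
  have hu0x : (D k).P.u0 ≤ C0 * x k := by
    have h1 : (D k).P.u0 ≤ 1 * x k := (le_abs_self _).trans u0x
    nlinarith [hk.C0_ge]
  have hrle := p6fr_reg_le hmono (fun u hu => (hrng u hu).2) hk.Ch_ge hu0x hreg huI
  have her : (D k).P.e (lam k) (r k u) * r k u ≤ ε / 2 * z ^ 3 := by
    rcases le_total (x k) z with hxz | hxz
    · have h1 : max u (C0 * x k) ≤ max κ C0 * z := by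
        apply max_le
        · exact huz.trans (mul_le_mul_of_nonneg_right (le_max_left _ _) hz0.le)
        · exact (mul_le_mul_of_nonneg_left hxz hC00.le).trans (mul_le_mul_of_nonneg_right (le_max_right _ _) hz0.le)
      have h2 : r k u ≤ C' * z := by
        calc r k u ≤ Ch * max u (C0 * x k) := hrle
          _ ≤ Ch * (max κ C0 * z) := mul_le_mul_of_nonneg_left h1 hCh0.le
          _ = C' * z := by rw [hC']; ring
      have h3 : lam k ≤ ε / (2 * C') * z ^ 2 := by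
        have h4 : lam k ≤ ε / (2 * C') * x k ^ 2 := (le_abs_self _).trans n3
        exact h4.trans (mul_le_mul_of_nonneg_left (pow_le_pow_left₀ hx.le hxz 2) (by positivity))
      calc (D k).P.e (lam k) (r k u) * r k u ≤ (ε / (2 * C') * z ^ 2) * (C' * z) :=
            mul_le_mul (hel.trans h3) h2 hr0 (by positivity)
        _ = ε / 2 * z ^ 3 := by field_simp
    · have h1 : max u (C0 * x k) ≤ max κ C0 * x k := by
        apply max_le
        · exact huz.trans ((mul_le_mul_of_nonneg_left hxz hκ0.le).trans (mul_le_mul_of_nonneg_right (le_max_left _ _) hx.le))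
        · exact mul_le_mul_of_nonneg_right (le_max_right _ _) hx.le
      have h2 : r k u ≤ C' * x k := by
        calc r k u ≤ Ch * max u (C0 * x k) := hrle
          _ ≤ Ch * (max κ C0 * x k) := mul_le_mul_of_nonneg_left h1 hCh0.le
          _ = C' * x k := by rw [hC']; ring
      have h3 : r k u * (D k).P.e (lam k) (r k u) ≤ C' * x k * (D k).P.e (lam k) (C' * x k) :=
        cm_re_mono (P := (D k).P) hok.d0 hl.1.le (mem_Ici.2 hr0) (mem_Ici.2 (by positivity)) h2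
      have h4 : (D k).P.e (lam k) (C' * x k) ≤ (D k).P.e (lam k) (x k) :=
        cm_e_anti (P := (D k).P) hok.d0 hl.1.le (by nlinarith)
      have h5 : (D k).P.e (lam k) (x k) * x k ≤ ε / (2 * C' * κ ^ 3) * a' ^ 3 := (le_abs_self _).trans n1
      have h6 : a' ^ 3 ≤ (κ * z) ^ 3 := pow_le_pow_left₀ ha'0.le ha'z 3
      calc (D k).P.e (lam k) (r k u) * r k u = r k u * (D k).P.e (lam k) (r k u) := mul_comm _ _
        _ ≤ C' * x k * (D k).P.e (lam k) (C' * x k) := h3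
        _ ≤ C' * x k * (D k).P.e (lam k) (x k) := mul_le_mul_of_nonneg_left h4 (by positivity)
        _ = C' * ((D k).P.e (lam k) (x k) * x k) := by ring
        _ ≤ C' * (ε / (2 * C' * κ ^ 3) * (κ * z) ^ 3) :=
            mul_le_mul_of_nonneg_left (h5.trans (mul_le_mul_of_nonneg_left h6 (by positivity))) hC'0.le
        _ = ε / 2 * z ^ 3 := by field_simp
  constructor
  · have e1 : (D k).Pb (lam k) (r k) u = (D k).b0 u - (D k).P.e (lam k) (r k u) := by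
      unfold P6D.Pb; rw [if_pos hu0u.le]
    rw [e1]
    have : |(D k).b0 u - (D k).P.e (lam k) (r k u) - (D k).T| ≤ |(D k).b0 u - (D k).T| + (D k).P.e (lam k) (r k u) := by
      have e2 : (D k).b0 u - (D k).P.e (lam k) (r k u) - (D k).T = ((D k).b0 u - (D k).T) - (D k).P.e (lam k) (r k u) := by ring
      rw [e2]
      calc _ ≤ |(D k).b0 u - (D k).T| + |(D k).P.e (lam k) (r k u)| := abs_sub _ _
        _ = _ := by rw [abs_of_nonneg he0]
    linarith
  · have e1 : (D k).Ph (lam k) (r k) u = (D k).h0 u + (D k).P.e (lam k) (r k u) * r k u := by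
      unfold P6D.Ph; rw [if_pos hu0u.le]
    rw [e1]
    have : |(D k).h0 u + (D k).P.e (lam k) (r k u) * r k u| ≤ |(D k).h0 u| + (D k).P.e (lam k) (r k u) * r k u := by
      calc _ ≤ |(D k).h0 u| + |(D k).P.e (lam k) (r k u) * r k u| := abs_add_le _ _
        _ = _ := by rw [abs_of_nonneg (mul_nonneg he0 hr0)]
    linarith

/-- **PE Lemma 6.2 for a class-free parent**: the child data satisfy all the sequence hypotheses, with the same constants and the same temperatures.      TEX[PE:reg:child-data] -/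
theorem p6fr_seq (hk : P6K c cl Ch C0 c0 β) (hκ : κ0 ≤ c.K) (h : P6Fr U c D lam x r cl Ch C0 β κ0 j0) :
    P6Seq U c (p6Child c0 D lam x r j0) := by
  have hc := hk.ok
  refine ⟨h.seq.n_top, h.seq.m_eq, p6fr_ok hk h, h.seq.T_lim, ?_, ?_, p6fr_ep4 hk h, ?_, ?_⟩
  · filter_upwards [h.seq.T_lim.eventually_const_lt (show c0 ^ 2 + c.ρ < c.Tinf by linarith [hk.c0_T]), h.x_rng,
      p6fr_x_pos hc h] with k hT hx hx0
    show (c0 * x k) ^ 2 ≤ (D k).T - c.ρ
    have h1 : (c0 * x k) ^ 2 ≤ c0 ^ 2 := by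
      rw [mul_pow]
      have : x k ^ 2 ≤ 1 := by nlinarith [hx.2]
      nlinarith [sq_nonneg c0]
    linarith
  · refine aq_o_of_le fun ε hε => ?_
    filter_upwards [aq_o_bound h.seq.u0_small ((p6_seq_a_pos hc h.seq).mono fun k hk => hk.le) hε, h.j0_rng,
      p6fr_gain hk h] with k h1 h2 h3
    show |j0 k| ≤ _
    rw [abs_of_nonneg h2.1]
    calc j0 k ≤ (D k).P.u0 := h2.2
      _ ≤ ε * (D k).P.a := (le_abs_self _).trans h1
      _ ≤ _ := mul_le_mul_of_nonneg_left h3.2 hε.le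
  · exact h.clkP.mono fun k hk u hu => ⟨(hk u hu).1.trans hκ, (hk u hu).2.trans hκ⟩
  · filter_upwards [h.adm, h.j0_rng] with k hadm hj
    have hsub : Icc (j0 k) 1 ⊆ Icc (0:ℝ) 1 := Icc_subset_Icc_left hj.1
    exact ⟨hadm.1.1.mono hsub, hadm.2.1.mono hsub⟩

/-- the child is eventually an ordinary family -/
theorem p6fr_ord (hk : P6K c cl Ch C0 c0 β) (h : P6Fr U c D lam x r cl Ch C0 β κ0 j0) :
    ∀ᶠ k in U, (p6Child c0 D lam x r j0 k).Ord := by
  have hc := hk.ok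
  filter_upwards [p6fr_ok hk h, h.adm, h.x_rng, p6fr_x_pos hc h, h.marg] with k hok hadm hx hx0 hmg
  exact p6_child_ord hc.cE_pos hok hadm hx0 hx.2 hk.c0_pos hk.c0_β hmg

/-- every changed child path keeps the margin `β - c0²`; the clock bound grows by at most `c0²` -/
theorem p6fr_bud (hk : P6K c cl Ch C0 c0 β) (h : P6Fr U c D lam x r cl Ch C0 β κ0 j0) :
    ∀ᶠ k in U, ∀ l z, 0 ≤ l → l ≤ (p6Child c0 D lam x r j0 k).P.d ^ 2 → (p6Child c0 D lam x r j0 k).P.Fe z →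
      P6Marg ((p6Child c0 D lam x r j0 k).Pb l z) (j0 k) (β - c0 ^ 2) ∧
        P6Bd ((p6Child c0 D lam x r j0 k).Pb l z) ((p6Child c0 D lam x r j0 k).Ph l z) (κ0 + c0 ^ 2) := by
  have hc := hk.ok
  filter_upwards [p6fr_ok hk h, h.marg, h.clkP, h.x_rng, p6fr_x_pos hc h] with k hok' hmarg hclk hx hx0
  exact p6_child_marg hc.cE_pos hok' hx0 hx.2 hk.c0_pos hmarg hclk

/-- the child at its final strength: range of the strength, admissibility -/
theorem p6fr_final (hk : P6K c cl Ch C0 c0 β) (h : P6Fr U c D lam x r cl Ch C0 β κ0 j0) :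
    (∀ᶠ k in U, 0 < (p6Child c0 D lam x r j0 k).P.d ^ 2 ∧ (p6Child c0 D lam x r j0 k).P.d ^ 2 ≤ (p6Child c0 D lam x r j0 k).P.d ^ 2) ∧
    (∀ᶠ k in U, (p6Child c0 D lam x r j0 k).Fam ((p6Child c0 D lam x r j0 k).P.d ^ 2)) := by
  constructor
  · filter_upwards [p6fr_ok hk h] with k hok
    exact ⟨by have := hok.d0; positivity, le_rfl⟩
  · filter_upwards [p6fr_ord hk h] with k ho
    exact ho.2 _ (sq_nonneg _) le_rfl

/-- **the child is successful** (PE Prop. 6.6 applied to the child, an ordinary PE family): all strengths, all minimisers -/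
theorem p6fr_error (hI : P6Imports fn c cκ Cκ cT CT) (hk : P6K c cl Ch C0 c0 β) (hβ : c0 ^ 2 < β) (hK : κ0 + c0 ^ 2 + 1 ≤ c.K)
    (h : P6Fr U c D lam x r cl Ch C0 β κ0 j0) :
    ∀ᶠ k in U, ∀ l s, 0 ≤ l → l ≤ (p6Child c0 D lam x r j0 k).P.d ^ 2 → (p6Child c0 D lam x r j0 k).IsMin fn l s →
      0 ≤ (p6Child c0 D lam x r j0 k).err fn l s ∧
        (p6Child c0 D lam x r j0 k).err fn l s ≤ (p6Child c0 D lam x r j0 k).P.N ^ (20 * (p6Child c0 D lam x r j0 k).P.dl) * (p6Child c0 D lam x r j0 k).P.E := by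
  have hκ : κ0 ≤ c.K := by nlinarith [sq_nonneg c0]
  refine p6_error (β0 := β - c0 ^ 2) (κ0 := κ0 + c0 ^ 2) (j0 := j0) hI hk.ok (by linarith) hK (p6fr_seq hk hκ h) (p6fr_ord hk h)
    (h.j0_rng.mono fun k hj => ⟨hj.1, le_rfl⟩) ?_
  filter_upwards [p6fr_bud hk h] with k hb l s hl0 hl1 hs
  exact hb l s hl0.le hl1 hs

/-- existence of a final minimiser of the child, and success of EVERY final minimiser -/
theorem p6fr_succ (hI : P6Imports fn c cκ Cκ cT CT) (hk : P6K c cl Ch C0 c0 β) (hβ : c0 ^ 2 < β) (hK : κ0 + c0 ^ 2 + 1 ≤ c.K)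
    (h : P6Fr U c D lam x r cl Ch C0 β κ0 j0) :
    (∃ z : ℕ → ℝ → ℝ, P6Succ fn U (p6Child c0 D lam x r j0) z) ∧
      ∀ z : ℕ → ℝ → ℝ, (∀ᶠ k in U, (p6Child c0 D lam x r j0 k).IsMin fn ((p6Child c0 D lam x r j0 k).P.d ^ 2) (z k)) →
        P6Succ fn U (p6Child c0 D lam x r j0) z := by
  have hκ : κ0 ≤ c.K := by nlinarith [sq_nonneg c0]
  have herr := p6fr_error hI hk hβ hK h
  have hall : ∀ z : ℕ → ℝ → ℝ, (∀ᶠ k in U, (p6Child c0 D lam x r j0 k).IsMin fn ((p6Child c0 D lam x r j0 k).P.d ^ 2) (z k)) →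
      P6Succ fn U (p6Child c0 D lam x r j0) z := fun z hz =>
    ⟨hz, by filter_upwards [herr, hz] with k he hz using (he _ _ (sq_nonneg _) le_rfl hz).2⟩
  refine ⟨?_, hall⟩
  have hexm : ∀ᶠ k in U, ∃ z, (p6Child c0 D lam x r j0 k).IsMin fn ((p6Child c0 D lam x r j0 k).P.d ^ 2) z := by
    filter_upwards [hI.exMin U _ (p6fr_seq hk hκ h), p6fr_ord hk h] with k hk ho
    exact hk _ (sq_nonneg _) le_rfl (ho.2 _ (sq_nonneg _) le_rfl)
  obtain ⟨z, hz⟩ := hexm.choice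
  exact ⟨z, hall z hz⟩

/-- `n^{20δ} E' ≤ n^{-80δ} e(x) x³`: the budget against which the movement inequality is tested -/
theorem p6fr_err_le (h : P6Fr U c D lam x r cl Ch C0 β κ0 j0) :
    ∀ᶠ k in U, (p6Child c0 D lam x r j0 k).P.N ^ (20 * (p6Child c0 D lam x r j0 k).P.dl) * (p6Child c0 D lam x r j0 k).P.E
      ≤ (D k).P.N ^ (-(80 * (D k).P.dl)) * ((D k).P.e (lam k) (x k) * x k ^ 3) := by
  filter_upwards [h.seq.ok] with k hok
  exact p6_child_err (cm_N_pos hok)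

/-! ## 3. PE Lemma 6.5: agreement, regularity of the child, transfer -/

/-- the standing hypotheses of the model-free half of Lemma 6.5 -/
theorem p6fr_ag (hk : P6K c cl Ch C0 c0 β) (h : P6Fr U c D lam x r cl Ch C0 β κ0 j0) {z : ℕ → ℝ → ℝ}
    (hz : ∀ᶠ k in U, (p6Child c0 D lam x r j0 k).P.Fe (z k)) (hns : P6NoSep U r z x) :
    P6Ag U r z x (fun k => (D k).P.u0) where
  x_rng := by filter_upwards [p6fr_x_pos hk.ok h, h.x_rng] with k h1 h2 using ⟨h1, h2.2⟩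
  w_small := fun ε hε => by
    filter_upwards [aq_o_bound (p6fr_u0 hk.ok h) ((p6fr_x_pos hk.ok h).mono fun k hk => hk.le) hε] with k hk
    exact (le_abs_self _).trans hk
  r_mono := h.mono
  z_mono := by
    filter_upwards [p6fr_ok hk h, hz, h.j0_rng] with k hok hz hj
    exact (p6_fe_rng hk.ok.cE_pos hok hz).1.mono (Icc_subset_Icc_left hj.2)
  r_rng := h.rng
  z_rng := by
    filter_upwards [p6fr_ok hk h, hz, h.j0_rng] with k hok hz hj u hu
    exact (p6_fe_rng hk.ok.cE_pos hok hz).2 u ⟨hj.2.trans hu.1, hu.2⟩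
  nosep := hns

/-- the child is regular above `x`, constants `(cl/4, 4 Ch, 2 C0)` -/
theorem p6fr_child_reg (hk : P6K c cl Ch C0 c0 β) (h : P6Fr U c D lam x r cl Ch C0 β κ0 j0) {z : ℕ → ℝ → ℝ}
    (hz : ∀ᶠ k in U, (p6Child c0 D lam x r j0 k).P.Fe (z k)) (hns : P6NoSep U r z x) :
    ∀ᶠ k in U, P6Reg (j0 k) (z k) (cl / 4) (4 * Ch) (2 * C0) (x k) :=
  (p6_ag_reg (p6fr_ag hk h hz hns) hk.cl_pos hk.Ch_ge hk.C0_ge h.outer).mono fun k hk => hk (j0 k)

/-- numerical direct-test conditions of the child at `x` -/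
theorem p6fr_direct_num (hk : P6K c cl Ch C0 c0 β) (h : P6Fr U c D lam x r cl Ch C0 β κ0 j0) :
    (fun k => (p6Child c0 D lam x r j0 k).P.a) =O[U] x ∧
    (fun k => (p6Child c0 D lam x r j0 k).P.N * (p6Child c0 D lam x r j0 k).P.E ^ 2) =O[U]
      (fun k => (p6Child c0 D lam x r j0 k).P.e ((p6Child c0 D lam x r j0 k).P.d ^ 2) (x k) * x k ^ 2) ∧
    (fun k => x k ^ 2) =O[U] (fun k => (p6Child c0 D lam x r j0 k).P.e ((p6Child c0 D lam x r j0 k).P.d ^ 2) (x k)) := by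
  have hc := hk.ok
  have hc0 := hk.c0_pos
  have hf : 0 < cmF (1 / c0) := cm_f_pos _
  have hDx : ∀ᶠ k in U, (p6Child c0 D lam x r j0 k).P.e ((p6Child c0 D lam x r j0 k).P.d ^ 2) (x k)
      = c0 ^ 2 * cmF (1 / c0) * x k ^ 2 := by
    filter_upwards [p6fr_x_pos hc h] with k hx
    exact p6_child_D_x hx hc0
  refine ⟨?_, ?_, ?_⟩
  · refine aq_O_of_le c0 ?_
    filter_upwards [p6fr_ok hk h] with k hok
    rw [abs_of_pos (cm_a_pos hc.cE_pos hok)]
    exact cm_a_le_d hc.cE_pos hok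
  · refine aq_O_of_le (c0 ^ 2 / cmF (1 / c0)) ?_
    filter_upwards [p6fr_ok hk h, hDx, p6fr_x_pos hc h] with k hok hDx hx
    rw [hDx]
    have hN := cm_N_pos hok
    have hE := cm_E_pos hc.cE_pos hok
    rw [abs_of_pos (by positivity)]
    have hE2 : (p6Child c0 D lam x r j0 k).P.E ≤ (p6Child c0 D lam x r j0 k).P.N ^ (-(1 / 2 : ℝ)) * (c0 * x k) ^ 2 := hok.E2
    set N := (p6Child c0 D lam x r j0 k).P.N with hNdef
    have hq : 0 < N ^ (-(1 / 2 : ℝ)) := Real.rpow_pos_of_pos hN _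
    have hqq : N * (N ^ (-(1 / 2 : ℝ))) ^ 2 = 1 := by
      rw [← Real.rpow_natCast, ← Real.rpow_mul hN.le]
      have : (-(1 / 2 : ℝ)) * ((2 : ℕ) : ℝ) = -1 := by norm_num
      rw [this, Real.rpow_neg_one]
      field_simp
    calc N * (p6Child c0 D lam x r j0 k).P.E ^ 2 ≤ N * (N ^ (-(1 / 2 : ℝ)) * (c0 * x k) ^ 2) ^ 2 :=
          mul_le_mul_of_nonneg_left (pow_le_pow_left₀ hE.le hE2 2) hN.le
      _ = (N * (N ^ (-(1 / 2 : ℝ))) ^ 2) * (c0 * x k) ^ 4 := by ring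
      _ = (c0 * x k) ^ 4 := by rw [hqq, one_mul]
      _ = c0 ^ 2 / cmF (1 / c0) * (c0 ^ 2 * cmF (1 / c0) * x k ^ 2 * x k ^ 2) := by field_simp
  · refine aq_O_of_le (1 / (c0 ^ 2 * cmF (1 / c0))) ?_
    filter_upwards [hDx] with k hDx
    rw [hDx, abs_of_nonneg (sq_nonneg _)]
    apply le_of_eq
    field_simp

/-- **small scales**: the child satisfies (28) at `x`, and its limit transfers to the class-free parent (with the SAME slope `κ`) -/
theorem p6fr_small (hI : P6Imports fn c cκ Cκ cT CT) (hk : P6K c cl Ch C0 c0 β) (hκ : κ0 ≤ c.K)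
    (h : P6Fr U c D lam x r cl Ch C0 β κ0 j0) {z : ℕ → ℝ → ℝ}
    (hz : ∀ᶠ k in U, (p6Child c0 D lam x r j0 k).IsMin fn ((p6Child c0 D lam x r j0 k).P.d ^ 2) (z k))
    (hns : P6NoSep U r z x) (hx : Tendsto x U (𝓝 0)) :
    ∃ κ, cκ ≤ κ ∧ κ ≤ Cκ ∧ (∀ v : ℝ, 0 < v → Tendsto (fun k => z k (x k * v) / x k) U (𝓝 (v / κ))) ∧
      ∀ v : ℝ, 0 < v → Tendsto (fun k => r k (x k * v) / x k) U (𝓝 (v / κ)) := by
  have hc := hk.ok
  have hCh : 0 < Ch := by linarith [hk.Ch_ge]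
  have hC0 : 0 < C0 := by linarith [hk.C0_ge]
  have hcl := hk.cl_pos
  have hfe : ∀ᶠ k in U, (p6Child c0 D lam x r j0 k).P.Fe (z k) := hz.mono fun k hk => hk.1
  obtain ⟨n1, n2, n3⟩ := p6fr_direct_num hk h
  obtain ⟨hlam', hfam⟩ := p6fr_final hk h
  obtain ⟨κ, hκ1, hκ2, hlim⟩ := hI.direct U (p6Child c0 D lam x r j0) (fun k => (p6Child c0 D lam x r j0 k).P.d ^ 2) x z
    (cl / 4) (4 * Ch) (2 * C0) (by positivity) (by positivity) (by positivity) (p6fr_seq hk hκ h) hlam' hfam hz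
    (p6fr_x_pos hc h) hx n1 n2 n3 (p6fr_child_reg hk h hfe hns)
  have hκ0 : 0 < κ := lt_of_lt_of_le hI.κ_rng.1 hκ1
  exact ⟨κ, hκ1, hκ2, hlim, p6_ag_transfer (p6fr_ag hk h hfe hns) hx hCh hC0 h.outer hκ0 hlim⟩

/-- **macroscopic scales**: pointwise limits of the child and of the class-free parent, with the two-sided bound -/
theorem p6fr_macro (hI : P6Imports fn c cκ Cκ cT CT) (hk : P6K c cl Ch C0 c0 β) (hκ : κ0 ≤ c.K)
    (h : P6Fr U c D lam x r cl Ch C0 β κ0 j0) {z : ℕ → ℝ → ℝ}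
    (hz : ∀ᶠ k in U, (p6Child c0 D lam x r j0 k).IsMin fn ((p6Child c0 D lam x r j0 k).P.d ^ 2) (z k))
    (hns : P6NoSep U r z x) {c1 : ℝ} (hc1 : 0 < c1) (hx : ∀ᶠ k in U, c1 ≤ x k) :
    ∃ q' : ℝ → ℝ, (∀ v, 0 < v → v < 1 → cT * v ≤ q' v ∧ q' v ≤ CT * v) ∧
      ∀ v : ℝ, 0 < v → v < 1 → Tendsto (fun k => r k v) U (𝓝 (q' v)) := by
  have hc := hk.ok
  have hc0 := hk.c0_pos
  have hf : 0 < cmF (1 / c0) := cm_f_pos _
  have hfe : ∀ᶠ k in U, (p6Child c0 D lam x r j0 k).P.Fe (z k) := hz.mono fun k hk => hk.1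
  obtain ⟨hlam', hfam⟩ := p6fr_final hk h
  obtain ⟨q, hq, hlim⟩ := hI.macr U (p6Child c0 D lam x r j0) (fun k => (p6Child c0 D lam x r j0 k).P.d ^ 2) x z
    (min c1 (c0 ^ 2 * cmF (1 / c0))) (lt_min hc1 (by positivity)) (p6fr_seq hk hκ h) hlam' hfam hz
    (by filter_upwards [hx, h.x_rng] with k hx b; exact ⟨(min_le_left _ _).trans hx, b.2⟩)
    (by
      filter_upwards [p6fr_x_pos hc h] with k b
      rw [show (p6Child c0 D lam x r j0 k).P.e ((p6Child c0 D lam x r j0 k).P.d ^ 2) (x k) = c0 ^ 2 * cmF (1 / c0) * x k ^ 2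
        from p6_child_D_x b hc0]
      exact mul_le_mul_of_nonneg_right (min_le_right _ _) (sq_nonneg _))
  exact p6_ag_macro (p6fr_ag hk h hfe hns) hI.T_rng.1 hq hlim

/-- the omitted mass tends to zero -/
theorem p6fr_u0_zero (hc : c.Ok) (seq : P6Seq U c D) : Tendsto (fun k => (D k).P.u0) U (𝓝 0) := p6ch_u0_zero hc seq

/-- **PE Lemma 6.5 for a class-free parent**: if no successful final minimiser of the child can be separated from `r`, the loose profile does not fail at `x`.      TEX[PE:reg:successful-child] -/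
theorem p6fr_not_off (hI : P6Imports fn c cκ Cκ cT CT) (hk : P6K c (p6Lo Cκ cT) (p6Hi cκ CT) C0 c0 β) (hβ : c0 ^ 2 < β)
    (hK : κ0 + c0 ^ 2 + 1 ≤ c.K) (h : P6Fr U c D lam x r (p6Lo Cκ cT) (p6Hi cκ CT) C0 β κ0 j0)
    (hns : ∀ z : ℕ → ℝ → ℝ, P6Succ fn U (p6Child c0 D lam x r j0) z → P6NoSep U r z x) :
    ∀ᶠ k in U, ¬ P6Off (r k) (p6Lo Cκ cT) (p6Hi cκ CT) (x k) := by
  have hc := hk.ok
  have hκ : κ0 ≤ c.K := by nlinarith [sq_nonneg c0]
  have hcκ := hI.κ_rng.1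
  have hCκ : 0 < Cκ := hcκ.trans_le hI.κ_rng.2
  have hcT := hI.T_rng.1
  obtain ⟨z, hz⟩ := (p6fr_succ hI hk hβ hK h).1
  have hxpos := p6fr_x_pos hc h
  rcases aq_ultra_zero_or_pos U x with hx0 | ⟨c1, hc1, hxc⟩
  · obtain ⟨κ, hκ1, hκ2, -, hlim⟩ := p6fr_small hI hk hκ h hz.min (hns z hz) hx0
    have hκ0 : 0 < κ := hcκ.trans_le hκ1
    have h1 := hlim 1 one_pos
    have hlo' : p6Lo Cκ cT < 1 / κ := by
      have a1 : 1 / (2 * Cκ) < 1 / Cκ := by
        apply one_div_lt_one_div_of_lt hCκ; linarith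
      have a2 : 1 / Cκ ≤ 1 / κ := one_div_le_one_div_of_le hκ0 hκ2
      linarith [p6ch_lo_le_κ Cκ cT]
    have hhi' : 1 / κ < p6Hi cκ CT := by
      have a1 : 1 / cκ < 2 / cκ := by
        apply div_lt_div_of_pos_right (by norm_num) hcκ
      have a2 : 1 / κ ≤ 1 / cκ := one_div_le_one_div_of_le hcκ hκ1
      linarith [p6ch_hi_ge_κ cκ CT]
    filter_upwards [h1.eventually (lt_mem_nhds hlo'), h1.eventually (gt_mem_nhds hhi'), hxpos] with k k1 k2 k3
    rw [mul_one] at k1 k2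
    rw [lt_div_iff₀ k3] at k1
    rw [div_lt_iff₀ k3] at k2
    intro hoff
    exact hoff ⟨k1.le, k2.le⟩
  · have hxc' : ∀ᶠ k in U, c1 ≤ x k ∧ x k ≤ 1 := by
      filter_upwards [hxc, hxpos, h.x_rng] with k k1 k2 k3
      rw [abs_of_pos k2] at k1
      exact ⟨k1, k3.2⟩
    obtain ⟨q, hq, hlim⟩ := p6fr_macro hI hk hκ h hz.min (hns z hz) hc1 (hxc'.mono fun k hk => hk.1)
    obtain ⟨X, hX, hxX⟩ := aq_ultra_lim_Icc U (f := x) (a := c1) (b := 1) (hxc'.mono fun k hk => hk)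
    have hX0 : 0 < X := hc1.trans_le hX.1
    have hu0 := p6ch_u0_zero hc h.seq
    have hmono : ∀ᶠ k in U, MonotoneOn (r k) (Icc (D k).P.u0 1) ∧ ∀ u ∈ Icc (D k).P.u0 1, r k u ≤ 1 := by
      filter_upwards [h.mono, h.rng] with k h1 h2
      exact ⟨h1, fun u hu => (h2 u hu).2⟩
    have hlow : ∀ᶠ k in U, p6Lo Cκ cT * x k ≤ r k (x k) := by
      have hv : 0 < X / 2 ∧ X / 2 < 1 := ⟨by linarith, by linarith [hX.2]⟩
      have l1 := hlim (X / 2) hv.1 hv.2
      have l2 := (hq (X / 2) hv.1 hv.2).1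
      have l3 : Tendsto (fun k => p6Lo Cκ cT * x k) U (𝓝 (p6Lo Cκ cT * X)) := hxX.const_mul _
      have l4 : p6Lo Cκ cT * X < q (X / 2) := by
        have : p6Lo Cκ cT * X ≤ cT / 3 * X := mul_le_mul_of_nonneg_right (p6ch_lo_le_T Cκ cT) hX0.le
        nlinarith
      filter_upwards [l3.eventually_lt l1 l4, hmono, hu0.eventually (gt_mem_nhds hv.1), hxX.eventually (lt_mem_nhds (show X / 2 < X by linarith)), hxc']
        with k k1 k2 k3 k4 k5
      exact k1.le.trans (k2.1 ⟨k3.le, hv.2.le⟩ ⟨k3.le.trans k4.le, k5.2⟩ k4.le)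
    have hupp : ∀ᶠ k in U, r k (x k) ≤ p6Hi cκ CT * x k := by
      rcases lt_or_ge X (1 / 2) with hX2 | hX2
      · have hv : 0 < 2 * X ∧ 2 * X < 1 := ⟨by linarith, by linarith⟩
        have l1 := hlim (2 * X) hv.1 hv.2
        have l2 := (hq (2 * X) hv.1 hv.2).2
        have l3 : Tendsto (fun k => p6Hi cκ CT * x k) U (𝓝 (p6Hi cκ CT * X)) := hxX.const_mul _
        have hCT : 0 < CT := hcT.trans_le hI.T_rng.2
        have l4 : q (2 * X) < p6Hi cκ CT * X := by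
          have : 3 * CT * X ≤ p6Hi cκ CT * X := mul_le_mul_of_nonneg_right (p6ch_hi_ge_T cκ CT) hX0.le
          nlinarith
        filter_upwards [l1.eventually_lt l3 l4, hmono, hu0.eventually (gt_mem_nhds hc1), hxX.eventually (gt_mem_nhds (show X < 2 * X by linarith)), hxc']
          with k k1 k2 k3 k4 k5
        exact (k2.1 ⟨k3.le.trans k5.1, k5.2⟩ ⟨(k3.le.trans k5.1).trans k4.le, hv.2.le⟩ k4.le).trans k1.le
      · filter_upwards [hmono, hu0.eventually (gt_mem_nhds hc1), hxX.eventually (lt_mem_nhds (show 1 / 3 < X by linarith)), hxc'] with k k2 k3 k4 k5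
        have a1 := k2.2 (x k) ⟨k3.le.trans k5.1, k5.2⟩
        have a2 : 3 * x k ≤ p6Hi cκ CT * x k := mul_le_mul_of_nonneg_right (p6ch_hi_ge cκ CT) (by linarith)
        linarith
    filter_upwards [hlow, hupp] with k k1 k2 hoff
    exact hoff ⟨k1, k2⟩

/-! ## 4. LL sec. 7, STEP 3 of (C7), l.1118-1132: **K2 = `BcpK2`** of the contract `Bud/Cp.lean` (helper286): a PE direct test with `d → 0` converges to the Parisi quantile on `(0,1)`      (prefix `bcpk_`)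
TEX[LL:bud:modified-closure]#1118-1132
LL l.1118-1132: "compare the child with a further PE minimiser of fixed positive strength".   The further minimiser = the PE child of `(D, d², z)` at the test scale `x = 1` (`d'' = c0`):
* `bcpk_nosep`      PE Lemma 6.5 (i) in the shape `P6NoSep` of `Pe6/Agree.lean`, for a PE parent (`p6_nosep_up`, `p6_nosep_dn` of `Pe6/NoSep.lean`).
* `bcpk_wk`         `(D, d², z)` is a weak PE parent at `x = 1`: `𝒟(1) ≤ d² → 0`; the outer region above `2·1` is void.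
* `bcpk_macro_q`    a weak PE parent at a macroscopic scale converges to `qT` (child: `BcpMacQ`-shaped import; transfer: `bcp_macro_cont`).
* **`bcpk_K2`**     `BcpPE → BcpMacQ → BcpQT → BcpK2`.
(This section was the file `Bud/CpK.lean`; merged here because of the file cap.) -/

section pe

variable {fn : ℕ → (ℝ → ℝ) → (ℝ → ℝ) → ℝ} {U : Ultrafilter ℕ} {c : P6C} {D : ℕ → P6D} {lam x : ℕ → ℝ} {r : ℕ → ℝ → ℝ}
  {cl Ch C0 c0 β κ0 cκ Cκ cT CT : ℝ} {j0 : ℕ → ℝ}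

/-- **PE Lemma 6.5 (i)** for a PE parent, in the shape used by the model-free half -/
theorem bcpk_nosep (hch : P6Chord fn) (hk : P6K c cl Ch C0 c0 β) (h : P6Wk fn U c D lam x r cl Ch C0 β j0) {z : ℕ → ℝ → ℝ}
    (hz : P6Succ fn U (p6Child c0 D lam x r j0) z) : P6NoSep U r z x := by
  intro y G hG hy
  have hxpos := p6fr_x_pos hk.ok (h.toFr hk.ok)
  have hypos : ∀ᶠ k in U, 0 < y k := by
    filter_upwards [hxpos, hy] with k h1 h2
    by_contra h3
    rw [not_lt] at h3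
    have : G * y k ≤ 0 := mul_nonpos_of_nonneg_of_nonpos hG.le h3
    linarith [h2.1]
  have hxy : x =O[U] y := by
    refine aq_O_of_le G ?_
    filter_upwards [hxpos, hy] with k h1 h2
    rw [abs_of_pos h1]
    exact h2.1
  refine ⟨fun θ1 θ2 c1 c2 h1 h2 h3 h4 h5 hsep => ?_, fun θ1 θ2 c1 c2 Cr h1 h2 h3 h4 h5 hsep => ?_⟩
  · obtain ⟨k, hk1, hk2⟩ := ((p6_nosep_up hch hk h hz h1 h2 h3 h4 hxy (hypos.and h5)).and hsep).exists
    exact hk1 hk2
  · obtain ⟨k, hk1, hk2⟩ := ((p6_nosep_dn hch hk h hz (Cr := Cr) h1 h2 h3 h4 hxy (hypos.and h5)).and hsep).exists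
    exact hk1 hk2

/-- **a weak PE parent at a macroscopic scale converges to the limit of its child**: `hM` = PE Prop. 5.9 with the explicit limit `qT` -/
theorem bcpk_macro_q (hI : P6Imports fn c cκ Cκ cT CT) (hk : P6K c cl Ch C0 c0 β) (hβ : c0 ^ 2 < β) (hK : κ0 + c0 ^ 2 + 1 ≤ c.K)
    (h : P6Wk fn U c D lam x r cl Ch C0 β j0)
    (hclk : ∀ᶠ k in U, P6Bd ((D k).Pb (lam k) (r k)) ((D k).Ph (lam k) (r k)) κ0)
    {c1 : ℝ} (hc1 : 0 < c1) (hx : ∀ᶠ k in U, c1 ≤ x k) {qT : ℝ → ℝ} (hq : ContinuousOn qT (Ioo 0 1)) (hq0 : ∀ v ∈ Ioo (0 : ℝ) 1, 0 ≤ qT v)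
    (hM : ∀ (D' : ℕ → P6D) (lam' : ℕ → ℝ) (z : ℕ → ℝ → ℝ) (c' : ℝ), 0 < c' → P6Seq U c D' →
      (∀ᶠ k in U, 0 < lam' k ∧ lam' k ≤ (D' k).P.d ^ 2) → (∀ᶠ k in U, (D' k).Fam (lam' k)) →
      (∀ᶠ k in U, (D' k).IsMin fn (lam' k) (z k)) →
      (∀ᶠ k in U, c' ≤ x k ∧ x k ≤ 1) → (∀ᶠ k in U, c' * x k ^ 2 ≤ (D' k).P.e (lam' k) (x k)) →
      ∀ v : ℝ, 0 < v → v < 1 → Tendsto (fun k => z k v) U (𝓝 (qT v))) :
    ∀ v : ℝ, 0 < v → v < 1 → Tendsto (fun k => r k v) U (𝓝 (qT v)) := by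
  have hc := hk.ok
  have hc0 := hk.c0_pos
  have hf : 0 < cmF (1 / c0) := cm_f_pos _
  have hκ : κ0 ≤ c.K := by nlinarith [sq_nonneg c0]
  have h0 := h.toFr hc
  have hfr : P6Fr U c D lam x r cl Ch C0 β κ0 j0 :=
    ⟨h0.seq, h0.lam_rng, h0.adm, h0.mono, h0.rng, h0.x_rng, h0.outer, h0.weak, h0.j0_rng, h0.marg, hclk⟩
  obtain ⟨z, hz⟩ := (p6fr_succ hI hk hβ hK hfr).1
  have hns := bcpk_nosep hI.chord hk h hz
  have hfe : ∀ᶠ k in U, (p6Child c0 D lam x r j0 k).P.Fe (z k) := hz.min.mono fun k hk => hk.1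
  obtain ⟨hlam', hfam⟩ := p6fr_final hk hfr
  have hlim := hM (p6Child c0 D lam x r j0) (fun k => (p6Child c0 D lam x r j0 k).P.d ^ 2) z
    (min c1 (c0 ^ 2 * cmF (1 / c0))) (lt_min hc1 (by positivity)) (p6fr_seq hk hκ hfr) hlam' hfam hz.min
    (by filter_upwards [hx, h.x_rng] with k hx b; exact ⟨(min_le_left _ _).trans hx, b.2⟩)
    (by
      filter_upwards [p6fr_x_pos hc hfr] with k b
      rw [show (p6Child c0 D lam x r j0 k).P.e ((p6Child c0 D lam x r j0 k).P.d ^ 2) (x k) = c0 ^ 2 * cmF (1 / c0) * x k ^ 2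
        from p6_child_D_x b hc0]
      exact mul_le_mul_of_nonneg_right (min_le_right _ _) (sq_nonneg _))
  exact bcp_macro_cont (p6fr_ag hk hfr hfe hns) hq hq0 hlim

end pe

section k2

variable {W : BdWorld} {c : P6C} {cκ Cκ cT CT c1 C1 C0 β0 κ0 : ℝ} {qT : ℝ → ℝ} {U : Ultrafilter ℕ} {D : ℕ → P6D} {x : ℕ → ℝ} {z : ℕ → ℝ → ℝ}
  {fn : ℕ → (ℝ → ℝ) → (ℝ → ℝ) → ℝ}

/-- the direct test `(D, d², z)` is a weak PE parent at the scale `1` -/
theorem bcpk_wk (hκ : κ0 ≤ c.K) (h : BcpDir fn U c D x z c1 C1 C0 β0 κ0) :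
    P6Wk fn U c D (fun k => (D k).P.d ^ 2) (fun _ => 1) z 1 1 2 β0 (fun _ => 0) ∧
      ∀ᶠ k in U, P6Bd ((D k).Pb ((D k).P.d ^ 2) (z k)) ((D k).Ph ((D k).P.d ^ 2) (z k)) κ0 := by
  have hd : ∀ᶠ k in U, 0 < (D k).P.d ^ 2 := by
    filter_upwards [h.seq.ok] with k hk
    have := hk.d0
    positivity
  have hmb : ∀ᶠ k in U, P6Marg ((D k).Pb ((D k).P.d ^ 2) (z k)) 0 β0 ∧
      P6Bd ((D k).Pb ((D k).P.d ^ 2) (z k)) ((D k).Ph ((D k).P.d ^ 2) (z k)) κ0 := by
    filter_upwards [h.marg, h.min, hd] with k h1 h2 h3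
    exact h1 _ _ h3 le_rfl h2.1
  refine ⟨{ seq := h.seq
            lam_rng := hd.mono fun k hk => ⟨hk, le_rfl⟩
            fam := h.ord.mono fun k hk => hk.2 _ (sq_nonneg _) le_rfl
            min := h.min
            x_rng := h.al1.mono fun k hk => ⟨hk, le_rfl⟩
            outer := Eventually.of_forall fun k u h1 h2 _ => by linarith
            weak := ?_
            j0_rng := by
              filter_upwards [h.u0] with k hk
              rw [hk]
              exact ⟨le_rfl, le_rfl⟩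
            marg := hmb.mono fun k hk => hk.1
            clkP := hmb.mono fun k hk u hu => ⟨(hk.2 u hu).1.trans hκ, (hk.2 u hu).2.trans hκ⟩ }, hmb.mono fun k hk => hk.2⟩
  refine aq_o_of_le fun ε hε => ?_
  have h2 : Tendsto (fun k => (D k).P.d ^ 2) U (𝓝 0) := by
    have := h.d_lim.pow 2
    simpa using this
  filter_upwards [h2.eventually (ge_mem_nhds hε), hd] with k h3 h4
  rw [abs_of_nonneg (cm_e_nonneg _ h4.le _)]
  calc (D k).P.e ((D k).P.d ^ 2) 1 ≤ (D k).P.d ^ 2 := cm_e_le _ h4.le _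
    _ ≤ ε := h3
    _ = ε * 1 ^ 2 := by ring

/-- **K2** (l.1118-1132): the contract `BcpK2` of `Bud/Cp.lean` -/
theorem bcpk_K2 (hc : c.Ok) (hP : BcpPE W c cκ Cκ cT CT) (hM : BcpMacQ W c qT) (hq : BcpQT qT) : BcpK2 W c qT := by
  intro U D x z c1 C1 C0 β0 κ0 hβ0 hκ0 h
  have hTρ : 0 < c.Tinf - c.ρ := by linarith [hc.ρ_lt]
  set c0 : ℝ := min 1 (min c.D0 (min (β0 / 2) ((c.Tinf - c.ρ) / 2))) with hc0
  have c0pos : 0 < c0 := lt_min one_pos (lt_min hc.D0_pos (lt_min (by linarith) (by linarith)))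
  have c01 : c0 ≤ 1 := min_le_left _ _
  have c0D : c0 ≤ c.D0 := (min_le_right _ _).trans (min_le_left _ _)
  have c0β : c0 ≤ β0 / 2 := (min_le_right _ _).trans ((min_le_right _ _).trans (min_le_left _ _))
  have c0T : c0 ≤ (c.Tinf - c.ρ) / 2 := (min_le_right _ _).trans ((min_le_right _ _).trans (min_le_right _ _))
  have c0sq : c0 ^ 2 ≤ c0 := by nlinarith
  have hk : P6K c 1 1 2 c0 β0 :=
    ⟨hc, one_pos, le_rfl, le_rfl, by norm_num, c0pos, by linarith, c0D, by linarith⟩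
  obtain ⟨hwk, hclk⟩ := bcpk_wk (by linarith) h
  exact bcpk_macro_q hP.imp hk (by linarith) (by linarith) hwk hclk (c1 := 1) one_pos (Eventually.of_forall fun _ => le_rfl) hq.cont
    (fun v hv => (hq.mem v ⟨hv.1.le, hv.2.le⟩).1)
    (fun D' lam' z' c' hc' hS hl hf hm hx he => hM U D' lam' (fun _ => 1) z' c' hc' hS hl hf hm hx he)

end k2

end Claimed.Agent.R286
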