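import Claimed.Agent.R286.Cmp.Fwd
import Claimed.Agent.R286.Pe6.Defs

/-! # Row 286, PE Sec. 6: file `Pe6/Basic` = the closed files Brg, Bridge, Basic, Fam merged (file cap, helper14 04:2xZ); every part keeps its own header, owners and namespace block. -/

/-!
# Row 286, PE Section 6, file Pe6/Brg : BRIDGE between the shared class `CmQ P` (Cmp/Defs, helper192) and the forward integrated class `P6Fw P` (Pe6/Defs, helper14)      (owner helper1; prefix `p6_brg_`)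

`Λ = P.Lm` (`∫_{u0}^u 1/M`),   `A = P.A0 = n^δ u_*²`,   `B = P.B0 = n^(2δ) u_*`.      (`Cmp/Fwd.lean` has its own copies `P.Lf`, `P.Ak`, `P.Bk`: equal by `rfl`.)
* `p6_brg_fe_iff`   **`P.Fe r ↔ P6Fw P r`**      (`p6_brg_of_q`, `p6_brg_mk` are the two directions).
* the constants of `p6_bar_up`, `p6_bar_dn`: `p6_brg_Lm_mono`, `p6_brg_Lm_zero`, `p6_brg_Lm_lip` (`σ0 = n^(-δ)`), `p6_brg_k0` (`A/B² = n^(-3δ)`), `p6_brg_AB` (`A/B = n^(-δ) u_*`), `p6_brg_Lm_one`, `p6_brg_A0_pos`, `p6_brg_B0_pos`.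
-/

set_option autoImplicit false

namespace Claimed.Agent.R286

open MeasureTheory Set

variable {P : CmCall} {cE D0 : ℝ}

theorem p6_brg_A0 : P.A0 = P.Ak := rfl
theorem p6_brg_B0 : P.B0 = P.Bk := rfl
theorem p6_brg_Lm : P.Lm = P.Lf := rfl

theorem p6_brg_A0_pos (hc : 0 < cE) (h : P.Ok cE D0) : 0 < P.A0 := cm_fw_A0_pos hc h
theorem p6_brg_B0_pos (hc : 0 < cE) (h : P.Ok cE D0) : 0 < P.B0 := cm_fw_B0_pos hc h

theorem p6_brg_psi (q1 q2 : ℝ) : p6Psi P.A0 P.B0 q2 - p6Psi P.A0 P.B0 q1 = P.dpsi q1 q2 := by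
  unfold p6Psi CmCall.dpsi
  rw [p6_brg_A0, p6_brg_B0]
  ring

theorem p6_brg_lo (hc : 0 < cE) (h : P.Ok cE D0) {r : ℝ → ℝ} :
    (∀ u1 u2 : ℝ, P.u0 ≤ u1 → u1 ≤ u2 → u2 ≤ 1 → ∫ v in u1..u2, (P.M v)⁻¹ ≤ r u2 - r u1) ↔ P6Lo P.Lm r (Icc P.u0 1) := by
  rw [p6_brg_Lm]
  constructor
  · intro H u hu v hv huv
    have a := H u v hu.1 huv hv.2
    rw [← cm_fw_Lf_sub hc h hu.1 huv] at a
    show r u - P.Lf u ≤ r v - P.Lf v
    linarith
  · intro H u1 u2 h1 h12 h2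
    have a : r u1 - P.Lf u1 ≤ r u2 - P.Lf u2 := H ⟨h1, h12.trans h2⟩ ⟨h1.trans h12, h2⟩ h12
    rw [← cm_fw_Lf_sub hc h h1 h12]
    linarith

theorem p6_brg_up {r : ℝ → ℝ} :
    (∀ u1 u2 : ℝ, P.u0 ≤ u1 → u1 ≤ u2 → u2 ≤ 1 → P.dpsi (r u1) (r u2) ≤ u2 - u1) ↔ P6Up P.A0 P.B0 r (Icc P.u0 1) := by
  constructor
  · intro H u hu v hv huv
    have a := H u v hu.1 huv hv.2
    rw [← p6_brg_psi] at a
    show u - p6Psi P.A0 P.B0 (r u) ≤ v - p6Psi P.A0 P.B0 (r v)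
    linarith
  · intro H u1 u2 h1 h12 h2
    have a : u1 - p6Psi P.A0 P.B0 (r u1) ≤ u2 - p6Psi P.A0 P.B0 (r u2) := H ⟨h1, h12.trans h2⟩ ⟨h1.trans h12, h2⟩ h12
    rw [← p6_brg_psi]
    linarith

theorem p6_brg_Lm_zero : P.Lm P.u0 = 0 := cm_fw_Lf_zero

theorem p6_brg_Lm_nonneg (hc : 0 < cE) (h : P.Ok cE D0) {u : ℝ} (h1 : P.u0 ≤ u) : 0 ≤ P.Lm u := cm_fw_Lf_nonneg hc h h1

theorem p6_brg_Lm_mono (hc : 0 < cE) (h : P.Ok cE D0) : MonotoneOn P.Lm (Icc P.u0 1) := by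
  intro u hu v _ huv
  have a := cm_fw_Lf_sub hc h hu.1 huv
  have b := cm_fw_invM_nonneg hc h (h.u00.trans hu.1) huv
  show P.Lf u ≤ P.Lf v
  linarith

/-- `Λ` is `n^(-δ)`-Lipschitz -/
theorem p6_brg_Lm_lip (hc : 0 < cE) (h : P.Ok cE D0) : ∀ u ∈ Icc P.u0 1, ∀ v ∈ Icc P.u0 1, u ≤ v → P.Lm v - P.Lm u ≤ P.N ^ (-P.dl) * (v - u) := by
  intro u hu v _ huv
  show P.Lf v - P.Lf u ≤ _
  rw [cm_fw_Lf_sub hc h hu.1 huv]
  exact cm_fw_invM_le hc h (h.u00.trans hu.1) huv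

/-- `k(0) = A/B² = n^(-3δ)` -/
theorem p6_brg_k0 (hc : 0 < cE) (h : P.Ok cE D0) : P.A0 / P.B0 ^ 2 = P.N ^ (-(3 * P.dl)) := by
  have hB := cm_fw_B0_pos hc h
  rw [p6_brg_A0, p6_brg_B0, cm_fw_k0 h]
  field_simp

/-- the total floor mass `A/B = n^(-δ) u_*` -/
theorem p6_brg_AB (hc : 0 < cE) (h : P.Ok cE D0) : P.A0 / P.B0 = P.N ^ (-P.dl) * P.us := by
  have hN := cm_N_pos h
  have hu := cm_us_pos hc h
  unfold CmCall.A0 CmCall.B0
  have e : P.N ^ P.dl = P.N ^ (-P.dl) * P.N ^ (2 * P.dl) := by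
    rw [← Real.rpow_add hN]
    congr 1
    ring
  have p : 0 < P.N ^ (2 * P.dl) := Real.rpow_pos_of_pos hN _
  rw [e]
  field_simp

/-- the total forced rise -/
theorem p6_brg_Lm_one (hc : 0 < cE) (h : P.Ok cE D0) : P.Lm 1 ≤ P.N ^ (-P.dl) * P.L * Real.log ((1 + P.us) / (P.u0 + P.us)) :=
  cm_invM_integral hc h h.u00 (h.u01.trans (by norm_num))

/-- **a feasible quantile is in the forward class** -/
theorem p6_brg_of_q (hc : 0 < cE) (h : P.Ok cE D0) (q : CmQ P) : P6Fw P q.r := by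
  have hf := cm_fw_of_q hc h q
  have hr1 : P.rmin ≤ 1 := (q.r_mem 1 ⟨h.u01.trans (by norm_num), le_rfl⟩).1.trans (q.r_mem 1 ⟨h.u01.trans (by norm_num), le_rfl⟩).2
  exact ⟨cm_q_r_min q hr1, cm_q_r_one q hr1, (p6_brg_lo hc h).1 hf.lo, p6_brg_up.1 hf.up⟩

/-- **the constructor** -/
theorem p6_brg_mk (hc : 0 < cE) (h : P.Ok cE D0) {r : ℝ → ℝ} (hr : P6Fw P r) : P.Fe r := by
  have h01 : P.u0 ≤ 1 := h.u01.trans (by norm_num)
  refine cm_fw_mk hc h ⟨fun u hu1 hu2 => ?_, (p6_brg_lo hc h).2 hr.lo, p6_brg_up.2 hr.up⟩ hr.left hr.right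
  have a : r P.u0 - P.Lm P.u0 ≤ r u - P.Lm u := hr.lo ⟨le_rfl, h01⟩ ⟨hu1, hu2⟩ hu1
  rw [p6_brg_Lm_zero, hr.left] at a
  have b := p6_brg_Lm_nonneg hc h hu1
  have c := h.r0
  linarith

/-- **the two forms of the class (5) agree** -/
theorem p6_brg_fe_iff (hc : 0 < cE) (h : P.Ok cE D0) {r : ℝ → ℝ} : P.Fe r ↔ P6Fw P r :=
  ⟨fun ⟨q, hq⟩ => hq ▸ p6_brg_of_q hc h q, p6_brg_mk hc h⟩

end Claimed.Agent.R286

/-!
# Row 286, PE Sec. 6, file Bridge : the class (5), `CmQ P`  ⇄  forward integrated form `P6Fw P r`      OWNER (prover): helper264 (0 sorry: everything is cited from helper1's Cmp/Fwd + Pe6/Brg).   architect helper14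

`P.Fe r := ∃ q : CmQ P, q.r = r`.   `P6Fw P r`: `r u0 = rmin`, `r 1 = 1`, `r - Λ` monotone on `[u0,1]` (`Λ = P.Lm`, `Λ' = 1/M`), `u - ψ(r u)` monotone (`ψ = p6Psi A0 B0`, `ψ' = k`).

PLAN.  (⇒)  `q : CmQ P`, `r = q.r`.   endpoints: `cm_q_r_min`, `cm_q_r_one`.
  `up`: for `u ≤ v` in `[u0,1]`: `q.lo (r u) (r v)` gives `∫_{r u}^{r v} k ≤ v - u`, and `∫_{a}^{b} k = ψ b - ψ a` (`p6_k_integral`, FTC with `p6Psi_hasDeriv`).
  `lo`: `G t = Λ(al t) - t` is antitone on `[rmin,1]`: `al` is continuous (`cm_q_al_cont`), and for `t < t'`:  `Λ(al t') - Λ(al t) ≤ (al t' - al t)/M(al t) ≤ (1/M(al t)) ∫_t^{t'} M(al s) ds ≤ (M(al t')/M(al t)) (t'-t)`;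
        so the right upper Dini derivative of `Λ ∘ al` is `≤ 1`: use `image_le_of_liminf_slope_right_le_deriv_boundary` (or a direct subdivision argument: split `[t,t']` in `N` parts, `∏`-free: sum of `(M(al t_{i+1})/M(al t_i)) Δ`, uniform continuity of `M ∘ al`).
(⇐)  `r` forward feasible.   `r` is strictly increasing (`Λ` strictly increasing since `1/M > 0`) and continuous on `[u0,1]` (from `up`: `ψ(r v) - ψ(r u) ≤ v - u` and `p6Psi_sub`), onto `[rmin,1]` (IVT).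
  `al := Function.invFunOn r (Icc u0 1)` (or `al t = sSup {u ∈ [u0,1] | r u ≤ t}`).   `lo` of `CmQ` = `up`.   `hi` of `CmQ`: `φ t = al t - al r1 - ∫_{r1}^t M(al s) ds` has right upper Dini derivative `≤ 0`:
        `al t' - al t ≤ M(al t') (Λ(al t') - Λ(al t)) ≤ M(al t') (t' - t)`.
You may add hypotheses-free helper lemmas; do not change the two statements `p6_fw_of_fe`, `p6_fe_of_fw`.
-/

set_option autoImplicit false

namespace Claimed.Agent.R286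

open Filter Topology Set MeasureTheory

variable {P : CmCall} {cE D0 : ℝ}

theorem p6_k_eq (P : CmCall) (r : ℝ) : P.k r = P.A0 / (r + P.B0) ^ 2 := rfl

theorem p6_A0_pos (hc : 0 < cE) (h : P.Ok cE D0) : 0 < P.A0 := p6_brg_A0_pos hc h

theorem p6_B0_pos (hc : 0 < cE) (h : P.Ok cE D0) : 0 < P.B0 := p6_brg_B0_pos hc h

theorem p6Psi_hasDeriv {A B q : ℝ} (hq : 0 < q + B) : HasDerivAt (p6Psi A B) (A / (q + B) ^ 2) q := by
  have h1 : HasDerivAt (fun x : ℝ => x + B) 1 q := (hasDerivAt_id q).add_const B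
  have h2 : HasDerivAt (fun x : ℝ => (x + B)⁻¹) (-1 / (q + B) ^ 2) q := h1.inv hq.ne'
  have h3 : HasDerivAt (fun x : ℝ => A * (1 / B - (x + B)⁻¹)) (A * (0 - -1 / (q + B) ^ 2)) q :=
    ((hasDerivAt_const q (1 / B)).sub h2).const_mul A
  have e : (p6Psi A B) = fun x : ℝ => A * (1 / B - (x + B)⁻¹) := by
    funext x; unfold p6Psi; rw [one_div (x + B)]
  rw [e]
  convert h3 using 1
  ring

/-- `∫ k = ψ(b) - ψ(a)` -/
theorem p6_k_integral (hc : 0 < cE) (h : P.Ok cE D0) {a b : ℝ} (ha : 0 ≤ a) (hab : a ≤ b) :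
    ∫ t in a..b, P.k t = p6Psi P.A0 P.B0 b - p6Psi P.A0 P.B0 a := by
  rw [p6_brg_psi]
  exact cm_fw_k_int (cm_fw_B0_pos hc h) ha hab

/-- (⇒) -/
theorem p6_fw_of_fe (hc : 0 < cE) (h : P.Ok cE D0) {r : ℝ → ℝ} (hr : P.Fe r) : P6Fw P r :=
  (p6_brg_fe_iff hc h).1 hr

/-- (⇐) -/
theorem p6_fe_of_fw (hc : 0 < cE) (h : P.Ok cE D0) {r : ℝ → ℝ} (hr : P6Fw P r) : P.Fe r :=
  (p6_brg_fe_iff hc h).2 hr

theorem p6_fe_iff (hc : 0 < cE) (h : P.Ok cE D0) {r : ℝ → ℝ} : P.Fe r ↔ P6Fw P r :=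
  ⟨p6_fw_of_fe hc h, p6_fe_of_fw hc h⟩

end Claimed.Agent.R286

/-!
# Row 286, PE Sec. 6, file Basic : elementary facts at FIXED size (forced lengths, feasible quantiles, scale bounds of `e`, integrability)      OWNER (prover): helper259.   architect helper14

Everything here is deterministic: one call `P` with `P.Ok cE D0`.   Tools: `cm_*` of Cmp/Num + Cmp/Prof (cite them even if still sorried), Pe6/Lattice.
-/

set_option autoImplicit false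

namespace Claimed.Agent.R286

open Filter Topology Set MeasureTheory

variable {P : CmCall} {cE D0 : ℝ}

/-! ## 1. the constants of the floor and the forced rise -/

/-- `A0/B0² = n^{-3δ}` -/
theorem p6_AB2 (hc : 0 < cE) (h : P.Ok cE D0) : P.A0 / P.B0 ^ 2 = P.N ^ (-(3 * P.dl)) := by
  have hN := cm_N_pos h
  have hu := cm_us_pos hc h
  have p2 : 0 < P.N ^ (2 * P.dl) := Real.rpow_pos_of_pos hN _
  have e : P.N ^ P.dl = P.N ^ (-(3 * P.dl)) * (P.N ^ (2 * P.dl)) ^ 2 := by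
    rw [sq, ← Real.rpow_add hN, ← Real.rpow_add hN]
    congr 1
    ring
  show P.N ^ P.dl * P.us ^ 2 / (P.N ^ (2 * P.dl) * P.us) ^ 2 = _
  rw [e]
  field_simp

/-- `A0/B0 = n^{-δ} u_*`  (total mass which the floor can force) -/
theorem p6_AB (hc : 0 < cE) (h : P.Ok cE D0) : P.A0 / P.B0 = P.N ^ (-P.dl) * P.us := by
  have hN := cm_N_pos h
  have hu := cm_us_pos hc h
  have p2 : 0 < P.N ^ (2 * P.dl) := Real.rpow_pos_of_pos hN _
  have e : P.N ^ P.dl = P.N ^ (-P.dl) * P.N ^ (2 * P.dl) := by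
    rw [← Real.rpow_add hN]
    congr 1
    ring
  show P.N ^ P.dl * P.us ^ 2 / (P.N ^ (2 * P.dl) * P.us) = _
  rw [e]
  field_simp

theorem p6_Lm_zero (P : CmCall) : P.Lm P.u0 = 0 := by
  exact intervalIntegral.integral_same

theorem p6_M_pos (hc : 0 < cE) (h : P.Ok cE D0) {u : ℝ} (hu : 0 ≤ u) : 0 < P.M u :=
  lt_of_lt_of_le (Real.rpow_pos_of_pos (cm_N_pos h) _) (cm_M_ge hc h hu)

theorem p6_invM_ii (hc : 0 < cE) (h : P.Ok cE D0) {a b : ℝ} (ha : 0 ≤ a) (hb : 0 ≤ b) :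
    IntervalIntegrable (fun t => (P.M t)⁻¹) volume a b := by
  apply ContinuousOn.intervalIntegrable
  refine cm_M_cont.continuousOn.inv₀ fun t ht => (p6_M_pos hc h ?_).ne'
  exact le_trans (le_min ha hb) ht.1

theorem p6_Lm_sub (hc : 0 < cE) (h : P.Ok cE D0) {u v : ℝ} (hu : 0 ≤ u) (hv : 0 ≤ v) : P.Lm v - P.Lm u = ∫ t in u..v, (P.M t)⁻¹ := by
  exact intervalIntegral.integral_interval_sub_left (p6_invM_ii hc h h.u00 hv) (p6_invM_ii hc h h.u00 hu)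

/-- `(v-u)/M(v) ≤ Λ v - Λ u ≤ (v-u)/M(u)` -/
theorem p6_Lm_bounds (hc : 0 < cE) (h : P.Ok cE D0) {u v : ℝ} (hu : 0 ≤ u) (huv : u ≤ v) :
    (v - u) / P.M v ≤ P.Lm v - P.Lm u ∧ P.Lm v - P.Lm u ≤ (v - u) / P.M u := by
  rw [p6_Lm_sub hc h hu (hu.trans huv)]
  have hii := p6_invM_ii hc h hu (hu.trans huv)
  constructor
  · have : ∫ _ in u..v, (P.M v)⁻¹ ≤ ∫ t in u..v, (P.M t)⁻¹ := by
      apply intervalIntegral.integral_mono_on huv (by simp) hii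
      intro t ht
      exact inv_anti₀ (p6_M_pos hc h (hu.trans ht.1))
        (cm_M_mono hc h (mem_Ici.2 (hu.trans ht.1)) (mem_Ici.2 (hu.trans huv)) ht.2)
    rw [intervalIntegral.integral_const, smul_eq_mul] at this
    rwa [div_eq_mul_inv]
  · have : ∫ t in u..v, (P.M t)⁻¹ ≤ ∫ _ in u..v, (P.M u)⁻¹ := by
      apply intervalIntegral.integral_mono_on huv hii (by simp)
      intro t ht
      exact inv_anti₀ (p6_M_pos hc h hu)
        (cm_M_mono hc h (mem_Ici.2 hu) (mem_Ici.2 (hu.trans ht.1)) ht.1)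
    rw [intervalIntegral.integral_const, smul_eq_mul] at this
    rwa [div_eq_mul_inv]

theorem p6_Lm_strictMono_aux (hc : 0 < cE) (h : P.Ok cE D0) : StrictMonoOn P.Lm (Icc P.u0 1) := by
  intro u hu v _ huv
  have hu0 : 0 ≤ u := h.u00.trans hu.1
  have h1 := (p6_Lm_bounds hc h hu0 huv.le).1
  have h2 : 0 < (v - u) / P.M v := div_pos (by linarith) (p6_M_pos hc h (hu0.trans huv.le))
  linarith

theorem p6_Lm_mono (hc : 0 < cE) (h : P.Ok cE D0) : MonotoneOn P.Lm (Icc P.u0 1) := by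
  exact (p6_Lm_strictMono_aux hc h).monotoneOn

theorem p6_Lm_strictMono (hc : 0 < cE) (h : P.Ok cE D0) : StrictMonoOn P.Lm (Icc P.u0 1) := by
  exact p6_Lm_strictMono_aux hc h

/-- `l = 1/M ≤ n^{-δ}` -/
theorem p6_Lm_lip (hc : 0 < cE) (h : P.Ok cE D0) : ∀ u ∈ Icc P.u0 1, ∀ v ∈ Icc P.u0 1, u ≤ v → P.Lm v - P.Lm u ≤ P.N ^ (-P.dl) * (v - u) := by
  intro u hu v _ huv
  have hu0 : 0 ≤ u := h.u00.trans hu.1
  have h1 := (p6_Lm_bounds hc h hu0 huv).2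
  have hN := Real.rpow_pos_of_pos (cm_N_pos h) P.dl
  have h2 : (v - u) / P.M u ≤ (v - u) / P.N ^ P.dl :=
    div_le_div_of_nonneg_left (by linarith) hN (cm_M_ge hc h hu0)
  rw [Real.rpow_neg (cm_N_pos h).le]
  calc _ ≤ _ := h1
    _ ≤ _ := h2
    _ = _ := by rw [div_eq_mul_inv, mul_comm]

theorem p6_Lm_nonneg (hc : 0 < cE) (h : P.Ok cE D0) {u : ℝ} (hu : u ∈ Icc P.u0 1) : 0 ≤ P.Lm u := by
  rw [← p6_Lm_zero P]
  exact p6_Lm_mono hc h ⟨le_rfl, hu.1.trans hu.2⟩ hu hu.1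

/-- total forced rise -/
theorem p6_Lm_one (hc : 0 < cE) (h : P.Ok cE D0) : P.Lm 1 ≤ P.N ^ (-P.dl) * P.L * Real.log ((1 + P.us) / (P.u0 + P.us)) := by
  exact cm_invM_integral hc h h.u00 (h.u01.trans (by norm_num))

/-! ## 2. feasible quantiles -/

theorem P6Fw.mono (hc : 0 < cE) (h : P.Ok cE D0) {r : ℝ → ℝ} (hr : P6Fw P r) : MonotoneOn r (Icc P.u0 1) := by
  exact hr.lo.mono (p6_Lm_mono hc h)

theorem P6Fw.mem (hc : 0 < cE) (h : P.Ok cE D0) {r : ℝ → ℝ} (hr : P6Fw P r) {u : ℝ} (hu : u ∈ Icc P.u0 1) : r u ∈ Icc P.rmin 1 := by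
  have h01 : P.u0 ≤ 1 := hu.1.trans hu.2
  constructor
  · rw [← hr.left]; exact hr.mono hc h ⟨le_rfl, h01⟩ hu hu.1
  · rw [← hr.right]; exact hr.mono hc h hu ⟨h01, le_rfl⟩ hu.2

theorem P6Fw.nonneg (hc : 0 < cE) (h : P.Ok cE D0) {r : ℝ → ℝ} (hr : P6Fw P r) {u : ℝ} (hu : u ∈ Icc P.u0 1) : 0 ≤ r u := by
  exact h.r0.trans (hr.mem hc h hu).1

theorem P6Fw.le_one (hc : 0 < cE) (h : P.Ok cE D0) {r : ℝ → ℝ} (hr : P6Fw P r) {u : ℝ} (hu : u ∈ Icc P.u0 1) : r u ≤ 1 := by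
  exact (hr.mem hc h hu).2

/-- a bounded measurable function of a feasible quantile is interval integrable -/
theorem P6Fw.intervalIntegrable (hc : 0 < cE) (h : P.Ok cE D0) {r : ℝ → ℝ} (hr : P6Fw P r) {g : ℝ → ℝ} (hg : ContinuousOn g (Icc 0 1))
    {a b : ℝ} (ha : P.u0 ≤ a) (hab : a ≤ b) (hb : b ≤ 1) : IntervalIntegrable (fun u => g (r u)) volume a b := by
  have hsub : Icc a b ⊆ Icc P.u0 1 := Icc_subset_Icc ha hb
  have hmem : ∀ u ∈ Icc a b, r u ∈ Icc (0:ℝ) 1 := fun u hu =>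
    ⟨hr.nonneg hc h (hsub hu), hr.le_one hc h (hsub hu)⟩
  -- globally continuous extension of `g`
  set g' : ℝ → ℝ := IccExtend (zero_le_one (α := ℝ)) ((Icc (0:ℝ) 1).domRestrict g) with hg'
  have hg'c : Continuous g' := (continuousOn_iff_continuous_domRestrict.1 hg).Icc_extend'
  have hgg' : ∀ x ∈ Icc (0:ℝ) 1, g' x = g x := by
    intro x hx
    rw [hg', IccExtend_of_mem _ _ hx]
    rfl
  obtain ⟨C, hC⟩ := isCompact_Icc.exists_bound_of_continuousOn hg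
  have mr : AEMeasurable r (volume.restrict (Icc a b)) :=
    aemeasurable_restrict_of_monotoneOn measurableSet_Icc ((hr.mono hc h).mono hsub)
  have mg : AEMeasurable (fun u => g' (r u)) (volume.restrict (Icc a b)) :=
    hg'c.measurable.comp_aemeasurable mr
  have hfin : IsFiniteMeasure (volume.restrict (Icc a b)) :=
    ⟨by rw [Measure.restrict_apply_univ, Real.volume_Icc]; exact ENNReal.ofReal_lt_top⟩
  have hI' : IntegrableOn (fun u => g' (r u)) (Icc a b) := by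
    refine Integrable.of_bound (C := C) mg.aestronglyMeasurable ?_
    rw [ae_restrict_iff' measurableSet_Icc]
    refine Filter.Eventually.of_forall fun u hu => ?_
    rw [hgg' _ (hmem u hu)]
    exact hC _ (hmem u hu)
  have hI : IntegrableOn (fun u => g (r u)) (Icc a b) :=
    hI'.congr_fun (fun u hu => hgg' _ (hmem u hu)) measurableSet_Icc
  rw [intervalIntegrable_iff_integrableOn_Icc_of_le hab]
  exact hI

/-- a.e. strong measurability of a feasible quantile on its interval -/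
theorem P6Fw.aestronglyMeasurable (hc : 0 < cE) (h : P.Ok cE D0) {r : ℝ → ℝ} (hr : P6Fw P r) :
    AEStronglyMeasurable r (volume.restrict (Icc P.u0 1)) := by
  exact (aemeasurable_restrict_of_monotoneOn measurableSet_Icc (hr.mono hc h)).aestronglyMeasurable

/-! ## 3. fixed-scale bounds of the strength profile (`e` antitone, `t e(t)` monotone) -/

/-- `e(s y) ≤ max(1, 1/s) e(y)` -/
theorem p6_e_scale_le (hd : 0 < P.d) {lam s y : ℝ} (hl : 0 ≤ lam) (hs : 0 < s) (hy : 0 ≤ y) : P.e lam (s * y) ≤ max 1 (1 / s) * P.e lam y := by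
  have hsy : 0 ≤ s * y := mul_nonneg hs.le hy
  have fy := cm_e_nonneg P hl y
  rcases le_total s 1 with h | h
  · have h1 : s * y ≤ y := by nlinarith
    have h2 : s * y * P.e lam (s * y) ≤ y * P.e lam y :=
      cm_re_mono P hd hl (mem_Ici.2 hsy) (mem_Ici.2 hy) h1
    have h3 : 1 / s ≤ max 1 (1 / s) := le_max_right _ _
    have h4 : 1 / s * P.e lam y ≤ max 1 (1 / s) * P.e lam y := mul_le_mul_of_nonneg_right h3 fy
    refine le_trans ?_ h4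
    rcases hy.eq_or_lt with h0 | h0
    · rw [← h0, mul_zero]
      have : 1 ≤ 1 / s := by rw [le_div_iff₀ hs]; linarith
      have f0 := cm_e_nonneg P hl 0
      nlinarith
    · rw [div_mul_eq_mul_div, one_mul, le_div_iff₀ hs]
      have : y * (P.e lam (s * y) * s) ≤ y * P.e lam y := by nlinarith
      exact le_of_mul_le_mul_left this h0
  · have h1 : y ≤ s * y := by nlinarith
    have h2 : P.e lam (s * y) ≤ P.e lam y := cm_e_anti P hd hl h1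
    have h3 : 1 ≤ max 1 (1 / s) := le_max_left _ _
    nlinarith

/-- `min(1, 1/s) e(y) ≤ e(s y)` -/
theorem p6_e_scale_ge (hd : 0 < P.d) {lam s y : ℝ} (hl : 0 ≤ lam) (hs : 0 < s) (hy : 0 ≤ y) : min 1 (1 / s) * P.e lam y ≤ P.e lam (s * y) := by
  have hsy : 0 ≤ s * y := mul_nonneg hs.le hy
  have fy := cm_e_nonneg P hl y
  rcases le_total s 1 with h | h
  · have h1 : s * y ≤ y := by nlinarith
    have h2 : P.e lam y ≤ P.e lam (s * y) := cm_e_anti P hd hl h1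
    have h3 : min 1 (1 / s) ≤ 1 := min_le_left _ _
    nlinarith
  · have h1 : y ≤ s * y := by nlinarith
    have h2 : y * P.e lam y ≤ s * y * P.e lam (s * y) :=
      cm_re_mono P hd hl (mem_Ici.2 hy) (mem_Ici.2 hsy) h1
    have h3 : min 1 (1 / s) ≤ 1 / s := min_le_right _ _
    have h4 : min 1 (1 / s) * P.e lam y ≤ 1 / s * P.e lam y := mul_le_mul_of_nonneg_right h3 fy
    refine le_trans h4 ?_
    rcases hy.eq_or_lt with h0 | h0
    · rw [← h0, mul_zero]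
      have : 1 / s ≤ 1 := by rw [div_le_one hs]; exact h
      have f0 := cm_e_nonneg P hl 0
      nlinarith
    · rw [div_mul_eq_mul_div, one_mul, div_le_iff₀ hs]
      have : y * P.e lam y ≤ y * (P.e lam (s * y) * s) := by nlinarith
      exact le_of_mul_le_mul_left this h0

/-- at the final strength: `e(t) = d² f(t/d)` -/
theorem p6_e_final (hd : 0 < P.d) (t : ℝ) : P.e (P.d ^ 2) t = P.d ^ 2 * cmF (t / P.d) := by
  show P.d ^ 2 * cmF (P.d ^ 2 * t / P.d ^ 3) = _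
  have : P.d ^ 2 * t / P.d ^ 3 = t / P.d := by field_simp
  rw [this]

/-- `e(y) y³ ≥ e(x) x³/G³` for `y ≥ x/G`, `G ≥ 1` -/
theorem p6_e_cube (hd : 0 < P.d) {lam G x y : ℝ} (hl : 0 ≤ lam) (hG : 1 ≤ G) (hx : 0 ≤ x) (hxy : x ≤ G * y) : P.e lam x * x ^ 3 ≤ G ^ 3 * (P.e lam y * y ^ 3) := by
  have hG0 : 0 < G := by linarith
  have hy : 0 ≤ y := by
    by_contra hcon
    have : y < 0 := not_le.1 hcon
    nlinarith
  have hGy : 0 ≤ G * y := mul_nonneg hG0.le hy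
  -- `x e(x) ≤ G y e(G y) ≤ G y e(y)`
  have h1 : x * P.e lam x ≤ G * y * P.e lam (G * y) :=
    cm_re_mono P hd hl (mem_Ici.2 hx) (mem_Ici.2 hGy) hxy
  have h2 : P.e lam (G * y) ≤ P.e lam y := cm_e_anti P hd hl (by nlinarith)
  have h3 : x * P.e lam x ≤ G * y * P.e lam y := h1.trans (mul_le_mul_of_nonneg_left h2 hGy)
  have h4 : x ^ 2 ≤ (G * y) ^ 2 := by nlinarith
  have ey := cm_e_nonneg P hl y
  calc P.e lam x * x ^ 3 = (x * P.e lam x) * x ^ 2 := by ring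
    _ ≤ (G * y * P.e lam y) * (G * y) ^ 2 :=
        mul_le_mul h3 h4 (sq_nonneg x) (by positivity)
    _ = G ^ 3 * (P.e lam y * y ^ 3) := by ring

end Claimed.Agent.R286

/-!
# Row 286, PE Def. 6.1 (covariance budget) at FIXED size: the child is an ordinary family and keeps the margins      OWNER (prover): helper94.   architect helper14

`D' = D.child lam r x c0 j0`: `D'.b0 = D.Pb lam r`, `D'.h0 = D.Ph lam r`, `D'.P.u0 = j0`, `D'.P.rmin = 0`, `D'.P.d = c0 x ≤ c0`.   For `0 ≤ l ≤ d'²` and `z` feasible for `D'.P` (monotone on `[j0,1]`, values in `[0,1]`: `p6_fw_of_fe`, `P6Fw.mono`, `P6Fw.mem`):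
 `0 ≤ e'(z u) ≤ l ≤ c0²` (`cm_e_nonneg`, `cm_e_le`), `u ↦ e'(z u)` antitone, `u ↦ e'(z u) z u` monotone and in `[0, c0²]` (`cm_e_anti`, `cm_re_mono`).
 matrix clock: inside `[j0,1]` monotone; across `j0`: the gap `β ≥ c0²` pays;  at `0`: if `j0 = 0` the lower bound `β ≥ c0²` pays.      field clock: adds a nonnegative monotone function on `[j0,1]`.

KIT (prefix `p6f_`, any instance `D`, used by `Pe6/Wall` too): `p6f_fe` (feasible = monotone, values in `[rmin,1]`), `p6f_e_anti`, `p6f_re_mono`, `p6f_e_bd`, `p6f_re_bd`,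
`p6f_Pb_clk` (changed matrix clock is a clock), `p6f_Ph_clk` (changed field clock is a clock, cross condition as a hypothesis).
-/

set_option autoImplicit false

namespace Claimed.Agent.R286

open Filter Topology Set MeasureTheory

variable {cE D0 : ℝ} {D : P6D} {lam x c0 j0 β κ : ℝ} {r : ℝ → ℝ}

/-! ## the kit -/

theorem p6f_fe (hcE : 0 < cE) {P : CmCall} (hok : P.Ok cE D0) {z : ℝ → ℝ} (hz : P.Fe z) :
    MonotoneOn z (Icc P.u0 1) ∧ ∀ u ∈ Icc P.u0 1, P.rmin ≤ z u ∧ z u ≤ 1 := by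
  obtain ⟨q, rfl⟩ := hz
  exact ⟨(cm_q_r_strictMono hcE hok q).monotoneOn, fun u hu => q.r_mem u hu⟩

theorem p6f_e_anti (hcE : 0 < cE) {P : CmCall} (hok : P.Ok cE D0) {z : ℝ → ℝ} (hz : P.Fe z) {l : ℝ} (hl : 0 ≤ l) :
    AntitoneOn (fun u => P.e l (z u)) (Icc P.u0 1) := by
  intro u hu v hv huv
  exact cm_e_anti P hok.d0 hl ((p6f_fe hcE hok hz).1 hu hv huv)

theorem p6f_re_mono (hcE : 0 < cE) {P : CmCall} (hok : P.Ok cE D0) {z : ℝ → ℝ} (hz : P.Fe z) {l : ℝ} (hl : 0 ≤ l) :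
    MonotoneOn (fun u => P.e l (z u) * z u) (Icc P.u0 1) := by
  intro u hu v hv huv
  obtain ⟨hm, hb⟩ := p6f_fe hcE hok hz
  have h1 : (0 : ℝ) ≤ z u := hok.r0.trans (hb u hu).1
  have h2 : (0 : ℝ) ≤ z v := hok.r0.trans (hb v hv).1
  have := cm_re_mono P hok.d0 hl (mem_Ici.2 h1) (mem_Ici.2 h2) (hm hu hv huv)
  simpa [mul_comm] using this

theorem p6f_e_bd {P : CmCall} {l : ℝ} (hl : 0 ≤ l) (t : ℝ) : 0 ≤ P.e l t ∧ P.e l t ≤ l :=
  ⟨cm_e_nonneg P hl t, cm_e_le P hl t⟩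

theorem p6f_re_bd (hcE : 0 < cE) {P : CmCall} (hok : P.Ok cE D0) {z : ℝ → ℝ} (hz : P.Fe z) {l : ℝ} (hl : 0 ≤ l) {u : ℝ} (hu : u ∈ Icc P.u0 1) :
    0 ≤ P.e l (z u) * z u ∧ P.e l (z u) * z u ≤ l := by
  obtain ⟨-, hb⟩ := p6f_fe hcE hok hz
  have h1 : (0 : ℝ) ≤ z u := hok.r0.trans (hb u hu).1
  have h2 := (hb u hu).2
  obtain ⟨e0, e1⟩ := p6f_e_bd (P := P) hl (z u)
  exact ⟨mul_nonneg e0 h1, by nlinarith⟩

/-- the changed matrix clock is a clock: the bare clock is monotone, the gap across `u0` (the value at `0` if `u0 = 0`) pays `l` -/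
theorem p6f_Pb_clk (hcE : 0 < cE) (hok : D.P.Ok cE D0) {z : ℝ → ℝ} (hz : D.P.Fe z) {l : ℝ} (hl : 0 ≤ l)
    (hb : MonotoneOn D.b0 (Icc 0 1)) (hb0 : 0 ≤ D.b0 0)
    (hgap : ∀ u v, 0 ≤ u → u < D.P.u0 → D.P.u0 ≤ v → v ≤ 1 → l ≤ D.b0 v - D.b0 u)
    (hlow : D.P.u0 = 0 → l ≤ D.b0 0) : GhClk1 1 (D.Pb l z) := by
  have hu0 := hok.u00
  refine ⟨?_, ?_⟩
  · intro u hu v hv huv
    unfold P6D.Pb
    by_cases h1 : D.P.u0 ≤ u
    · have h2 : D.P.u0 ≤ v := h1.trans huv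
      rw [if_pos h1, if_pos h2]
      have a1 := hb hu hv huv
      have a2 := p6f_e_anti hcE hok hz hl (⟨h1, hu.2⟩ : u ∈ Icc D.P.u0 1) (⟨h2, hv.2⟩ : v ∈ Icc D.P.u0 1) huv
      simp only at a2
      linarith
    · rw [if_neg h1]
      by_cases h2 : D.P.u0 ≤ v
      · rw [if_pos h2]
        have a1 := hgap u v hu.1 (not_le.1 h1) h2 hv.2
        have a2 := (p6f_e_bd (P := D.P) hl (z v)).2
        linarith
      · rw [if_neg h2]
        exact hb hu hv huv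
  · unfold P6D.Pb
    by_cases h1 : D.P.u0 ≤ 0
    · rw [if_pos h1]
      have a1 := hlow (le_antisymm h1 hu0)
      have a2 := (p6f_e_bd (P := D.P) hl (z 0)).2
      linarith
    · rw [if_neg h1]
      exact hb0

/-- the changed field clock is a clock; the cross condition at `u0` is a hypothesis -/
theorem p6f_Ph_clk (hcE : 0 < cE) (hok : D.P.Ok cE D0) {z : ℝ → ℝ} (hz : D.P.Fe z) {l : ℝ} (hl : 0 ≤ l)
    (hlo : MonotoneOn D.h0 (Ico 0 D.P.u0)) (hhi : MonotoneOn D.h0 (Icc D.P.u0 1)) (hh0 : 0 ≤ D.h0 0)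
    (hcross : ∀ u v, 0 ≤ u → u < D.P.u0 → D.P.u0 ≤ v → v ≤ 1 → D.h0 u ≤ D.h0 v + D.P.e l (z v) * z v) : GhClk1 1 (D.Ph l z) := by
  refine ⟨?_, ?_⟩
  · intro u hu v hv huv
    unfold P6D.Ph
    by_cases h1 : D.P.u0 ≤ u
    · have h2 : D.P.u0 ≤ v := h1.trans huv
      rw [if_pos h1, if_pos h2]
      have a1 := hhi (⟨h1, hu.2⟩ : u ∈ Icc D.P.u0 1) (⟨h2, hv.2⟩ : v ∈ Icc D.P.u0 1) huv
      have a2 := p6f_re_mono hcE hok hz hl (⟨h1, hu.2⟩ : u ∈ Icc D.P.u0 1) (⟨h2, hv.2⟩ : v ∈ Icc D.P.u0 1) huv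
      simp only at a2
      linarith
    · rw [if_neg h1]
      by_cases h2 : D.P.u0 ≤ v
      · rw [if_pos h2]
        exact hcross u v hu.1 (not_le.1 h1) h2 hv.2
      · rw [if_neg h2]
        exact hlo ⟨hu.1, not_le.1 h1⟩ ⟨hv.1, not_le.1 h2⟩ huv
  · unfold P6D.Ph
    by_cases h1 : D.P.u0 ≤ 0
    · rw [if_pos h1]
      have a2 := (p6f_re_bd hcE hok hz hl (⟨h1, zero_le_one⟩ : (0 : ℝ) ∈ Icc D.P.u0 1)).1
      linarith
    · rw [if_neg h1]
      exact hh0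

/-! ## the child -/

theorem p6f_child_d (hx0 : 0 < x) (hx1 : x ≤ 1) (hc0 : 0 < c0) : (D.child lam r x c0 j0).P.d ^ 2 ≤ c0 ^ 2 := by
  show (c0 * x) ^ 2 ≤ c0 ^ 2
  have : c0 * x ≤ c0 := by nlinarith
  exact pow_le_pow_left₀ (by positivity) this 2

/-- C3: the child is an ordinary family -/
theorem p6_child_ord (hcE : 0 < cE) (hok' : (D.child lam r x c0 j0).P.Ok cE D0) (hadm : P6Adm (D.Pb lam r) (D.Ph lam r))
    (hx0 : 0 < x) (hx1 : x ≤ 1) (hc0 : 0 < c0) (hβ : c0 ^ 2 ≤ β) (hm : P6Marg (D.Pb lam r) j0 β) :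
    (D.child lam r x c0 j0).Ord := by
  refine ⟨hadm, ?_⟩
  intro l hl0 hl1 z hz
  have hd := p6f_child_d (D := D) (lam := lam) (r := r) (j0 := j0) hx0 hx1 hc0
  have hlβ : l ≤ β := (hl1.trans hd).trans hβ
  have hj0 : (0 : ℝ) ≤ j0 := hok'.u00
  have hj1 : j0 ≤ 1 := le_trans hok'.u01 (by norm_num)
  refine ⟨?_, ?_⟩
  · refine p6f_Pb_clk hcE hok' hz hl0 hadm.1.1 hadm.1.2 ?_ ?_
    · intro u v h1 h2 h3 h4
      exact hlβ.trans (hm.2 u v h1 h2 h3 h4)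
    · intro h0
      have h0' : j0 = 0 := h0
      exact hlβ.trans (hm.1 0 (by rw [h0']) zero_le_one)
  · refine p6f_Ph_clk hcE hok' hz hl0 ?_ ?_ hadm.2.2 ?_
    · exact hadm.2.1.mono fun u hu => ⟨hu.1, hu.2.le.trans hj1⟩
    · exact hadm.2.1.mono fun u hu => ⟨hj0.trans hu.1, hu.2⟩
    · intro u v h1 h2 h3 h4
      have a1 := hadm.2.1 (⟨h1, (h2.le.trans h3).trans h4⟩ : u ∈ Icc (0 : ℝ) 1) (⟨h1.trans (h2.le.trans h3), h4⟩ : v ∈ Icc (0 : ℝ) 1) (h2.le.trans h3)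
      have a2 := (p6f_re_bd hcE hok' hz hl0 (⟨h3, h4⟩ : v ∈ Icc (D.child lam r x c0 j0).P.u0 1)).1
      have a1' : (D.child lam r x c0 j0).h0 u ≤ (D.child lam r x c0 j0).h0 v := a1
      linarith

/-- C4: every changed child path keeps the margin `β - c0²`; the clock bound grows by at most `c0²` -/
theorem p6_child_marg (hcE : 0 < cE) (hok' : (D.child lam r x c0 j0).P.Ok cE D0)
    (hx0 : 0 < x) (hx1 : x ≤ 1) (hc0 : 0 < c0) (hm : P6Marg (D.Pb lam r) j0 β) (hκ : P6Bd (D.Pb lam r) (D.Ph lam r) κ) :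
    ∀ l z, 0 ≤ l → l ≤ (D.child lam r x c0 j0).P.d ^ 2 → (D.child lam r x c0 j0).P.Fe z →
      P6Marg ((D.child lam r x c0 j0).Pb l z) j0 (β - c0 ^ 2) ∧
      P6Bd ((D.child lam r x c0 j0).Pb l z) ((D.child lam r x c0 j0).Ph l z) (κ + c0 ^ 2) := by
  intro l z hl0 hl1 hz
  have hd := p6f_child_d (D := D) (lam := lam) (r := r) (j0 := j0) hx0 hx1 hc0
  have hlc : l ≤ c0 ^ 2 := hl1.trans hd
  have hj0 : (0 : ℝ) ≤ j0 := hok'.u00
  set D' := D.child lam r x c0 j0 with hD'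
  have hu0 : D'.P.u0 = j0 := rfl
  have hb0 : D'.b0 = D.Pb lam r := rfl
  have hh0 : D'.h0 = D.Ph lam r := rfl
  refine ⟨⟨?_, ?_⟩, ?_⟩
  · intro u h1 h2
    have a1 := hm.1 u h1 h2
    have a2 := (p6f_e_bd (P := D'.P) hl0 (z u)).2
    unfold P6D.Pb
    rw [if_pos (by rw [hu0]; exact h1), hb0]
    linarith
  · intro u v h1 h2 h3 h4
    have a1 := hm.2 u v h1 h2 h3 h4
    have a2 := (p6f_e_bd (P := D'.P) hl0 (z v)).2
    unfold P6D.Pb
    rw [if_pos (by rw [hu0]; exact h3), if_neg (by rw [hu0]; exact not_le.2 h2), hb0]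
    linarith
  · intro u hu
    obtain ⟨k1, k2⟩ := hκ u hu
    rw [abs_le] at k1 k2
    unfold P6D.Pb P6D.Ph
    by_cases h1 : D'.P.u0 ≤ u
    · rw [if_pos h1, if_pos h1, hb0, hh0]
      obtain ⟨e0, e1⟩ := p6f_e_bd (P := D'.P) hl0 (z u)
      obtain ⟨f0, f1⟩ := p6f_re_bd hcE hok' hz hl0 (⟨h1, hu.2⟩ : u ∈ Icc D'.P.u0 1)
      have hc2 : 0 ≤ c0 ^ 2 := by positivity
      constructor <;> rw [abs_le] <;> constructor <;> linarith
    · rw [if_neg h1, if_neg h1, hb0, hh0]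
      have hc2 : 0 ≤ c0 ^ 2 := by positivity
      constructor <;> rw [abs_le] <;> constructor <;> linarith

end Claimed.Agent.R286

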