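import Claimed.Agent.R286.Pe6.Imports
import Claimed.Agent.R286.Pe6.Basic

/-! # Row 286, PE Sec. 6: file `Pe6/Child` = the closed files Asy, ChildFix, Child merged (file cap, helper14 04:2xZ); every part keeps its own header, owners and namespace block. -/

/-!
# Row 286, PE Sec. 6, file Asy : the elementary ASYMPTOTIC facts of the parent setting (`P6Seq`, `P6Par`, `P6Wk`)      OWNER: helper14 (architect); prover helper264 (0 sorry).

Sources: PE propagation.tex l.150-170 (first display of the proof of L6.2), l.215-225 (`e(0) = o(x²)`), l.330-345 (forced lengths).   Tools: `cm_*` (Cmp/Num), `aq_*` (SeqCalc).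
-/

set_option autoImplicit false

namespace Claimed.Agent.R286

open Filter Topology Set MeasureTheory Asymptotics

variable {fn : ℕ → (ℝ → ℝ) → (ℝ → ℝ) → ℝ} {U : Ultrafilter ℕ} {c : P6C} {D : ℕ → P6D} {lam x : ℕ → ℝ} {r : ℕ → ℝ → ℝ} {cl Ch C0 c0 β : ℝ} {j0 : ℕ → ℝ}

/-! ## 1. a sequence of instances -/

theorem p6_seq_dl (h : P6Seq U c D) : ∀ᶠ k in U, (D k).P.dl = c.dl := by
  filter_upwards [h.m_eq] with k hk
  simp [CmCall.dl, P6C.dl, hk]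

/-- any fixed negative power of `n` is eventually below any positive constant -/
theorem p6_seq_pow_small (h : P6Seq U c D) {s ε : ℝ} (hs : 0 < s) (hε : 0 < ε) : ∀ᶠ k in U, (D k).P.N ^ (-s) ≤ ε :=
  (aq_scale_rpow_neg_tendsto h.n_top hs).eventually_le_const hε

/-- the same with a logarithm -/
theorem p6_seq_pow_log_small (h : P6Seq U c D) {s ε : ℝ} (hs : 0 < s) (hε : 0 < ε) : ∀ᶠ k in U, (D k).P.N ^ (-s) * (D k).P.Lam ≤ ε := by
  have h1 := aq_scale_log_pow_o h.n_top 1 hs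
  have h2 := aq_o_bound h1 ((aq_scale_rpow_pos h.n_top s).mono fun _ h => h.le) hε
  filter_upwards [h2, aq_scale_pos h.n_top] with k hk h0
  have hp : 0 < (D k).P.N ^ s := Real.rpow_pos_of_pos h0 _
  rw [pow_one] at hk
  have h3 : (D k).P.Lam ≤ ε * (D k).P.N ^ s := (le_abs_self _).trans hk
  rw [Real.rpow_neg h0.le]
  calc ((D k).P.N ^ s)⁻¹ * (D k).P.Lam ≤ ((D k).P.N ^ s)⁻¹ * (ε * (D k).P.N ^ s) :=
        mul_le_mul_of_nonneg_left h3 (inv_nonneg.2 hp.le)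
    _ = ε := by field_simp

theorem p6_seq_a_pos (hc : c.Ok) (h : P6Seq U c D) : ∀ᶠ k in U, 0 < (D k).P.a := by
  filter_upwards [h.ok] with k hk
  exact cm_a_pos hc.cE_pos hk

/-- **forced lengths** (PE l.330-345): `r_min + ∫ l + ∫ k = o(a)` -/
theorem p6_seq_forced (hc : c.Ok) (h : P6Seq U c D) :
    (fun k => (D k).P.rmin + (D k).P.Lm 1 + (D k).P.N ^ (-(D k).P.dl) * (D k).P.us) =o[U] (fun k => (D k).P.a) := by
  obtain ⟨C, hC, hlog⟩ := cm_log_us (cE := c.cE) (D0 := c.D0) hc.cE_pos hc.D0_pos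
  refine aq_o_of_le fun ε hε => ?_
  have hm3 : 0 < 3 * c.m := by have := hc.m_pos; positivity
  have hK : 0 < c.cE⁻¹ ^ 3 := by have := hc.cE_pos; positivity
  have e1 := p6_seq_pow_small h hm3 (show 0 < ε / (3 * c.cE⁻¹ ^ 3) by positivity)
  have e2 := p6_seq_pow_log_small h hm3 (show 0 < ε / (3 * c.cE⁻¹ ^ 3 * C) by positivity)
  filter_upwards [h.ok, h.m_eq, e1, e2] with k hk hm e1 e2
  have hcE := hc.cE_pos
  have hN := cm_N_pos hk
  have hN1 : 1 ≤ (D k).P.N := by linarith [cm_N_ge hk]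
  have ha := cm_a_pos hcE hk
  have hus := cm_us_pos hcE hk
  have hL := cm_L_pos hcE hk
  have hLus : (D k).P.L ≤ (D k).P.us := cm_L_le_us
  have hq : (D k).P.N ^ (-(D k).P.dl) ≤ 1 :=
    Real.rpow_le_one_of_one_le_of_nonpos hN1 (by linarith [cm_dl_pos hk])
  have hq0 : 0 < (D k).P.N ^ (-(D k).P.dl) := Real.rpow_pos_of_pos hN _
  have husa := cm_us_a hcE hk
  rw [hm] at husa
  have hLam := cm_Lam_ge_one hk
  have h1 : (D k).P.rmin ≤ (D k).P.us := by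
    refine (cm_rmin_le hcE hk).trans ?_
    calc (D k).P.N ^ (-(D k).P.dl) * (D k).P.L ≤ 1 * (D k).P.us := mul_le_mul hq hLus hL.le zero_le_one
      _ = _ := one_mul _
  have h3 : (D k).P.N ^ (-(D k).P.dl) * (D k).P.us ≤ (D k).P.us := by
    calc (D k).P.N ^ (-(D k).P.dl) * (D k).P.us ≤ 1 * (D k).P.us := mul_le_mul_of_nonneg_right hq hus.le
      _ = _ := one_mul _
  have hlg := hlog (D k).P hk (D k).P.u0 1 hk.u00 (hk.u01.trans (by norm_num)) le_rfl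
  have hlg0 : 0 ≤ Real.log ((1 + (D k).P.us) / ((D k).P.u0 + (D k).P.us)) := by
    apply Real.log_nonneg
    rw [le_div_iff₀ (by linarith [hk.u00])]
    linarith [hk.u01]
  have h2 : (D k).P.Lm 1 ≤ (D k).P.us * (C * (D k).P.Lam) := by
    refine (p6_Lm_one hcE hk).trans ?_
    calc (D k).P.N ^ (-(D k).P.dl) * (D k).P.L * Real.log ((1 + (D k).P.us) / ((D k).P.u0 + (D k).P.us))
        ≤ (1 * (D k).P.us) * (C * (D k).P.Lam) :=
          mul_le_mul (mul_le_mul hq hLus hL.le zero_le_one) hlg hlg0 (by positivity)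
      _ = _ := by ring
  have h20 : 0 ≤ (D k).P.Lm 1 := p6_Lm_nonneg hcE hk ⟨hk.u01.trans (by norm_num), le_rfl⟩
  rw [abs_of_nonneg (by have := hk.r0; positivity)]
  -- us ≤ K N^(-3m) a
  set K := c.cE⁻¹ ^ 3 with hKdef
  set w := (D k).P.N ^ (-(3 * c.m)) with hw
  have hw0 : 0 < w := Real.rpow_pos_of_pos hN _
  have b1 : (D k).P.us ≤ ε / 3 * (D k).P.a := by
    refine husa.trans ?_
    have : K * w ≤ ε / 3 := by
      calc K * w ≤ K * (ε / (3 * K)) := mul_le_mul_of_nonneg_left e1 hK.le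
        _ = ε / 3 := by field_simp
    exact mul_le_mul_of_nonneg_right this ha.le
  have b2 : (D k).P.us * (C * (D k).P.Lam) ≤ ε / 3 * (D k).P.a := by
    have : K * w * (C * (D k).P.Lam) ≤ ε / 3 := by
      calc K * w * (C * (D k).P.Lam) = K * C * (w * (D k).P.Lam) := by ring
        _ ≤ K * C * (ε / (3 * K * C)) := mul_le_mul_of_nonneg_left e2 (by positivity)
        _ = ε / 3 := by field_simp
    calc (D k).P.us * (C * (D k).P.Lam) ≤ (K * w * (D k).P.a) * (C * (D k).P.Lam) :=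
          mul_le_mul_of_nonneg_right husa (by positivity)
      _ = (K * w * (C * (D k).P.Lam)) * (D k).P.a := by ring
      _ ≤ ε / 3 * (D k).P.a := mul_le_mul_of_nonneg_right this ha.le
  linarith

/-- `E ≥ cE² n^{-5/6+2m}` -/
theorem p6_E_ge {P : CmCall} {cE D0 : ℝ} (hc : 0 < cE) (h : P.Ok cE D0) : cE ^ 2 * P.N ^ (-(5 / 6 : ℝ) + 2 * P.m) ≤ P.E := by
  have hN := cm_N_pos h
  have h1 : cE * P.N ^ (-(1 / 6 : ℝ) + P.m) ≤ P.d := (cm_a_ge hc h).trans (cm_a_le_d hc h)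
  have hp : 0 < P.N ^ (-(2 / 3 : ℝ) + P.m) := Real.rpow_pos_of_pos hN _
  calc cE ^ 2 * P.N ^ (-(5 / 6 : ℝ) + 2 * P.m)
      = cE * P.N ^ (-(2 / 3 : ℝ) + P.m) * (cE * P.N ^ (-(1 / 6 : ℝ) + P.m)) := by
        have : P.N ^ (-(5 / 6 : ℝ) + 2 * P.m) = P.N ^ (-(2 / 3 : ℝ) + P.m) * P.N ^ (-(1 / 6 : ℝ) + P.m) := by
          rw [← Real.rpow_add hN]; congr 1; ring
        rw [this]; ring
    _ ≤ cE * P.N ^ (-(2 / 3 : ℝ) + P.m) * P.d := mul_le_mul_of_nonneg_left h1 (by positivity)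
    _ ≤ P.E := h.E1

/-- `n E a ≥ cE³ n^{3m}` -/
theorem p6_nEa_ge {P : CmCall} {cE D0 : ℝ} (hc : 0 < cE) (h : P.Ok cE D0) : cE ^ 3 * P.N ^ (3 * P.m) ≤ P.N * P.E * P.a := by
  have hN := cm_N_pos h
  have h1 := p6_E_ge hc h
  have h2 := cm_a_ge hc h
  have hE := cm_E_pos hc h
  have p1 : 0 < P.N ^ (-(5 / 6 : ℝ) + 2 * P.m) := Real.rpow_pos_of_pos hN _
  have p2 : 0 < P.N ^ (-(1 / 6 : ℝ) + P.m) := Real.rpow_pos_of_pos hN _
  calc cE ^ 3 * P.N ^ (3 * P.m)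
      = P.N * (cE ^ 2 * P.N ^ (-(5 / 6 : ℝ) + 2 * P.m)) * (cE * P.N ^ (-(1 / 6 : ℝ) + P.m)) := by
        have : P.N ^ (3 * P.m) = P.N ^ (1:ℝ) * P.N ^ (-(5 / 6 : ℝ) + 2 * P.m) * P.N ^ (-(1 / 6 : ℝ) + P.m) := by
          rw [← Real.rpow_add hN, ← Real.rpow_add hN]; congr 1; ring
        rw [this, Real.rpow_one]; ring
    _ ≤ P.N * P.E * P.a := by
        apply mul_le_mul (mul_le_mul_of_nonneg_left h1 hN.le) h2 (by positivity) (by positivity)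

/-! ## 2. a parent with a regular outer region above `x ≥ A_λ` -/

theorem p6_par_x_pos (hc : c.Ok) (h : P6Par fn U c D lam x r cl Ch C0) : ∀ᶠ k in U, 0 < x k := by
  filter_upwards [h.seq.ok, h.lam_rng, h.x_rng] with k hk hl hx
  have h1 := cm_Al_ge hc.cE_pos hk hl.1 hl.2
  have h2 : 0 < (D k).P.N ^ (D k).P.dl * (D k).P.a :=
    mul_pos (Real.rpow_pos_of_pos (cm_N_pos hk) _) (cm_a_pos hc.cE_pos hk)
  linarith [hx.1]

/-- `x ≥ n^δ a` -/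
theorem p6_par_a_x (hc : c.Ok) (h : P6Par fn U c D lam x r cl Ch C0) : ∀ᶠ k in U, (D k).P.N ^ (D k).P.dl * (D k).P.a ≤ x k := by
  filter_upwards [h.seq.ok, h.lam_rng, h.x_rng] with k hk hl hx
  exact (cm_Al_ge hc.cE_pos hk hl.1 hl.2).trans hx.1

theorem p6_par_a_o (hc : c.Ok) (h : P6Par fn U c D lam x r cl Ch C0) : (fun k => (D k).P.a) =o[U] x := by
  refine aq_o_of_le fun ε hε => ?_
  have hdl : 0 < c.dl := by have := hc.m_pos; unfold P6C.dl; positivity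
  filter_upwards [h.seq.ok, p6_par_a_x hc h, p6_seq_dl h.seq, p6_seq_pow_small h.seq hdl hε] with k hk h1 h2 h3
  have hN := cm_N_pos hk
  have ha := cm_a_pos hc.cE_pos hk
  rw [abs_of_pos ha]
  rw [h2] at h1
  have hp : 0 < (D k).P.N ^ c.dl := Real.rpow_pos_of_pos hN _
  have hx : 0 ≤ x k := le_trans (by positivity) h1
  calc (D k).P.a = (D k).P.N ^ (-c.dl) * ((D k).P.N ^ c.dl * (D k).P.a) := by
        rw [Real.rpow_neg hN.le]; field_simp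
    _ ≤ (D k).P.N ^ (-c.dl) * x k := mul_le_mul_of_nonneg_left h1 (Real.rpow_nonneg hN.le _)
    _ ≤ ε * x k := mul_le_mul_of_nonneg_right h3 hx

/-- `e(x) x² ≥ n^δ n E²` -/
theorem p6_par_e_x (hc : c.Ok) (h : P6Par fn U c D lam x r cl Ch C0) :
    ∀ᶠ k in U, (D k).P.N ^ (D k).P.dl * ((D k).P.N * (D k).P.E ^ 2) ≤ (D k).P.e (lam k) (x k) * x k ^ 2 := by
  filter_upwards [h.seq.ok, h.lam_rng, h.x_rng] with k hk hl hx
  exact cm_e_Al hc.cE_pos hk hl.1 hl.2 hx.1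

theorem p6_par_forced (hc : c.Ok) (h : P6Par fn U c D lam x r cl Ch C0) :
    (fun k => (D k).P.rmin + (D k).P.Lm 1 + (D k).P.N ^ (-(D k).P.dl) * (D k).P.us) =o[U] x :=
  (p6_seq_forced hc h.seq).trans (p6_par_a_o hc h)

theorem p6_par_u0 (hc : c.Ok) (h : P6Par fn U c D lam x r cl Ch C0) : (fun k => (D k).P.u0) =o[U] x :=
  h.seq.u0_small.trans (p6_par_a_o hc h)

/-- fixed size: outer bound + monotonicity: `r u ≤ Ch max(u, C0 x)` on the whole working interval -/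
theorem p6_reg_le {P : CmCall} {cE D0 : ℝ} (hcE : 0 < cE) (hok : P.Ok cE D0) {r : ℝ → ℝ} (hr : P.Fe r) {cl Ch C0 x : ℝ} (hCh : 1 ≤ Ch)
    (hu0 : P.u0 ≤ C0 * x) (hreg : P6Reg P.u0 r cl Ch C0 x) {u : ℝ} (hu : u ∈ Icc P.u0 1) : r u ≤ Ch * max u (C0 * x) := by
  have hCh0 : 0 ≤ Ch := by linarith
  obtain ⟨q, rfl⟩ := hr
  have hmono := (cm_q_r_strictMono hcE hok q).monotoneOn
  rcases le_total (C0 * x) u with h1 | h1
  · rw [max_eq_left h1]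
    exact (hreg u h1 hu.2 hu.1).2
  · rw [max_eq_right h1]
    rcases le_total (C0 * x) 1 with h2 | h2
    · exact (hmono hu ⟨hu0, h2⟩ h1).trans (hreg (C0 * x) le_rfl h2 hu0).2
    · calc q.r u ≤ 1 := (q.r_mem u hu).2
        _ ≤ Ch * (C0 * x) := by nlinarith

/-! ## 3. the weak case `e(x) = o(x²)` -/

/-- `e(0) = λ = o(x²)` (PE l.215-225).   Proof for `ε`: if `d² ≤ ε x²` use `λ ≤ d²`; otherwise `λ x/d³ ≤ x/d < ε^{-1/2}`, so `e(x) ≥ λ f(ε^{-1/2})`. -/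
theorem p6_wk_lam (hc : c.Ok) (h : P6Wk fn U c D lam x r cl Ch C0 β j0) : lam =o[U] (fun k => x k ^ 2) := by
  refine aq_o_of_le fun ε hε => ?_
  set t0 : ℝ := 1 / Real.sqrt ε with ht0
  have hs : 0 < Real.sqrt ε := Real.sqrt_pos.2 hε
  have hf : 0 < cmF t0 := cm_f_pos t0
  have hw := aq_o_bound h.weak (Eventually.of_forall fun k => sq_nonneg (x k)) (show 0 < ε * cmF t0 by positivity)
  filter_upwards [h.seq.ok, h.lam_rng, p6_par_x_pos hc h.toP6Par, hw] with k hk hl hx hw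
  have hd := hk.d0
  rw [abs_of_pos hl.1]
  rcases le_total ((D k).P.d ^ 2) (ε * x k ^ 2) with h1 | h1
  · exact hl.2.trans h1
  · -- x/d ≤ t0
    have h2 : x k / (D k).P.d ≤ t0 := by
      rw [ht0, div_le_div_iff₀ hd hs, one_mul]
      have : (x k * Real.sqrt ε) ^ 2 ≤ (D k).P.d ^ 2 := by
        rw [mul_pow, Real.sq_sqrt hε.le]; linarith
      exact abs_le_of_sq_le_sq' this hd.le |>.2
    have h3 : lam k * x k / (D k).P.d ^ 3 ≤ t0 := by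
      refine le_trans ?_ h2
      rw [div_le_div_iff₀ (by positivity) hd]
      have : lam k * x k * (D k).P.d ≤ (D k).P.d ^ 2 * x k * (D k).P.d := by
        apply mul_le_mul_of_nonneg_right _ hd.le
        exact mul_le_mul_of_nonneg_right hl.2 hx.le
      nlinarith
    have h4 : lam k * cmF t0 ≤ (D k).P.e (lam k) (x k) := by
      unfold CmCall.e
      exact mul_le_mul_of_nonneg_left (cm_f_anti h3) hl.1.le
    have h5 : (D k).P.e (lam k) (x k) ≤ ε * cmF t0 * x k ^ 2 := (le_abs_self _).trans hw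
    have h6 : lam k * cmF t0 ≤ (ε * x k ^ 2) * cmF t0 := by linarith
    exact le_of_mul_le_mul_right h6 hf

/-- the child's final profile at `x`: `𝒟(x) = c0² f(1/c0) x²` -/
theorem p6_child_D_x {D : P6D} {lam x c0 j0 : ℝ} {r : ℝ → ℝ} (hx : 0 < x) (hc0 : 0 < c0) :
    (D.child lam r x c0 j0).P.e ((D.child lam r x c0 j0).P.d ^ 2) x = c0 ^ 2 * cmF (1 / c0) * x ^ 2 := by
  have hd : 0 < (D.child lam r x c0 j0).P.d := by show 0 < c0 * x; positivity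
  rw [p6_e_final hd]
  show (c0 * x) ^ 2 * cmF (x / (c0 * x)) = _
  have : x / (c0 * x) = 1 / c0 := by field_simp
  rw [this]; ring

/-- fixed size: `n^{20δ} E' ≤ n^{-80δ} e(x) x³` -/
theorem p6_child_err {D : P6D} {lam x c0 j0 : ℝ} {r : ℝ → ℝ} (hN : 0 < D.P.N) :
    (D.child lam r x c0 j0).P.N ^ (20 * (D.child lam r x c0 j0).P.dl) * (D.child lam r x c0 j0).P.E ≤ D.P.N ^ (-(80 * D.P.dl)) * (D.P.e lam x * x ^ 3) := by
  show D.P.N ^ (20 * D.P.dl) * min (D.P.N ^ (-(1 / 2 : ℝ)) * (c0 * x) ^ 2) (D.P.N ^ (-(100 * D.P.dl)) * D.P.e lam x * x ^ 3) ≤ _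
  have hp : 0 < D.P.N ^ (20 * D.P.dl) := Real.rpow_pos_of_pos hN _
  calc D.P.N ^ (20 * D.P.dl) * min (D.P.N ^ (-(1 / 2 : ℝ)) * (c0 * x) ^ 2) (D.P.N ^ (-(100 * D.P.dl)) * D.P.e lam x * x ^ 3)
      ≤ D.P.N ^ (20 * D.P.dl) * (D.P.N ^ (-(100 * D.P.dl)) * D.P.e lam x * x ^ 3) :=
        mul_le_mul_of_nonneg_left (min_le_right _ _) hp.le
    _ = D.P.N ^ (-(80 * D.P.dl)) * (D.P.e lam x * x ^ 3) := by
        have : D.P.N ^ (-(80 * D.P.dl)) = D.P.N ^ (20 * D.P.dl) * D.P.N ^ (-(100 * D.P.dl)) := by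
          rw [← Real.rpow_add hN]; congr 1; ring
        rw [this]; ring

end Claimed.Agent.R286

/-!
# Row 286 (S0533), PE Lemma 6.2 "data for a child comparison": the FIXED-SIZE core and the five numeric leaves of `Pe6/Child.lean`      OWNER: helper1 (prefix `p6_ch_`, `P6Ch*`)

`Y = n^δ`, `g = cE³ n^{3m} ≤ nEa` (`p6_nEa_ge`), `x ≥ Y a` (`cm_Al_ge`), `e(x)x² ≥ Y nE²` (`cm_e_Al`).   The record `P6ChA` keeps exactly these facts; sec. 0 is pure algebra on it: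
 (i) `e x³ ≥ g E Y²`, (ii) `√n e x² ≥ g a Y`, (iii) `(√n e x²)³ ≥ g³ Y³ e x`, (iv) `e x² ≥ ρ g Y` if `ρ d ≤ E`, (v) `x² ≥ √Y √n E` if `e ≤ x²`.
With `s = √n n^{-100δ} e x²/c0` (`p6ChS`) and any `t` with `c0 Y^99 ≤ t g`:   `a' = min(c0 x, s)` (`p6_ch_a_eq`),   `e(x) x ≤ (t s)³` (`p6_ch_star`),
 below the ceiling (`s ≤ c0 x`) `λ ≤ (c0+1) t² s²` (`p6_ch_lam2`): either `λ x ≤ d³`, `λ = e(x) ≤ c0 t³ s²`, or `d³ ≤ e(x)x ≤ (ts)³`, `λ ≤ d² ≤ t² s²`.      NO logarithm is needed (the TeX uses one).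
Fixed-size exits with explicit thresholds: `p6_ch_ok` (the child is `Ok` with the same `cE, D0`), `p6_ch_gain` (`E' ≥ n^{δ/4}E`, `a' ≥ a`).
Sequence level (sec. 3): `p6_ch_ev_g`, `p6_ch_ev_Y` (the thresholds hold eventually), `p6_ch_sq_ok`, `p6_ch_sq_gain`, `p6_ch_sq_N1`, `p6_ch_sq_N2`  = the leaves of `Pe6/Child.lean`.   TEX[PE:reg:child-data]
-/

set_option autoImplicit false

namespace Claimed.Agent.R286

open Filter Topology Set Asymptotics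

/-! ## 0. pure algebra -/

/-- the facts on the parent which Lemma 6.2 uses: `Y = n^δ`, `g = cE³ n^{3m}`, `sN = √n`, `ex = e(x)` -/
structure P6ChA (Y g sN E d a x ex : ℝ) : Prop where
  Y1 : 1 ≤ Y
  g0 : 0 < g
  s0 : 0 < sN
  E0 : 0 < E
  d0 : 0 < d
  a_eq : a * d = sN * E
  a_le : a ≤ d
  g_le : g ≤ sN ^ 2 * E * a
  x_ge : Y * a ≤ x
  ex_ge : Y * (sN ^ 2 * E ^ 2) ≤ ex * x ^ 2

namespace P6ChA

variable {Y g sN E d a x ex : ℝ}

theorem a0 (h : P6ChA Y g sN E d a x ex) : 0 < a := by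
  have h1 : 0 < a * d := by rw [h.a_eq]; exact mul_pos h.s0 h.E0
  exact (mul_pos_iff_of_pos_right h.d0).1 h1

theorem Y0 (h : P6ChA Y g sN E d a x ex) : 0 < Y := lt_of_lt_of_le one_pos h.Y1

theorem x0 (h : P6ChA Y g sN E d a x ex) : 0 < x := lt_of_lt_of_le (mul_pos h.Y0 h.a0) h.x_ge

theorem ex0 (h : P6ChA Y g sN E d a x ex) : 0 < ex := by
  have h1 : 0 < ex * x ^ 2 := lt_of_lt_of_le (by have := h.Y0; have := h.s0; have := h.E0; positivity) h.ex_ge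
  exact (mul_pos_iff_of_pos_right (pow_pos h.x0 2)).1 h1

/-- (i) `e x³ ≥ g E Y²` -/
theorem i (h : P6ChA Y g sN E d a x ex) : g * E * Y ^ 2 ≤ ex * x ^ 3 := by
  have hY := h.Y0; have ha := h.a0; have hE := h.E0; have hs := h.s0; have hx := h.x0
  calc g * E * Y ^ 2 ≤ (sN ^ 2 * E * a) * E * Y ^ 2 := by
        have := h.g_le; gcongr
    _ = (Y * (sN ^ 2 * E ^ 2)) * (Y * a) := by ring
    _ ≤ (ex * x ^ 2) * x := mul_le_mul h.ex_ge h.x_ge (by positivity) (by have := h.ex0; positivity)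
    _ = ex * x ^ 3 := by ring

/-- (ii) `√n e x² ≥ g a Y` -/
theorem ii (h : P6ChA Y g sN E d a x ex) : g * a * Y ≤ sN * (ex * x ^ 2) := by
  have hY := h.Y0; have ha := h.a0; have hE := h.E0; have hs := h.s0; have hx := h.x0
  calc g * a * Y ≤ (sN ^ 2 * E * a) * a * Y := by
        have := h.g_le; gcongr
    _ ≤ (sN ^ 2 * E * d) * a * Y := by
        have := h.a_le; gcongr
    _ = sN ^ 2 * E * (a * d) * Y := by ring
    _ = sN * (Y * (sN ^ 2 * E ^ 2)) := by rw [h.a_eq]; ring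
    _ ≤ sN * (ex * x ^ 2) := mul_le_mul_of_nonneg_left h.ex_ge hs.le

/-- (iii) `(√n e x²)³ ≥ g³ Y³ e x` -/
theorem iii (h : P6ChA Y g sN E d a x ex) : g ^ 3 * Y ^ 3 * (ex * x) ≤ (sN * (ex * x ^ 2)) ^ 3 := by
  have hY := h.Y0; have ha := h.a0; have hE := h.E0; have hs := h.s0; have hx := h.x0; have he := h.ex0; have hg := h.g0
  have h1 : g ^ 3 ≤ (sN ^ 2 * E * a) ^ 3 := pow_le_pow_left₀ hg.le h.g_le 3
  have h2 : (sN ^ 2 * E * a) ^ 3 ≤ sN ^ 7 * E ^ 4 * a := by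
    calc (sN ^ 2 * E * a) ^ 3 = sN ^ 6 * E ^ 3 * a * (a * a) := by ring
      _ ≤ sN ^ 6 * E ^ 3 * a * (a * d) := by
          have := h.a_le; gcongr
      _ = sN ^ 7 * E ^ 4 * a := by rw [h.a_eq]; ring
  have h3 : (Y * (sN ^ 2 * E ^ 2)) ^ 2 ≤ (ex * x ^ 2) ^ 2 := pow_le_pow_left₀ (by positivity) h.ex_ge 2
  calc g ^ 3 * Y ^ 3 * (ex * x) ≤ (sN ^ 7 * E ^ 4 * a) * Y ^ 3 * (ex * x) := by
        have := h1.trans h2; gcongr
    _ = sN ^ 3 * ((Y * (sN ^ 2 * E ^ 2)) ^ 2 * (Y * a)) * (ex * x) := by ring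
    _ ≤ sN ^ 3 * ((ex * x ^ 2) ^ 2 * x) * (ex * x) := by
        have := h.x_ge; gcongr
    _ = (sN * (ex * x ^ 2)) ^ 3 := by ring

/-- (iv) `e x² ≥ ρ g Y` if `ρ d ≤ E` -/
theorem iv (h : P6ChA Y g sN E d a x ex) {ρ : ℝ} (hρ : 0 ≤ ρ) (hρE : ρ * d ≤ E) : ρ * g * Y ≤ ex * x ^ 2 := by
  have hY := h.Y0; have ha := h.a0; have hE := h.E0; have hs := h.s0; have hx := h.x0; have hg := h.g0
  have h1 : (ρ * g) * a ≤ (sN ^ 2 * E ^ 2) * a := by
    calc (ρ * g) * a = (ρ * a) * g := by ring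
      _ ≤ (ρ * d) * g := by have := h.a_le; gcongr
      _ ≤ E * g := by gcongr
      _ ≤ E * (sN ^ 2 * E * a) := by have := h.g_le; gcongr
      _ = (sN ^ 2 * E ^ 2) * a := by ring
  have h2 : ρ * g ≤ sN ^ 2 * E ^ 2 := le_of_mul_le_mul_right h1 ha
  calc ρ * g * Y = Y * (ρ * g) := by ring
    _ ≤ Y * (sN ^ 2 * E ^ 2) := by gcongr
    _ ≤ _ := h.ex_ge

/-- (v) `x² ≥ √Y √n E` if `e(x) ≤ x²` -/
theorem v (h : P6ChA Y g sN E d a x ex) {Yh : ℝ} (hYh : 0 ≤ Yh) (hY2 : Yh ^ 2 = Y) (hw : ex ≤ x ^ 2) : Yh * sN * E ≤ x ^ 2 := by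
  have hE := h.E0; have hs := h.s0; have hx := h.x0
  have h1 : (Yh * sN * E) ^ 2 ≤ (x ^ 2) ^ 2 := by
    calc (Yh * sN * E) ^ 2 = Yh ^ 2 * (sN ^ 2 * E ^ 2) := by ring
      _ = Y * (sN ^ 2 * E ^ 2) := by rw [hY2]
      _ ≤ ex * x ^ 2 := h.ex_ge
      _ ≤ x ^ 2 * x ^ 2 := by gcongr
      _ = (x ^ 2) ^ 2 := by ring
  exact (pow_le_pow_iff_left₀ (by positivity) (by positivity) two_ne_zero).1 h1

/-- `a ≥ √n ρ` if `ρ d ≤ E` -/
theorem a_ge (h : P6ChA Y g sN E d a x ex) {ρ : ℝ} (hρE : ρ * d ≤ E) : sN * ρ ≤ a := by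
  have h1 : (sN * ρ) * d ≤ a * d := by
    rw [h.a_eq]
    calc (sN * ρ) * d = sN * (ρ * d) := by ring
      _ ≤ sN * E := mul_le_mul_of_nonneg_left hρE h.s0.le
  exact le_of_mul_le_mul_right h1 h.d0

end P6ChA

/-! ## 1. the parent gives `P6ChA`; the numbers of the child -/

section fixed

variable {cE D0 : ℝ} {P : CmCall} {lam x c0 : ℝ}

theorem p6_ch_A (hc : 0 < cE) (h : P.Ok cE D0) (hl : 0 < lam) (hl2 : lam ≤ P.d ^ 2) (hx : P.Al lam ≤ x) :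
    P6ChA (P.N ^ P.dl) (cE ^ 3 * P.N ^ (3 * P.m)) (Real.sqrt P.N) P.E P.d P.a x (P.e lam x) := by
  have hN := cm_N_pos h
  have hN1 : 1 ≤ P.N := by linarith [cm_N_ge h]
  have hs2 : Real.sqrt P.N ^ 2 = P.N := Real.sq_sqrt hN.le
  refine ⟨Real.one_le_rpow hN1 (cm_dl_pos h).le, by have := Real.rpow_pos_of_pos hN (3 * P.m); positivity, Real.sqrt_pos.2 hN, cm_E_pos hc h, h.d0, ?_,
    cm_a_le_d hc h, ?_, (cm_Al_ge hc h hl hl2).trans hx, ?_⟩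
  · have := h.d0
    unfold CmCall.a; field_simp
  · rw [hs2]; exact p6_nEa_ge hc h
  · rw [hs2]; exact cm_e_Al hc h hl hl2 hx

/-- `n^{-100δ} (n^δ)^100 = 1` -/
theorem p6_ch_iY (hN : 0 < P.N) : P.N ^ (-(100 * P.dl)) * (P.N ^ P.dl) ^ 100 = 1 := by
  rw [← Real.rpow_natCast (P.N ^ P.dl), ← Real.rpow_mul hN.le, ← Real.rpow_add hN]
  have : -(100 * P.dl) + P.dl * ((100 : ℕ) : ℝ) = 0 := by push_cast; ring
  rw [this, Real.rpow_zero]

/-- the second candidate for `a'`: `s = √n n^{-100δ} e(x) x²/c0` -/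
noncomputable def p6ChS (P : CmCall) (lam x c0 : ℝ) : ℝ := Real.sqrt P.N * (P.N ^ (-(100 * P.dl)) * P.e lam x * x ^ 2) / c0

end fixed

section child

variable {cE D0 : ℝ} {D : P6D} {lam x c0 j0 : ℝ} {r : ℝ → ℝ}

theorem p6_ch_pN : (D.child lam r x c0 j0).P.N = D.P.N := rfl
theorem p6_ch_pdl : (D.child lam r x c0 j0).P.dl = D.P.dl := rfl
theorem p6_ch_pm : (D.child lam r x c0 j0).P.m = D.P.m := rfl
theorem p6_ch_pd : (D.child lam r x c0 j0).P.d = c0 * x := rfl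
theorem p6_ch_pu0 : (D.child lam r x c0 j0).P.u0 = j0 := rfl
theorem p6_ch_prmin : (D.child lam r x c0 j0).P.rmin = 0 := rfl
theorem p6_ch_pE : (D.child lam r x c0 j0).P.E =
    min (D.P.N ^ (-(1 / 2 : ℝ)) * (c0 * x) ^ 2) (D.P.N ^ (-(100 * D.P.dl)) * D.P.e lam x * x ^ 3) := rfl
theorem p6_ch_pT : (D.child lam r x c0 j0).T = D.T := rfl
theorem p6_ch_pb0 : (D.child lam r x c0 j0).b0 = D.Pb lam r := rfl
theorem p6_ch_ph0 : (D.child lam r x c0 j0).h0 = D.Ph lam r := rfl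

/-- `a' = min(c0 x, s)` -/
theorem p6_ch_a_eq (hN : 0 < D.P.N) (hx : 0 < x) (hc0 : 0 < c0) :
    (D.child lam r x c0 j0).P.a = min (c0 * x) (p6ChS D.P lam x c0) := by
  have hs : 0 < Real.sqrt D.P.N := Real.sqrt_pos.2 hN
  have h1 : Real.sqrt D.P.N * D.P.N ^ (-(1 / 2 : ℝ)) = 1 := by
    rw [Real.sqrt_eq_rpow, ← Real.rpow_add hN]; norm_num
  show Real.sqrt D.P.N * min (D.P.N ^ (-(1 / 2 : ℝ)) * (c0 * x) ^ 2) (D.P.N ^ (-(100 * D.P.dl)) * D.P.e lam x * x ^ 3) / (c0 * x) = _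
  rw [mul_min_of_nonneg _ _ hs.le, ← min_div_div_right (by positivity : (0:ℝ) ≤ c0 * x)]
  congr 1
  · rw [← mul_assoc, h1]; field_simp
  · unfold p6ChS; field_simp

/-- **the child satisfies (3) and (5)** as soon as `c0 n^δ ≥ 1` and `c0 n^{99δ} ≤ cE³ n^{3m}` -/
theorem p6_ch_ok (hc : 0 < cE) (h : D.P.Ok cE D0) (hl : 0 < lam) (hl2 : lam ≤ D.P.d ^ 2) (hx : D.P.Al lam ≤ x) (hx1 : x ≤ 1)
    (hc0 : 0 < c0) (hcD : c0 ≤ D0) (hj0 : 0 ≤ j0) (hj1 : j0 ≤ D.P.u0)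
    (hA1 : 1 ≤ c0 * D.P.N ^ D.P.dl) (hA2 : c0 * (D.P.N ^ D.P.dl) ^ 99 ≤ cE ^ 3 * D.P.N ^ (3 * D.P.m)) :
    (D.child lam r x c0 j0).P.Ok cE D0 := by
  have A := p6_ch_A hc h hl hl2 hx
  have hN := cm_N_pos h
  have hx0 := A.x0
  have hY := A.Y0
  have ha := A.a0
  have he := A.ex0
  have hsN := cm_sqrtN h
  have hiY := p6_ch_iY (P := D.P) hN
  have hiN : 0 < D.P.N ^ (-(1 / 2 : ℝ)) := Real.rpow_pos_of_pos hN _
  have hiY0 : 0 < D.P.N ^ (-(100 * D.P.dl)) := Real.rpow_pos_of_pos hN _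
  set ρ := cE * D.P.N ^ (-(2 / 3 : ℝ) + D.P.m) with hρ
  have hρ0 : 0 < ρ := by have := Real.rpow_pos_of_pos hN (-(2 / 3 : ℝ) + D.P.m); positivity
  have hρE : ρ * D.P.d ≤ D.P.E := h.E1
  have hE'0 : 0 < (D.child lam r x c0 j0).P.E := by
    rw [p6_ch_pE]; exact lt_min (by positivity) (by positivity)
  refine ⟨h.n3, h.m0, h.m1, mul_pos hc0 hx0, ?_, ?_, min_le_left _ _, hj0, hj1.trans h.u01, le_rfl, ?_, fun _ => rfl⟩
  · calc c0 * x ≤ c0 * 1 := by gcongr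
      _ ≤ D0 := by linarith
  · show ρ * (c0 * x) ≤ min _ _
    refine le_min ?_ ?_
    · -- `ρ ≤ n^{-1/2} a ≤ n^{-1/2} c0 x`
      have h1 : D.P.a ≤ c0 * x := by
        calc D.P.a = 1 * D.P.a := (one_mul _).symm
          _ ≤ (c0 * D.P.N ^ D.P.dl) * D.P.a := by gcongr
          _ = c0 * (D.P.N ^ D.P.dl * D.P.a) := by ring
          _ ≤ c0 * x := by have := A.x_ge; gcongr
      have h2 := A.a_ge hρE
      have h3 : ρ ≤ D.P.N ^ (-(1 / 2 : ℝ)) * (c0 * x) := by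
        calc ρ = D.P.N ^ (-(1 / 2 : ℝ)) * (Real.sqrt D.P.N * ρ) := by rw [← mul_assoc, mul_comm (D.P.N ^ (-(1 / 2 : ℝ))), hsN, one_mul]
          _ ≤ D.P.N ^ (-(1 / 2 : ℝ)) * (c0 * x) := by have := h2.trans h1; gcongr
      calc ρ * (c0 * x) ≤ (D.P.N ^ (-(1 / 2 : ℝ)) * (c0 * x)) * (c0 * x) := by gcongr
        _ = _ := by ring
    · have h1 := A.iv hρ0.le hρE
      have h2 : ρ * c0 * (D.P.N ^ D.P.dl) ^ 100 ≤ D.P.e lam x * x ^ 2 := by
        calc ρ * c0 * (D.P.N ^ D.P.dl) ^ 100 = ρ * (c0 * (D.P.N ^ D.P.dl) ^ 99) * D.P.N ^ D.P.dl := by ring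
          _ ≤ ρ * (cE ^ 3 * D.P.N ^ (3 * D.P.m)) * D.P.N ^ D.P.dl := by gcongr
          _ ≤ _ := h1
      calc ρ * (c0 * x) = D.P.N ^ (-(100 * D.P.dl)) * (D.P.N ^ D.P.dl) ^ 100 * (ρ * (c0 * x)) := by rw [hiY, one_mul]
        _ = D.P.N ^ (-(100 * D.P.dl)) * (ρ * c0 * (D.P.N ^ D.P.dl) ^ 100) * x := by ring
        _ ≤ D.P.N ^ (-(100 * D.P.dl)) * (D.P.e lam x * x ^ 2) * x := by gcongr
        _ = _ := by ring
  · show (0 : ℝ) ≤ _
    have hus : 0 < (D.child lam r x c0 j0).P.us := by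
      unfold CmCall.us; rw [p6_ch_pN]; positivity
    have hL : 0 < (D.child lam r x c0 j0).P.L := by
      unfold CmCall.L CmCall.a
      rw [p6_ch_pN, p6_ch_pd]
      have := Real.sqrt_pos.2 hN
      exact lt_min hus (by positivity)
    unfold CmCall.M
    rw [p6_ch_pN, p6_ch_pd, p6_ch_pu0, p6_ch_pdl]
    positivity

/-- **(C2) at fixed size**: `E' ≥ n^{δ/4} E`, `a' ≥ a` -/
theorem p6_ch_gain (hc : 0 < cE) (h : D.P.Ok cE D0) (hl : 0 < lam) (hl2 : lam ≤ D.P.d ^ 2) (hx : D.P.Al lam ≤ x)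
    (hc0 : 0 < c0) (hw : D.P.e lam x ≤ x ^ 2)
    (hA1 : 1 ≤ c0 * D.P.N ^ D.P.dl) (hA2 : c0 * (D.P.N ^ D.P.dl) ^ 99 ≤ cE ^ 3 * D.P.N ^ (3 * D.P.m))
    (hA3 : 1 ≤ c0 ^ 2 * D.P.N ^ (D.P.dl / 4)) (hA4 : D.P.N ^ (D.P.dl / 4) * (D.P.N ^ D.P.dl) ^ 98 ≤ cE ^ 3 * D.P.N ^ (3 * D.P.m)) :
    D.P.N ^ (D.P.dl / 4) * D.P.E ≤ (D.child lam r x c0 j0).P.E ∧ D.P.a ≤ (D.child lam r x c0 j0).P.a := by
  have A := p6_ch_A hc h hl hl2 hx
  have hN := cm_N_pos h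
  have hx0 := A.x0
  have hY := A.Y0
  have ha := A.a0
  have he := A.ex0
  have hE := A.E0
  have hsN := cm_sqrtN h
  have hs0 := A.s0
  have hiY := p6_ch_iY (P := D.P) hN
  have hiN : 0 < D.P.N ^ (-(1 / 2 : ℝ)) := Real.rpow_pos_of_pos hN _
  have hiY0 : 0 < D.P.N ^ (-(100 * D.P.dl)) := Real.rpow_pos_of_pos hN _
  have hq : 0 < D.P.N ^ (D.P.dl / 4) := Real.rpow_pos_of_pos hN _
  have hq4 : ((D.P.N ^ (D.P.dl / 4)) ^ 2) ^ 2 = D.P.N ^ D.P.dl := by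
    rw [← pow_mul, ← Real.rpow_natCast (D.P.N ^ (D.P.dl / 4)), ← Real.rpow_mul hN.le]
    congr 1; push_cast; ring
  constructor
  · rw [p6_ch_pE]
    refine le_min ?_ ?_
    · have h1 := A.v (Yh := (D.P.N ^ (D.P.dl / 4)) ^ 2) (by positivity) hq4 hw
      calc D.P.N ^ (D.P.dl / 4) * D.P.E = 1 * (D.P.N ^ (D.P.dl / 4) * D.P.E) := (one_mul _).symm
        _ ≤ (c0 ^ 2 * D.P.N ^ (D.P.dl / 4)) * (D.P.N ^ (D.P.dl / 4) * D.P.E) := by gcongr
        _ = (Real.sqrt D.P.N * D.P.N ^ (-(1 / 2 : ℝ))) * (c0 ^ 2 * D.P.N ^ (D.P.dl / 4)) * (D.P.N ^ (D.P.dl / 4) * D.P.E) := by rw [hsN, one_mul]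
        _ = D.P.N ^ (-(1 / 2 : ℝ)) * c0 ^ 2 * ((D.P.N ^ (D.P.dl / 4)) ^ 2 * Real.sqrt D.P.N * D.P.E) := by ring
        _ ≤ D.P.N ^ (-(1 / 2 : ℝ)) * c0 ^ 2 * x ^ 2 := by gcongr
        _ = _ := by ring
    · have h1 := A.i
      calc D.P.N ^ (D.P.dl / 4) * D.P.E = D.P.N ^ (-(100 * D.P.dl)) * (D.P.N ^ D.P.dl) ^ 100 * (D.P.N ^ (D.P.dl / 4) * D.P.E) := by rw [hiY, one_mul]
        _ = D.P.N ^ (-(100 * D.P.dl)) * ((D.P.N ^ (D.P.dl / 4) * (D.P.N ^ D.P.dl) ^ 98) * D.P.E * (D.P.N ^ D.P.dl) ^ 2) := by ring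
        _ ≤ D.P.N ^ (-(100 * D.P.dl)) * ((cE ^ 3 * D.P.N ^ (3 * D.P.m)) * D.P.E * (D.P.N ^ D.P.dl) ^ 2) := by gcongr
        _ ≤ D.P.N ^ (-(100 * D.P.dl)) * (D.P.e lam x * x ^ 3) := by gcongr
        _ = _ := by ring
  · rw [p6_ch_a_eq hN hx0 hc0]
    refine le_min ?_ ?_
    · calc D.P.a = 1 * D.P.a := (one_mul _).symm
        _ ≤ (c0 * D.P.N ^ D.P.dl) * D.P.a := by gcongr
        _ = c0 * (D.P.N ^ D.P.dl * D.P.a) := by ring
        _ ≤ c0 * x := by have := A.x_ge; gcongr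
    · unfold p6ChS
      rw [le_div_iff₀ hc0]
      have h1 := A.ii
      calc D.P.a * c0 = D.P.N ^ (-(100 * D.P.dl)) * (D.P.N ^ D.P.dl) ^ 100 * (D.P.a * c0) := by rw [hiY, one_mul]
        _ = D.P.N ^ (-(100 * D.P.dl)) * ((c0 * (D.P.N ^ D.P.dl) ^ 99) * D.P.a * D.P.N ^ D.P.dl) := by ring
        _ ≤ D.P.N ^ (-(100 * D.P.dl)) * ((cE ^ 3 * D.P.N ^ (3 * D.P.m)) * D.P.a * D.P.N ^ D.P.dl) := by gcongr
        _ ≤ D.P.N ^ (-(100 * D.P.dl)) * (Real.sqrt D.P.N * (D.P.e lam x * x ^ 2)) := by gcongr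
        _ = _ := by ring

end child

/-! ## 2. the removed covariance at the scales of the child -/

section removed

variable {cE D0 : ℝ} {P : CmCall} {lam x c0 : ℝ}

theorem p6_ch_s_pos (hc : 0 < cE) (h : P.Ok cE D0) (hl : 0 < lam) (hl2 : lam ≤ P.d ^ 2) (hx : P.Al lam ≤ x) (hc0 : 0 < c0) : 0 < p6ChS P lam x c0 := by
  have A := p6_ch_A hc h hl hl2 hx
  have := A.x0; have := A.ex0; have := A.s0
  have : 0 < P.N ^ (-(100 * P.dl)) := Real.rpow_pos_of_pos (cm_N_pos h) _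
  unfold p6ChS; positivity

/-- `e(x) x ≤ (t s)³` if `c0 n^{99δ} ≤ t cE³ n^{3m}` -/
theorem p6_ch_star (hc : 0 < cE) (h : P.Ok cE D0) (hl : 0 < lam) (hl2 : lam ≤ P.d ^ 2) (hx : P.Al lam ≤ x) (hc0 : 0 < c0) {t : ℝ}
    (ht : c0 * (P.N ^ P.dl) ^ 99 ≤ t * (cE ^ 3 * P.N ^ (3 * P.m))) : P.e lam x * x ≤ (t * p6ChS P lam x c0) ^ 3 := by
  have A := p6_ch_A hc h hl hl2 hx
  have hN := cm_N_pos h
  have hx0 := A.x0; have hY := A.Y0; have he := A.ex0; have hg := A.g0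
  have hiY := p6_ch_iY (P := P) hN
  have hiY0 : 0 < P.N ^ (-(100 * P.dl)) := Real.rpow_pos_of_pos hN _
  have ht0 : 0 < t := by
    have h1 : 0 < t * (cE ^ 3 * P.N ^ (3 * P.m)) := lt_of_lt_of_le (by positivity) ht
    exact (mul_pos_iff_of_pos_right hg).1 h1
  have e1 : t * p6ChS P lam x c0 = (t * P.N ^ (-(100 * P.dl)) / c0) * (Real.sqrt P.N * (P.e lam x * x ^ 2)) := by
    unfold p6ChS; field_simp
  have h3 : (c0 * (P.N ^ P.dl) ^ 99) ^ 3 ≤ (t * (cE ^ 3 * P.N ^ (3 * P.m))) ^ 3 := pow_le_pow_left₀ (by positivity) ht 3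
  calc P.e lam x * x = (P.N ^ (-(100 * P.dl)) * (P.N ^ P.dl) ^ 100) ^ 3 * (P.e lam x * x) := by rw [hiY]; ring
    _ = (P.N ^ (-(100 * P.dl)) / c0) ^ 3 * ((c0 * (P.N ^ P.dl) ^ 99) ^ 3 * (P.N ^ P.dl) ^ 3 * (P.e lam x * x)) := by field_simp
    _ ≤ (P.N ^ (-(100 * P.dl)) / c0) ^ 3 * ((t * (cE ^ 3 * P.N ^ (3 * P.m))) ^ 3 * (P.N ^ P.dl) ^ 3 * (P.e lam x * x)) := by gcongr
    _ = (t * P.N ^ (-(100 * P.dl)) / c0) ^ 3 * ((cE ^ 3 * P.N ^ (3 * P.m)) ^ 3 * (P.N ^ P.dl) ^ 3 * (P.e lam x * x)) := by ring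
    _ ≤ (t * P.N ^ (-(100 * P.dl)) / c0) ^ 3 * (Real.sqrt P.N * (P.e lam x * x ^ 2)) ^ 3 := by have := A.iii; gcongr
    _ = (t * p6ChS P lam x c0) ^ 3 := by rw [e1]; ring

/-- below the ceiling: `λ ≤ (c0+1) t² s²` -/
theorem p6_ch_lam2 (hc : 0 < cE) (h : P.Ok cE D0) (hl : 0 < lam) (hl2 : lam ≤ P.d ^ 2) (hx : P.Al lam ≤ x) (hc0 : 0 < c0) {t : ℝ}
    (ht : c0 * (P.N ^ P.dl) ^ 99 ≤ t * (cE ^ 3 * P.N ^ (3 * P.m))) (ht1 : t ≤ 1) (hs : p6ChS P lam x c0 ≤ c0 * x) :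
    lam ≤ (c0 + 1) * t ^ 2 * p6ChS P lam x c0 ^ 2 := by
  have A := p6_ch_A hc h hl hl2 hx
  have hx0 := A.x0; have hg := A.g0; have hY := A.Y0
  have hd := h.d0
  have hs0 := p6_ch_s_pos hc h hl hl2 hx hc0
  have hst := p6_ch_star hc h hl hl2 hx hc0 ht
  have ht0 : 0 < t := by
    have h1 : 0 < t * (cE ^ 3 * P.N ^ (3 * P.m)) := lt_of_lt_of_le (by positivity) ht
    exact (mul_pos_iff_of_pos_right hg).1 h1
  set s := p6ChS P lam x c0 with hsdef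
  rcases le_total (lam * x) (P.d ^ 3) with hc1 | hc1
  · rw [cm_e_eq P hd hc1] at hst
    have h1 : lam * s ≤ (c0 * t ^ 3 * s ^ 2) * s := by
      calc lam * s ≤ lam * (c0 * x) := by gcongr
        _ = c0 * (lam * x) := by ring
        _ ≤ c0 * (t * s) ^ 3 := by gcongr
        _ = (c0 * t ^ 3 * s ^ 2) * s := by ring
    have h2 : lam ≤ c0 * t ^ 3 * s ^ 2 := le_of_mul_le_mul_right h1 hs0
    have h3 : t ^ 3 ≤ t ^ 2 := pow_le_pow_of_le_one ht0.le ht1 (by norm_num)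
    calc lam ≤ c0 * t ^ 3 * s ^ 2 := h2
      _ ≤ c0 * t ^ 2 * s ^ 2 := by gcongr
      _ ≤ (c0 + 1) * t ^ 2 * s ^ 2 := by gcongr; linarith
  · have h1 : 1 ≤ lam * x / P.d ^ 3 := by rw [le_div_iff₀ (by positivity)]; linarith
    have h2 : P.d ^ 3 ≤ P.e lam x * x := by
      rw [mul_comm, cm_re_eq P hd, cm_tf_of_ge h1]
      have := Real.log_nonneg h1
      nlinarith [pow_pos hd 3]
    have h3 : P.d ≤ t * s := (pow_le_pow_iff_left₀ hd.le (by positivity) three_ne_zero).1 (h2.trans hst)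
    calc lam ≤ P.d ^ 2 := hl2
      _ ≤ (t * s) ^ 2 := pow_le_pow_left₀ hd.le h3 2
      _ = 1 * t ^ 2 * s ^ 2 := by ring
      _ ≤ (c0 + 1) * t ^ 2 * s ^ 2 := by gcongr; linarith

end removed

/-! ## 3. sequence level -/

section seq

variable {fn : ℕ → (ℝ → ℝ) → (ℝ → ℝ) → ℝ} {U : Ultrafilter ℕ} {c : P6C} {D : ℕ → P6D} {lam x : ℕ → ℝ} {r : ℕ → ℝ → ℝ} {cl Ch C0 c0 β : ℝ} {j0 : ℕ → ℝ}

/-- `A n^{100δ} ≤ cE³ n^{3m}` eventually -/
theorem p6_ch_ev_g (hc : c.Ok) (h : P6Seq U c D) {A : ℝ} (hA : 0 < A) :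
    ∀ᶠ k in U, A * ((D k).P.N ^ (D k).P.dl) ^ 100 ≤ c.cE ^ 3 * (D k).P.N ^ (3 * (D k).P.m) := by
  have hs : 0 < 3 * c.m - 100 * c.dl := by
    have := hc.m_pos
    unfold P6C.dl; linarith
  have hcE := hc.cE_pos
  have e1 := p6_seq_pow_small h hs (show 0 < c.cE ^ 3 / A by positivity)
  filter_upwards [h.ok, h.m_eq, p6_seq_dl h, e1] with k hk hm hdl e1
  have hN := cm_N_pos hk
  rw [hm, hdl]
  have hp : 0 < (D k).P.N ^ (3 * c.m) := Real.rpow_pos_of_pos hN _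
  have e2 : ((D k).P.N ^ c.dl) ^ 100 = (D k).P.N ^ (3 * c.m) * (D k).P.N ^ (-(3 * c.m - 100 * c.dl)) := by
    rw [← Real.rpow_natCast ((D k).P.N ^ c.dl), ← Real.rpow_mul hN.le, ← Real.rpow_add hN]
    congr 1; push_cast; ring
  rw [e2]
  calc A * ((D k).P.N ^ (3 * c.m) * (D k).P.N ^ (-(3 * c.m - 100 * c.dl))) ≤ A * ((D k).P.N ^ (3 * c.m) * (c.cE ^ 3 / A)) := by gcongr
    _ = c.cE ^ 3 * (D k).P.N ^ (3 * c.m) := by field_simp

/-- `n^{δ/4} → ∞` -/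
theorem p6_ch_ev_Y (hc : c.Ok) (h : P6Seq U c D) (A : ℝ) : ∀ᶠ k in U, A ≤ (D k).P.N ^ ((D k).P.dl / 4) := by
  have hs : 0 < c.dl / 4 := by
    have := hc.m_pos
    unfold P6C.dl; linarith
  filter_upwards [p6_seq_dl h, (aq_scale_rpow_tendsto h.n_top hs).eventually_ge_atTop A] with k hdl e1
  rw [hdl]; exact e1

/-- all thresholds of the fixed-size lemmas, for a given `t > 0` -/
theorem p6_ch_ev_thr (hc : c.Ok) (h : P6Seq U c D) (hc0 : 0 < c0) {t : ℝ} (ht : 0 < t) : ∀ᶠ k in U,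
    1 ≤ c0 * (D k).P.N ^ (D k).P.dl ∧ c0 * ((D k).P.N ^ (D k).P.dl) ^ 99 ≤ c.cE ^ 3 * (D k).P.N ^ (3 * (D k).P.m) ∧
    1 ≤ c0 ^ 2 * (D k).P.N ^ ((D k).P.dl / 4) ∧ (D k).P.N ^ ((D k).P.dl / 4) * ((D k).P.N ^ (D k).P.dl) ^ 98 ≤ c.cE ^ 3 * (D k).P.N ^ (3 * (D k).P.m) ∧
    c0 * ((D k).P.N ^ (D k).P.dl) ^ 99 ≤ t * (c.cE ^ 3 * (D k).P.N ^ (3 * (D k).P.m)) := by
  filter_upwards [h.ok, p6_ch_ev_g hc h hc0, p6_ch_ev_g hc h one_pos, p6_ch_ev_g hc h (show 0 < c0 / t by positivity),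
    p6_ch_ev_Y hc h (1 / c0), p6_ch_ev_Y hc h (1 / c0 ^ 2)] with k hk g1 g2 g3 y1 y2
  have hN := cm_N_pos hk
  have hN1 : 1 ≤ (D k).P.N := by linarith [cm_N_ge hk]
  have hdl := cm_dl_pos hk
  have hY1 : 1 ≤ (D k).P.N ^ (D k).P.dl := Real.one_le_rpow hN1 hdl.le
  have hqY : (D k).P.N ^ ((D k).P.dl / 4) ≤ (D k).P.N ^ (D k).P.dl := Real.rpow_le_rpow_of_exponent_le hN1 (by linarith)
  have hq0 : 0 < (D k).P.N ^ ((D k).P.dl / 4) := Real.rpow_pos_of_pos hN _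
  set Y := (D k).P.N ^ (D k).P.dl with hY
  have hY0 : 0 < Y := by linarith
  have h99 : Y ^ 99 ≤ Y ^ 100 := pow_le_pow_right₀ hY1 (by norm_num)
  refine ⟨?_, ?_, ?_, ?_, ?_⟩
  · rw [div_le_iff₀ hc0] at y1
    nlinarith
  · exact (mul_le_mul_of_nonneg_left h99 hc0.le).trans g1
  · rw [div_le_iff₀ (by positivity)] at y2
    linarith
  · calc (D k).P.N ^ ((D k).P.dl / 4) * Y ^ 98 ≤ Y * Y ^ 98 := by gcongr
      _ = Y ^ 99 := by ring
      _ ≤ 1 * Y ^ 100 := by linarith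
      _ ≤ _ := g2
  · have e : c0 / t * Y ^ 100 = c0 * Y ^ 100 / t := by ring
    rw [e, div_le_iff₀ ht] at g3
    calc c0 * Y ^ 99 ≤ c0 * Y ^ 100 := by gcongr
      _ ≤ _ := by linarith

theorem p6_ch_sq_ok (hk : P6K c cl Ch C0 c0 β) (h : P6Wk fn U c D lam x r cl Ch C0 β j0) :
    ∀ᶠ k in U, (p6Child c0 D lam x r j0 k).P.Ok c.cE c.D0 := by
  filter_upwards [h.seq.ok, h.lam_rng, h.x_rng, h.j0_rng, p6_ch_ev_thr hk.ok h.seq hk.c0_pos one_pos] with k ok hl hx hj thr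
  exact p6_ch_ok hk.ok.cE_pos ok hl.1 hl.2 hx.1 hx.2 hk.c0_pos hk.c0_D hj.1 hj.2 thr.1 thr.2.1

theorem p6_ch_sq_gain (hk : P6K c cl Ch C0 c0 β) (h : P6Wk fn U c D lam x r cl Ch C0 β j0) :
    ∀ᶠ k in U, (D k).P.N ^ ((D k).P.dl / 4) * (D k).P.E ≤ (p6Child c0 D lam x r j0 k).P.E ∧ (D k).P.a ≤ (p6Child c0 D lam x r j0 k).P.a := by
  have hw := aq_o_bound h.weak (Eventually.of_forall fun k => sq_nonneg (x k)) one_pos
  filter_upwards [h.seq.ok, h.lam_rng, h.x_rng, hw, p6_ch_ev_thr hk.ok h.seq hk.c0_pos one_pos] with k ok hl hx hw thr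
  have hw' : (D k).P.e (lam k) (x k) ≤ x k ^ 2 := by
    have := (le_abs_self _).trans hw
    linarith
  exact p6_ch_gain hk.ok.cE_pos ok hl.1 hl.2 hx.1 hk.c0_pos hw' thr.1 thr.2.1 thr.2.2.1 thr.2.2.2.1

/-- (N1) `e(x) x = o(a'³)` -/
theorem p6_ch_sq_N1 (hk : P6K c cl Ch C0 c0 β) (h : P6Wk fn U c D lam x r cl Ch C0 β j0) :
    (fun k => (D k).P.e (lam k) (x k) * x k) =o[U] (fun k => (p6Child c0 D lam x r j0 k).P.a ^ 3) := by
  refine aq_o_of_le fun ε hε => ?_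
  have hc0 := hk.c0_pos
  have hcE := hk.ok.cE_pos
  -- `t = min 1 ε`: `t³ ≤ ε`
  have ht : 0 < min 1 ε := lt_min one_pos hε
  have hw := aq_o_bound h.weak (Eventually.of_forall fun k => sq_nonneg (x k)) (show 0 < ε * c0 ^ 3 by positivity)
  filter_upwards [h.seq.ok, h.lam_rng, h.x_rng, hw, p6_ch_ev_thr hk.ok h.seq hc0 ht] with k ok hl hx hw thr
  have A := p6_ch_A hcE ok hl.1 hl.2 hx.1
  have hx0 := A.x0
  have he0 := A.ex0
  have hs0 := p6_ch_s_pos hcE ok hl.1 hl.2 hx.1 hc0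
  have hst := p6_ch_star hcE ok hl.1 hl.2 hx.1 hc0 thr.2.2.2.2
  rw [abs_of_pos (by positivity)]
  show _ ≤ ε * ((D k).child (lam k) (r k) (x k) c0 (j0 k)).P.a ^ 3
  rw [p6_ch_a_eq (cm_N_pos ok) hx0 hc0]
  rcases le_total (c0 * x k) (p6ChS (D k).P (lam k) (x k) c0) with hm | hm
  · rw [min_eq_left hm]
    have hw' : (D k).P.e (lam k) (x k) ≤ ε * c0 ^ 3 * x k ^ 2 := (le_abs_self _).trans hw
    calc (D k).P.e (lam k) (x k) * x k ≤ (ε * c0 ^ 3 * x k ^ 2) * x k := by gcongr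
      _ = ε * (c0 * x k) ^ 3 := by ring
  · rw [min_eq_right hm]
    have h3 : (min 1 ε) ^ 3 ≤ ε := by
      calc (min 1 ε) ^ 3 ≤ (min 1 ε) ^ 1 := pow_le_pow_of_le_one ht.le (min_le_left _ _) (by norm_num)
        _ = min 1 ε := pow_one _
        _ ≤ ε := min_le_right _ _
    calc (D k).P.e (lam k) (x k) * x k ≤ (min 1 ε * p6ChS (D k).P (lam k) (x k) c0) ^ 3 := hst
      _ = (min 1 ε) ^ 3 * p6ChS (D k).P (lam k) (x k) c0 ^ 3 := by ring
      _ ≤ ε * p6ChS (D k).P (lam k) (x k) c0 ^ 3 := by gcongr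

/-- (N2) `λ = o(a'²)` -/
theorem p6_ch_sq_N2 (hk : P6K c cl Ch C0 c0 β) (h : P6Wk fn U c D lam x r cl Ch C0 β j0) :
    lam =o[U] (fun k => (p6Child c0 D lam x r j0 k).P.a ^ 2) := by
  refine aq_o_of_le fun ε hε => ?_
  have hc0 := hk.c0_pos
  have hcE := hk.ok.cE_pos
  have ht : 0 < min 1 (ε / (c0 + 1)) := lt_min one_pos (by positivity)
  have hw := aq_o_bound (p6_wk_lam hk.ok h) (Eventually.of_forall fun k => sq_nonneg (x k)) (show 0 < ε * c0 ^ 2 by positivity)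
  filter_upwards [h.seq.ok, h.lam_rng, h.x_rng, hw, p6_ch_ev_thr hk.ok h.seq hc0 ht] with k ok hl hx hw thr
  have A := p6_ch_A hcE ok hl.1 hl.2 hx.1
  have hx0 := A.x0
  have hs0 := p6_ch_s_pos hcE ok hl.1 hl.2 hx.1 hc0
  rw [abs_of_pos hl.1]
  show _ ≤ ε * ((D k).child (lam k) (r k) (x k) c0 (j0 k)).P.a ^ 2
  rw [p6_ch_a_eq (cm_N_pos ok) hx0 hc0]
  rcases le_total (c0 * x k) (p6ChS (D k).P (lam k) (x k) c0) with hm | hm
  · rw [min_eq_left hm]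
    calc lam k ≤ ε * c0 ^ 2 * x k ^ 2 := (le_abs_self _).trans hw
      _ = ε * (c0 * x k) ^ 2 := by ring
  · rw [min_eq_right hm]
    have hl3 := p6_ch_lam2 hcE ok hl.1 hl.2 hx.1 hc0 thr.2.2.2.2 (min_le_left _ _) hm
    have h3 : (c0 + 1) * (min 1 (ε / (c0 + 1))) ^ 2 ≤ ε := by
      have h4 : (min 1 (ε / (c0 + 1))) ^ 2 ≤ ε / (c0 + 1) := by
        calc (min 1 (ε / (c0 + 1))) ^ 2 ≤ (min 1 (ε / (c0 + 1))) ^ 1 := pow_le_pow_of_le_one ht.le (min_le_left _ _) (by norm_num)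
          _ = min 1 (ε / (c0 + 1)) := pow_one _
          _ ≤ _ := min_le_right _ _
      calc (c0 + 1) * (min 1 (ε / (c0 + 1))) ^ 2 ≤ (c0 + 1) * (ε / (c0 + 1)) := by gcongr
        _ = ε := by field_simp
    calc lam k ≤ (c0 + 1) * (min 1 (ε / (c0 + 1))) ^ 2 * p6ChS (D k).P (lam k) (x k) c0 ^ 2 := hl3
      _ ≤ ε * p6ChS (D k).P (lam k) (x k) c0 ^ 2 := by gcongr

end seq

end Claimed.Agent.R286

/-!
# Row 286, PE Lemma 6.2 (data for a child comparison)      OWNER / architect of this file: helper1 (second head).   section head helper14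

Setting `P6Wk`: parent with minimiser `r`, regular outer region above `x`, `A_λ ≤ x ≤ 1`, `e(x) = o(x²)`.   Child `D' = p6Child c0 D lam x r j0`:  `d' = c0 x`, `E' = min(E'_c, E'_s)`, `E'_c = n^{-1/2} d'²`, `E'_s = n^{-100δ} e(x) x³`.
EXITS (do not change): `p6_child_grow`, `p6_child_a`, `p6_child_seq`.      The owner cuts the inside as he likes (suggested leaves below).

Uniform form of the last part of the paper's proof ((4) for the child), checked by 14:  with `w = e(x) x`: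
 (N1) `w = o(a'³)`   [ceiling: `a' = c0 x`, `w = o(x³)`;  else `a'³/w = c0^{-3} n^{3/2-300δ} e(x)² x⁵ ≳ n^{9m-300δ}`];
 (N2) `λ = o(a'²)`   [if `λ x ≤ d³`: `e(x) = λ`, `λ = w/x ≤ c0 w/a'`;  else `w = d³ (t f(t)) ≥ d³` (`t = λx/d³ > 1`), `λ ≤ d² ≤ w^{2/3}`];      (N3) `λ = o(x²)` (`p6_wk_lam`).
 Test `(z,u)`: `a'/κ ≤ z ≤ 1`, `z/κ ≤ u ≤ κ z`, `j0 < u < 1`.   Then `u ≥ a/κ² > u0` eventually, the parent's (4) applies (`a ≤ a'`), and
   `e(r u) ≤ λ ≤ ε' a'² ≤ ε' κ² z²`;      `e(r u) r u ≤ λ Ch max(κ, C0) z` if `z ≥ x` (`p6_reg_le`), `≤ C' w ≤ ε' κ³ z³` if `z < x` (`t e(t)` monotone, `r u ≤ C' x`, `C' = Ch max(κ,C0)`).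
-/

set_option autoImplicit false

namespace Claimed.Agent.R286

open Filter Topology Set MeasureTheory Asymptotics

variable {fn : ℕ → (ℝ → ℝ) → (ℝ → ℝ) → ℝ} {U : Ultrafilter ℕ} {c : P6C} {D : ℕ → P6D} {lam x : ℕ → ℝ} {r : ℕ → ℝ → ℝ} {cl Ch C0 c0 β : ℝ} {j0 : ℕ → ℝ}

/-- C2: the error parameter grows by `n^{δ/4}` -/
theorem p6_child_grow (hk : P6K c cl Ch C0 c0 β) (h : P6Wk fn U c D lam x r cl Ch C0 β j0) :
    ∀ᶠ k in U, (D k).P.N ^ ((D k).P.dl / 4) * (D k).P.E ≤ (p6Child c0 D lam x r j0 k).P.E := by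
  exact (p6_ch_sq_gain hk h).mono fun _ h => h.1

/-- `a' ≥ a` -/
theorem p6_child_a (hk : P6K c cl Ch C0 c0 β) (h : P6Wk fn U c D lam x r cl Ch C0 β j0) :
    ∀ᶠ k in U, (D k).P.a ≤ (p6Child c0 D lam x r j0 k).P.a := by
  exact (p6_ch_sq_gain hk h).mono fun _ h => h.2

/-- the child call satisfies (3) and the wall condition with the SAME constants -/
theorem p6_child_ok (hk : P6K c cl Ch C0 c0 β) (h : P6Wk fn U c D lam x r cl Ch C0 β j0) :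
    ∀ᶠ k in U, (p6Child c0 D lam x r j0 k).P.Ok c.cE c.D0 := by
  exact p6_ch_sq_ok hk h

/-- (N1) -/
theorem p6_child_N1 (hk : P6K c cl Ch C0 c0 β) (h : P6Wk fn U c D lam x r cl Ch C0 β j0) :
    (fun k => (D k).P.e (lam k) (x k) * x k) =o[U] (fun k => (p6Child c0 D lam x r j0 k).P.a ^ 3) := by
  exact p6_ch_sq_N1 hk h

/-- (N2) -/
theorem p6_child_N2 (hk : P6K c cl Ch C0 c0 β) (h : P6Wk fn U c D lam x r cl Ch C0 β j0) :
    lam =o[U] (fun k => (p6Child c0 D lam x r j0 k).P.a ^ 2) := by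
  exact p6_ch_sq_N2 hk h

/-- (4) for the child -/
theorem p6_child_ep4 (hk : P6K c cl Ch C0 c0 β) (h : P6Wk fn U c D lam x r cl Ch C0 β j0) :
    ∀ κ ε : ℝ, 1 ≤ κ → 0 < ε → ∀ᶠ k in U, ∀ z u : ℝ, (p6Child c0 D lam x r j0 k).P.a / κ ≤ z → z ≤ 1 → j0 k < u → u < 1 → z / κ ≤ u → u ≤ κ * z →
      |(D k).Pb (lam k) (r k) u - (D k).T| ≤ ε * z ^ 2 ∧ |(D k).Ph (lam k) (r k) u| ≤ ε * z ^ 3 := by
  intro κ ε hκ hε
  have hc := hk.ok
  have hκ0 : 0 < κ := by linarith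
  have hCh0 : 0 < Ch := by linarith [hk.Ch_ge]
  have hC00 : 0 < C0 := by linarith [hk.C0_ge]
  set C' : ℝ := Ch * max κ C0 with hC'
  have hmx : 1 ≤ max κ C0 := hκ.trans (le_max_left _ _)
  have hC'1 : 1 ≤ C' := by rw [hC']; nlinarith [hk.Ch_ge]
  have hC'0 : 0 < C' := by linarith
  have hapos : ∀ᶠ k in U, 0 ≤ (p6Child c0 D lam x r j0 k).P.a := by
    filter_upwards [p6_child_a hk h, p6_seq_a_pos hc h.seq] with k h1 h2
    linarith
  have n1 := aq_o_bound (p6_child_N1 hk h) (hapos.mono fun k hk => pow_nonneg hk 3)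
    (show 0 < ε / (2 * C' * κ ^ 3) by positivity)
  have n2 := aq_o_bound (p6_child_N2 hk h) (hapos.mono fun k hk => pow_nonneg hk 2)
    (show 0 < ε / (2 * κ ^ 2) by positivity)
  have n3 := aq_o_bound (p6_wk_lam hc h) (Eventually.of_forall fun k => sq_nonneg (x k))
    (show 0 < ε / (2 * C') by positivity)
  have u0a := aq_o_bound h.seq.u0_small ((p6_seq_a_pos hc h.seq).mono fun k hk => hk.le)
    (show 0 < 1 / (2 * κ ^ 2) by positivity)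
  have u0x := aq_o_bound (p6_par_u0 hc h.toP6Par) ((p6_par_x_pos hc h.toP6Par).mono fun k hk => hk.le) one_pos
  filter_upwards [n1, n2, n3, u0a, u0x, h.seq.ep4 κ (ε / 2) hκ (by positivity), p6_child_a hk h, p6_seq_a_pos hc h.seq,
    h.seq.ok, h.lam_rng, h.min, h.outer, p6_par_x_pos hc h.toP6Par] with k n1 n2 n3 u0a u0x ep4 haa ha hok hl hmin hreg hx
  intro z u hz hz1 hj hu1 hzu huz
  set a' := (p6Child c0 D lam x r j0 k).P.a with ha'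
  have ha'0 : 0 < a' := lt_of_lt_of_le ha haa
  have hz0 : 0 < z := lt_of_lt_of_le (by positivity) hz
  have ha'z : a' ≤ κ * z := by rw [div_le_iff₀ hκ0] at hz; linarith
  -- the mass is above the omitted interval of the parent
  have hu0u : (D k).P.u0 < u := by
    have h1 : (D k).P.u0 ≤ 1 / (2 * κ ^ 2) * (D k).P.a := (le_abs_self _).trans u0a
    have h2 : (D k).P.a / κ ^ 2 ≤ u := by
      calc (D k).P.a / κ ^ 2 ≤ a' / κ ^ 2 := div_le_div_of_nonneg_right haa (by positivity)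
        _ = a' / κ / κ := by field_simp
        _ ≤ z / κ := div_le_div_of_nonneg_right hz hκ0.le
        _ ≤ u := hzu
    have h3 : 1 / (2 * κ ^ 2) * (D k).P.a < (D k).P.a / κ ^ 2 := by
      have : 1 / (2 * κ ^ 2) * (D k).P.a = (D k).P.a / κ ^ 2 / 2 := by field_simp
      rw [this]
      have : 0 < (D k).P.a / κ ^ 2 := by positivity
      linarith
    linarith
  obtain ⟨eb, eh⟩ := ep4 z u ((div_le_div_of_nonneg_right haa hκ0.le).trans hz) hz1 hu0u hu1 hzu huz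
  have huI : u ∈ Icc (D k).P.u0 1 := ⟨hu0u.le, hu1.le⟩
  have hr0 : 0 ≤ r k u := by
    obtain ⟨q, hq⟩ := hmin.1
    rw [← hq]; exact hok.r0.trans (q.r_mem u huI).1
  have he0 : 0 ≤ (D k).P.e (lam k) (r k u) := cm_e_nonneg _ hl.1.le _
  have hel : (D k).P.e (lam k) (r k u) ≤ lam k := cm_e_le _ hl.1.le _
  have hlam2 : lam k ≤ ε / 2 * z ^ 2 := by
    have h1 : lam k ≤ ε / (2 * κ ^ 2) * a' ^ 2 := (le_abs_self _).trans n2
    have h2 : a' ^ 2 ≤ (κ * z) ^ 2 := pow_le_pow_left₀ ha'0.le ha'z 2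
    calc lam k ≤ ε / (2 * κ ^ 2) * a' ^ 2 := h1
      _ ≤ ε / (2 * κ ^ 2) * (κ * z) ^ 2 := mul_le_mul_of_nonneg_left h2 (by positivity)
      _ = ε / 2 * z ^ 2 := by field_simp
  have hu0x : (D k).P.u0 ≤ C0 * x k := by
    have h1 : (D k).P.u0 ≤ 1 * x k := (le_abs_self _).trans u0x
    nlinarith [hk.C0_ge]
  have hrle := p6_reg_le hc.cE_pos hok hmin.1 hk.Ch_ge hu0x hreg huI
  have her : (D k).P.e (lam k) (r k u) * r k u ≤ ε / 2 * z ^ 3 := by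
    rcases le_total (x k) z with hxz | hxz
    · have h1 : max u (C0 * x k) ≤ max κ C0 * z := by
        apply max_le
        · exact huz.trans (mul_le_mul_of_nonneg_right (le_max_left _ _) hz0.le)
        · exact (mul_le_mul_of_nonneg_left hxz hC00.le).trans (mul_le_mul_of_nonneg_right (le_max_right _ _) hz0.le)
      have h2 : r k u ≤ C' * z := by
        calc r k u ≤ Ch * max u (C0 * x k) := hrle
          _ ≤ Ch * (max κ C0 * z) := mul_le_mul_of_nonneg_left h1 hCh0.le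
          _ = C' * z := by rw [hC']; ring
      have h3 : lam k ≤ ε / (2 * C') * z ^ 2 := by
        have h4 : lam k ≤ ε / (2 * C') * x k ^ 2 := (le_abs_self _).trans n3
        exact h4.trans (mul_le_mul_of_nonneg_left (pow_le_pow_left₀ hx.le hxz 2) (by positivity))
      calc (D k).P.e (lam k) (r k u) * r k u ≤ (ε / (2 * C') * z ^ 2) * (C' * z) :=
            mul_le_mul (hel.trans h3) h2 hr0 (by positivity)
        _ = ε / 2 * z ^ 3 := by field_simp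
    · have h1 : max u (C0 * x k) ≤ max κ C0 * x k := by
        apply max_le
        · exact huz.trans ((mul_le_mul_of_nonneg_left hxz hκ0.le).trans (mul_le_mul_of_nonneg_right (le_max_left _ _) hx.le))
        · exact mul_le_mul_of_nonneg_right (le_max_right _ _) hx.le
      have h2 : r k u ≤ C' * x k := by
        calc r k u ≤ Ch * max u (C0 * x k) := hrle
          _ ≤ Ch * (max κ C0 * x k) := mul_le_mul_of_nonneg_left h1 hCh0.le
          _ = C' * x k := by rw [hC']; ring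
      have h3 : r k u * (D k).P.e (lam k) (r k u) ≤ C' * x k * (D k).P.e (lam k) (C' * x k) :=
        cm_re_mono (P := (D k).P) hok.d0 hl.1.le (mem_Ici.2 hr0) (mem_Ici.2 (by positivity)) h2
      have h4 : (D k).P.e (lam k) (C' * x k) ≤ (D k).P.e (lam k) (x k) :=
        cm_e_anti (P := (D k).P) hok.d0 hl.1.le (by nlinarith)
      have h5 : (D k).P.e (lam k) (x k) * x k ≤ ε / (2 * C' * κ ^ 3) * a' ^ 3 := (le_abs_self _).trans n1
      have h6 : a' ^ 3 ≤ (κ * z) ^ 3 := pow_le_pow_left₀ ha'0.le ha'z 3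
      calc (D k).P.e (lam k) (r k u) * r k u = r k u * (D k).P.e (lam k) (r k u) := mul_comm _ _
        _ ≤ C' * x k * (D k).P.e (lam k) (C' * x k) := h3
        _ ≤ C' * x k * (D k).P.e (lam k) (x k) := mul_le_mul_of_nonneg_left h4 (by positivity)
        _ = C' * ((D k).P.e (lam k) (x k) * x k) := by ring
        _ ≤ C' * (ε / (2 * C' * κ ^ 3) * (κ * z) ^ 3) :=
            mul_le_mul_of_nonneg_left (h5.trans (mul_le_mul_of_nonneg_left h6 (by positivity))) hC'0.le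
        _ = ε / 2 * z ^ 3 := by field_simp
  constructor
  · have e1 : (D k).Pb (lam k) (r k) u = (D k).b0 u - (D k).P.e (lam k) (r k u) := by
      unfold P6D.Pb; rw [if_pos hu0u.le]
    rw [e1]
    have : |(D k).b0 u - (D k).P.e (lam k) (r k u) - (D k).T| ≤ |(D k).b0 u - (D k).T| + (D k).P.e (lam k) (r k u) := by
      have e2 : (D k).b0 u - (D k).P.e (lam k) (r k u) - (D k).T = ((D k).b0 u - (D k).T) - (D k).P.e (lam k) (r k u) := by ring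
      rw [e2]
      calc _ ≤ |(D k).b0 u - (D k).T| + |(D k).P.e (lam k) (r k u)| := abs_sub _ _
        _ = _ := by rw [abs_of_nonneg he0]
    linarith
  · have e1 : (D k).Ph (lam k) (r k) u = (D k).h0 u + (D k).P.e (lam k) (r k u) * r k u := by
      unfold P6D.Ph; rw [if_pos hu0u.le]
    rw [e1]
    have : |(D k).h0 u + (D k).P.e (lam k) (r k u) * r k u| ≤ |(D k).h0 u| + (D k).P.e (lam k) (r k u) * r k u := by
      calc _ ≤ |(D k).h0 u| + |(D k).P.e (lam k) (r k u) * r k u| := abs_add_le _ _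
        _ = _ := by rw [abs_of_nonneg (mul_nonneg he0 hr0)]
    linarith

/-- **C1 = PE Lemma 6.2**   TEX[PE:reg:child-data] (with `p6_child_grow`, `p6_child_a`): the child data satisfy all the sequence hypotheses, with the same constants -/
theorem p6_child_seq (hk : P6K c cl Ch C0 c0 β) (h : P6Wk fn U c D lam x r cl Ch C0 β j0) :
    P6Seq U c (p6Child c0 D lam x r j0) := by
  have hc := hk.ok
  refine ⟨h.seq.n_top, h.seq.m_eq, p6_child_ok hk h, h.seq.T_lim, ?_, ?_, p6_child_ep4 hk h, h.clkP, ?_⟩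
  · filter_upwards [h.seq.T_lim.eventually_const_lt (show c0 ^ 2 + c.ρ < c.Tinf by linarith [hk.c0_T]), h.x_rng,
      p6_par_x_pos hc h.toP6Par] with k hT hx hx0
    show (c0 * x k) ^ 2 ≤ (D k).T - c.ρ
    have h1 : (c0 * x k) ^ 2 ≤ c0 ^ 2 := by
      rw [mul_pow]
      have : x k ^ 2 ≤ 1 := by nlinarith [hx.2]
      nlinarith [sq_nonneg c0]
    linarith
  · refine aq_o_of_le fun ε hε => ?_
    filter_upwards [aq_o_bound h.seq.u0_small ((p6_seq_a_pos hc h.seq).mono fun k hk => hk.le) hε, h.j0_rng,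
      p6_child_a hk h] with k h1 h2 h3
    show |j0 k| ≤ _
    rw [abs_of_nonneg h2.1]
    calc j0 k ≤ (D k).P.u0 := h2.2
      _ ≤ ε * (D k).P.a := (le_abs_self _).trans h1
      _ ≤ _ := mul_le_mul_of_nonneg_left h3 hε.le
  · filter_upwards [h.fam, h.min, h.j0_rng] with k hf hm hj
    have hadm := hf _ hm.1
    have hsub : Icc (j0 k) 1 ⊆ Icc (0:ℝ) 1 := Icc_subset_Icc_left hj.1
    exact ⟨hadm.1.1.mono hsub, hadm.2.1.mono hsub⟩

/-- the child is eventually an ordinary family (C3 along the sequence) -/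
theorem p6_child_ord_ev (hk : P6K c cl Ch C0 c0 β) (h : P6Wk fn U c D lam x r cl Ch C0 β j0) :
    ∀ᶠ k in U, (p6Child c0 D lam x r j0 k).Ord := by
  have hc := hk.ok
  filter_upwards [p6_child_ok hk h, h.fam, h.min, h.x_rng, p6_par_x_pos hc h.toP6Par, h.marg] with k hok hf hm hx hx0 hmg
  exact p6_child_ord hc.cE_pos hok (hf _ hm.1) hx0 hx.2 hk.c0_pos hk.c0_β hmg

end Claimed.Agent.R286

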