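import Claimed.Agent.R286.Pe6.Imports
import Claimed.Agent.R286.Pe6.Basic

/-! # Row 286, PE Sec. 6: file `Pe6/Move` = the closed files Move, Gain merged (file cap, helper14 04:2xZ); every part keeps its own header, owners and namespace block. -/

/-!
# Row 286, PE Lemma 6.3 (movement using admissible paths), FIXED size      OWNER (prover): helper264 (PROVED, 0 sorry).   architect helper14

`P6Mv` = the fixed-size setting of Lemmas 6.3, 6.4: parent `D` at the strength `lam` with minimiser `r`; child `D'` (bare endpoint = changed parent path, working interval `[D'.P.u0,1] ⊇ [D.P.u0,1]`)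
at the strength `lam'` with a feasible `z` whose error is `≤ er`.      Write `e = D.P.e lam (r u)`, `ê = D.P.e lam (rh u)`, `𝒟 = D'.P.e lam' (z u)`.

PROOF of `p6_move`.   `Q = (D'.Pb lam' z, D'.Ph lam' z)`, `P̂ = (D.Pb lam rh, D.Ph lam rh)` (admissible by `fam`).   `a = P̂_b - Q_b`, `c = Q_h - P̂_h`:
   `u < u0'`: `a = c = 0`;     `u0' ≤ u < u0`: `a = 𝒟`, `c = 𝒟 z`;      `u0 ≤ u ≤ 1`: `a = e + 𝒟 - ê`, `c = e r + 𝒟 z - ê r̂`.
 * `a ≥ 0`, `a = 0 → c = 0` (`p6_move_a_pos` at moved points with `ê (1-ω) ≤ e` from `p6_move_ehat`; at unmoved points `a = 𝒟 > 0`);   `c²/a ≤ a ≤ lam + lam'` (`p6_move_ratio`), measurable: integrable.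
 * chord (`P6Chord`): `fn P̂ ≤ fn Q + ¼ ∫₀¹ c²/a`;    minimality: `obj r ≤ obj rh`;    `succ`: `fn Q + ¼∫_{u0'}^1 𝒟 z² ≤ fn (P_r) + er`.
 * sum:  `∫₀¹ [e r² 1_I + 𝒟 z² 1_J - ê r̂² 1_I - c²/a] ≤ 4 er`;   the integrand is `0` on `[0,u0)` and `≥ e (r̂ - r)(z - r)` on `I` (`p6_move_key`; equality `0 = 0` at unmoved points).
-/

set_option autoImplicit false

namespace Claimed.Agent.R286

open Filter Topology Set MeasureTheory




theorem p6_cl_mem {q u : ℝ} (hq : q ≤ 1) : max q (min u 1) ∈ Icc q 1 :=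
  ⟨le_max_left _ _, max_le hq (min_le_right _ _)⟩

theorem p6_cl_eq {q u : ℝ} (h1 : q ≤ u) (h2 : u ≤ 1) : max q (min u 1) = u := by
  rw [min_eq_left h2, max_eq_right h1]

theorem p6_cl_eq' {q u : ℝ} (hq : q ≤ 1) (h1 : q ≤ u) : max q (min u 1) = min u 1 :=
  max_eq_right (le_min h1 hq)

theorem p6_cl_mono {w : ℝ → ℝ} {q : ℝ} (hq : q ≤ 1) (hw : MonotoneOn w (Icc q 1)) :
    Monotone (fun u => w (max q (min u 1))) := by
  intro u v huv
  exact hw (p6_cl_mem hq) (p6_cl_mem hq) (max_le_max le_rfl (min_le_min huv le_rfl))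

theorem p6_ite_integral (F : ℝ → ℝ) {p : ℝ} (h0 : 0 ≤ p) (h1 : p ≤ 1) :
    ∫ u in (0:ℝ)..1, (if p ≤ u then F u else 0) = ∫ u in p..1, F u := by
  rw [intervalIntegral.integral_of_le zero_le_one, intervalIntegral.integral_of_le h1]
  have e : (fun u => if p ≤ u then F u else 0) = (Ici p).indicator F := by
    funext u; simp [indicator, mem_Ici]
  rw [e, setIntegral_indicator measurableSet_Ici]
  apply setIntegral_congr_set
  have h2 : (Ioc (0:ℝ) 1 ∩ Ici p : Set ℝ) =ᵐ[volume] (Ioc 0 1 ∩ Ioi p : Set ℝ) :=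
    (ae_eq_refl _).inter Ioi_ae_eq_Ici.symm
  refine h2.trans ?_
  have : (Ioc (0:ℝ) 1 ∩ Ioi p : Set ℝ) = Ioc p 1 := by
    ext x; simp only [mem_inter_iff, mem_Ioc, mem_Ioi]
    constructor
    · rintro ⟨⟨_, b⟩, c⟩; exact ⟨c, b⟩
    · rintro ⟨a, b⟩; exact ⟨⟨lt_of_le_of_lt h0 a, b⟩, a⟩
  rw [this]
  exact ae_eq_refl _

theorem p6_bdd_intervalIntegrable {g : ℝ → ℝ} {C : ℝ} (hg : Measurable g) (hb : ∀ u, |g u| ≤ C)
    (a b : ℝ) : IntervalIntegrable g volume a b := by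
  refine (intervalIntegrable_const (c := C)).mono_fun' hg.aestronglyMeasurable ?_
  exact Filter.Eventually.of_forall (fun u => by simpa [Real.norm_eq_abs] using hb u)



theorem p6_bdd_ii01 {g : ℝ → ℝ} {C : ℝ} (hg : Measurable g) (hb : ∀ u ∈ Icc (0:ℝ) 1, |g u| ≤ C) :
    IntervalIntegrable g volume 0 1 := by
  rw [intervalIntegrable_iff_integrableOn_Ioc_of_le zero_le_one]
  refine Measure.integrableOn_of_bounded (M := C) (by simp) hg.aestronglyMeasurable ?_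
  refine (ae_restrict_iff' measurableSet_Ioc).2 (Filter.Eventually.of_forall fun u hu => ?_)
  simpa [Real.norm_eq_abs] using hb u ⟨hu.1.le, hu.2⟩

/-- measurability of the strength along a clamped monotone radius. -/
theorem p6_e_cl_meas (P : CmCall) {lam q : ℝ} {w : ℝ → ℝ} (hd : 0 < P.d)
    (hlam : 0 < lam) (hq : q ≤ 1) (hw : MonotoneOn w (Icc q 1)) :
    Measurable (fun u => P.e lam (w (max q (min u 1)))) := by
  have : Antitone (fun u => P.e lam (w (max q (min u 1)))) := by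
    intro u v huv
    exact cm_e_anti (P := P) hd hlam.le (p6_cl_mono hq hw huv)
  exact this.measurable

/-- the pointwise inequality of Lemma 6.3 in both cases (unmoved / moved). -/
theorem p6_move_pt {e D eh r z rh : ℝ} (he : 0 < e) (hD : 0 < D) (heh : 0 ≤ eh)
    (hz0 : 0 ≤ z) (hz1 : z ≤ 1) (hr0 : 0 ≤ rh) (hr1 : rh ≤ 1)
    (h : (rh = r ∧ eh = e) ∨ ∃ ω, ω * (e + D) < D ∧ eh * (1 - ω) ≤ e ∧ rh = r + ω * (z - r)) :
    0 < e + D - eh ∧ 0 ≤ (e * r + D * z - eh * rh) ^ 2 / (e + D - eh) ∧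
    (e * r + D * z - eh * rh) ^ 2 / (e + D - eh) ≤ e + D ∧
    e * (rh - r) * (z - r) ≤ e * r ^ 2 + D * z ^ 2 - eh * rh ^ 2
      - (e * r + D * z - eh * rh) ^ 2 / (e + D - eh) := by
  rcases h with ⟨h1, h2⟩ | ⟨ω, hP, hE, h1⟩
  · subst h1 h2
    have e1 : eh + D - eh = D := by ring
    have e2 : eh * rh + D * z - eh * rh = D * z := by ring
    have e3 : (D * z) ^ 2 / D = D * z ^ 2 := by field_simp
    rw [e1, e2, e3]
    refine ⟨hD, by positivity, ?_, ?_⟩
    · nlinarith [mul_nonneg hD.le hz0, mul_nonneg hD.le (sub_nonneg.2 hz1)]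
    · simp
  · subst h1
    have ha := p6_move_a_pos he hD hP hE
    have hr := p6_move_ratio he hD hP hE hz0 hz1 hr0 hr1
    have hk := p6_move_key (r := r) (z := z) he hD hP hE
    refine ⟨ha, hr.1, by linarith [hr.2], ?_⟩
    have : e * (r + ω * (z - r) - r) * (z - r) = e * ω * (z - r) ^ 2 := by ring
    rw [this]; exact hk



/-- monotonicity and range of a feasible quantile -/
theorem p6_fe_rng {P : CmCall} {cE D0 : ℝ} {w : ℝ → ℝ} (hc : 0 < cE) (h : P.Ok cE D0) (hw : P.Fe w) :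
    MonotoneOn w (Icc P.u0 1) ∧ ∀ u ∈ Icc P.u0 1, 0 ≤ w u ∧ w u ≤ 1 := by
  obtain ⟨q, rfl⟩ := hw
  exact ⟨(cm_q_r_strictMono hc h q).monotoneOn, fun u hu => ⟨h.r0.trans (q.r_mem u hu).1, (q.r_mem u hu).2⟩⟩

/-- **Lemma 6.3, class-free core**: of the three quantiles only monotonicity and the range `[0,1]` are used. -/
theorem p6_move_core {fn : ℕ → (ℝ → ℝ) → (ℝ → ℝ) → ℝ} (hch : P6Chord fn) (D D' : P6D) {lam lam' err : ℝ} {r z rh : ℝ → ℝ}
    (hn0 : 0 < D.P.n) (hn : D'.P.n = D.P.n) (hb : D'.b0 = D.Pb lam r) (hh : D'.h0 = D.Ph lam r)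
    (hu0 : 0 ≤ D'.P.u0) (hu1 : D'.P.u0 ≤ D.P.u0) (hp1 : D.P.u0 ≤ 1)
    (hd : 0 < D.P.d) (hd' : 0 < D'.P.d) (hlam : 0 < lam) (hlam' : 0 < lam')
    (hrM : MonotoneOn r (Icc D.P.u0 1)) (hrR : ∀ u ∈ Icc D.P.u0 1, 0 ≤ r u ∧ r u ≤ 1)
    (hhM : MonotoneOn rh (Icc D.P.u0 1)) (hhR : ∀ u ∈ Icc D.P.u0 1, 0 ≤ rh u ∧ rh u ≤ 1)
    (hzM : MonotoneOn z (Icc D'.P.u0 1)) (hzR : ∀ u ∈ Icc D'.P.u0 1, 0 ≤ z u ∧ z u ≤ 1)
    (hM : D.obj fn lam r ≤ D.obj fn lam rh)
    (hadm : P6Adm (D.Pb lam rh) (D.Ph lam rh)) (hQ : P6Adm (D'.Pb lam' z) (D'.Ph lam' z))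
    (hsucc : D'.err fn lam' z ≤ err)
    (hmov : ∀ u ∈ Icc D.P.u0 1, rh u = r u ∨ ∃ ω, 0 ≤ ω ∧
      ω * (D.P.e lam (r u) + D'.P.e lam' (z u)) < D'.P.e lam' (z u) ∧ rh u = r u + ω * (z u - r u)) :
    ∫ u in D.P.u0..1, D.P.e lam (r u) * (rh u - r u) * (z u - r u) ≤ 4 * err := by
  have hp'1 : D'.P.u0 ≤ 1 := hu1.trans hp1
  have hp0 : 0 ≤ D.P.u0 := hu0.trans hu1
  -- clamped extensions
  set rt : ℝ → ℝ := fun u => r (max D.P.u0 (min u 1)) with hrt
  set ht : ℝ → ℝ := fun u => rh (max D.P.u0 (min u 1)) with hht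
  set zt : ℝ → ℝ := fun u => z (max D'.P.u0 (min u 1)) with hzt
  have rt_eq : ∀ u, D.P.u0 ≤ u → u ≤ 1 → rt u = r u := fun u h1 h2 => by
    simp only [hrt]; rw [p6_cl_eq h1 h2]
  have ht_eq : ∀ u, D.P.u0 ≤ u → u ≤ 1 → ht u = rh u := fun u h1 h2 => by
    simp only [hht]; rw [p6_cl_eq h1 h2]
  have zt_eq : ∀ u, D'.P.u0 ≤ u → u ≤ 1 → zt u = z u := fun u h1 h2 => by
    simp only [hzt]; rw [p6_cl_eq h1 h2]
  have rt_m : Measurable rt := (p6_cl_mono hp1 hrM).measurable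
  have ht_m : Measurable ht := (p6_cl_mono hp1 hhM).measurable
  have zt_m : Measurable zt := (p6_cl_mono hp'1 hzM).measurable
  have rt_R : ∀ u, 0 ≤ rt u ∧ rt u ≤ 1 := fun u => hrR _ (p6_cl_mem hp1)
  have ht_R : ∀ u, 0 ≤ ht u ∧ ht u ≤ 1 := fun u => hhR _ (p6_cl_mem hp1)
  have zt_R : ∀ u, 0 ≤ zt u ∧ zt u ≤ 1 := fun u => hzR _ (p6_cl_mem hp'1)
  set e1 : ℝ → ℝ := fun u => D.P.e lam (rt u) with he1
  set eh : ℝ → ℝ := fun u => D.P.e lam (ht u) with heh
  set ez : ℝ → ℝ := fun u => D'.P.e lam' (zt u) with hez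
  have e1_m : Measurable e1 := p6_e_cl_meas D.P hd hlam hp1 hrM
  have eh_m : Measurable eh := p6_e_cl_meas D.P hd hlam hp1 hhM
  have ez_m : Measurable ez := p6_e_cl_meas D'.P hd' hlam' hp'1 hzM
  have e1_R : ∀ u, 0 < e1 u ∧ e1 u ≤ lam := fun u => ⟨cm_e_pos _ hlam _, cm_e_le _ hlam.le _⟩
  have eh_R : ∀ u, 0 < eh u ∧ eh u ≤ lam := fun u => ⟨cm_e_pos _ hlam _, cm_e_le _ hlam.le _⟩
  have ez_R : ∀ u, 0 < ez u ∧ ez u ≤ lam' := fun u => ⟨cm_e_pos _ hlam' _, cm_e_le _ hlam'.le _⟩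
  -- the increments
  set a : ℝ → ℝ := fun u => (if D.P.u0 ≤ u then e1 u else 0) + (if D'.P.u0 ≤ u then ez u else 0)
    - (if D.P.u0 ≤ u then eh u else 0) with ha
  set c : ℝ → ℝ := fun u => (if D.P.u0 ≤ u then e1 u * rt u else 0)
    + (if D'.P.u0 ≤ u then ez u * zt u else 0) - (if D.P.u0 ≤ u then eh u * ht u else 0) with hc
  set G1 : ℝ → ℝ := fun u => if D.P.u0 ≤ u then e1 u * rt u ^ 2 else 0 with hG1
  set G2 : ℝ → ℝ := fun u => if D'.P.u0 ≤ u then ez u * zt u ^ 2 else 0 with hG2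
  set G3 : ℝ → ℝ := fun u => if D.P.u0 ≤ u then eh u * ht u ^ 2 else 0 with hG3
  set G4 : ℝ → ℝ := fun u => c u ^ 2 / a u with hG4
  set Ψ : ℝ → ℝ := fun u => if D.P.u0 ≤ u then e1 u * (ht u - rt u) * (zt u - rt u) else 0 with hΨ
  have a_m : Measurable a :=
    ((Measurable.ite measurableSet_Ici e1_m measurable_const).add
      (Measurable.ite measurableSet_Ici ez_m measurable_const)).sub
      (Measurable.ite measurableSet_Ici eh_m measurable_const)
  have c_m : Measurable c :=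
    ((Measurable.ite measurableSet_Ici (e1_m.mul rt_m) measurable_const).add
      (Measurable.ite measurableSet_Ici (ez_m.mul zt_m) measurable_const)).sub
      (Measurable.ite measurableSet_Ici (eh_m.mul ht_m) measurable_const)
  have G1_m : Measurable G1 := Measurable.ite measurableSet_Ici (e1_m.mul (rt_m.pow_const 2)) measurable_const
  have G2_m : Measurable G2 := Measurable.ite measurableSet_Ici (ez_m.mul (zt_m.pow_const 2)) measurable_const
  have G3_m : Measurable G3 := Measurable.ite measurableSet_Ici (eh_m.mul (ht_m.pow_const 2)) measurable_const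
  have G4_m : Measurable G4 := (c_m.pow_const 2).div a_m
  have Ψ_m : Measurable Ψ := Measurable.ite measurableSet_Ici
    ((e1_m.mul (ht_m.sub rt_m)).mul (zt_m.sub rt_m)) measurable_const
  -- the pointwise statement
  have key : ∀ u ∈ Icc (0:ℝ) 1, 0 ≤ a u ∧ (a u = 0 → c u = 0) ∧ 0 ≤ G4 u ∧ G4 u ≤ lam + lam' ∧
      Ψ u ≤ G1 u + G2 u - G3 u - G4 u := by
    intro u hu
    by_cases h1 : D.P.u0 ≤ u
    · have h2 : D'.P.u0 ≤ u := hu1.trans h1
      have hmv : (ht u = rt u ∧ eh u = e1 u) ∨ ∃ ω, ω * (e1 u + ez u) < ez u ∧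
          eh u * (1 - ω) ≤ e1 u ∧ ht u = rt u + ω * (zt u - rt u) := by
        rcases hmov u ⟨h1, hu.2⟩ with h | ⟨ω, hω0, hω, h⟩
        · left
          have : ht u = rt u := by rw [ht_eq u h1 hu.2, rt_eq u h1 hu.2, h]
          exact ⟨this, by simp only [heh, he1]; rw [this]⟩
        · right
          rw [← rt_eq u h1 hu.2, ← zt_eq u h2 hu.2, ← ht_eq u h1 hu.2] at *
          refine ⟨ω, hω, ?_, h⟩
          have hω1 : ω ≤ 1 := by
            by_contra hcon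
            have h' : 1 < ω := not_le.1 hcon
            have := (e1_R u).1
            have := (ez_R u).1
            simp only [he1, hez] at *
            nlinarith
          have := p6_move_ehat (ev := D.P.e lam) ((cm_e_anti (P := D.P) hd hlam.le).antitoneOn _)
            (cm_re_mono (P := D.P) hd hlam.le)
            (fun t _ => cm_e_nonneg _ hlam.le t) (rt_R u).1 (zt_R u).1 hω0 hω1
          simp only [heh, he1]
          rw [h]; exact this
      obtain ⟨q1, q2, q3, q4⟩ := p6_move_pt (e1_R u).1 (ez_R u).1 (eh_R u).1.le (zt_R u).1 (zt_R u).2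
        (ht_R u).1 (ht_R u).2 hmv
      have ea : a u = e1 u + ez u - eh u := by simp only [ha, if_pos h1, if_pos h2]
      have ec : c u = e1 u * rt u + ez u * zt u - eh u * ht u := by simp only [hc, if_pos h1, if_pos h2]
      have e4 : G4 u = (e1 u * rt u + ez u * zt u - eh u * ht u) ^ 2 / (e1 u + ez u - eh u) := by
        simp only [hG4]; rw [ea, ec]
      refine ⟨by rw [ea]; exact q1.le, fun h0 => absurd h0 (by rw [ea]; exact q1.ne'), by rw [e4]; exact q2,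
        ?_, ?_⟩
      · rw [e4]; linarith [(e1_R u).2, (ez_R u).2]
      · rw [e4]; simp only [hΨ, hG1, hG2, hG3, if_pos h1, if_pos h2]; exact q4
    · by_cases h2 : D'.P.u0 ≤ u
      · have ea : a u = ez u := by simp only [ha, if_neg h1, if_pos h2]; ring
        have ec : c u = ez u * zt u := by simp only [hc, if_neg h1, if_pos h2]; ring
        have hpos := (ez_R u).1
        have e4 : G4 u = ez u * zt u ^ 2 := by
          simp only [hG4]; rw [ea, ec]; field_simp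
        refine ⟨by rw [ea]; exact hpos.le, fun h0 => absurd h0 (by rw [ea]; exact hpos.ne'), ?_, ?_, ?_⟩
        · rw [e4]; exact mul_nonneg hpos.le (sq_nonneg _)
        · rw [e4]
          have := (zt_R u)
          have := (ez_R u).2
          nlinarith [mul_nonneg hpos.le (zt_R u).1, mul_nonneg hpos.le (sub_nonneg.2 (zt_R u).2)]
        · rw [e4]; simp only [hΨ, hG1, hG2, hG3, if_neg h1, if_pos h2]; linarith
      · have ea : a u = 0 := by simp only [ha, if_neg h1, if_neg h2]; ring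
        have ec : c u = 0 := by simp only [hc, if_neg h1, if_neg h2]; ring
        have e4 : G4 u = 0 := by simp only [hG4]; rw [ea, ec]; simp
        refine ⟨ea.ge, fun _ => ec, e4.ge, by rw [e4]; positivity, ?_⟩
        rw [e4]; simp only [hΨ, hG1, hG2, hG3, if_neg h1, if_neg h2]; linarith
  -- integrability
  have bd : ∀ (e x L : ℝ), 0 < e → e ≤ L → 0 ≤ x → x ≤ 1 → |e * x ^ 2| ≤ L := by
    intro e x L h1 h2 h3 h4
    rw [abs_of_nonneg (by positivity)]
    have : x ^ 2 ≤ 1 := by nlinarith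
    nlinarith
  have bite : ∀ (P : Prop) [Decidable P] (A L : ℝ), 0 ≤ L → |A| ≤ L → |if P then A else 0| ≤ L := by
    intro P _ A L h1 h2
    split_ifs
    · exact h2
    · simpa using h1
  have G1_i : IntervalIntegrable G1 volume 0 1 := p6_bdd_ii01 (C := lam) G1_m
    (fun u _ => bite _ _ _ hlam.le (bd _ _ _ (e1_R u).1 (e1_R u).2 (rt_R u).1 (rt_R u).2))
  have G2_i : IntervalIntegrable G2 volume 0 1 := p6_bdd_ii01 (C := lam') G2_m
    (fun u _ => bite _ _ _ hlam'.le (bd _ _ _ (ez_R u).1 (ez_R u).2 (zt_R u).1 (zt_R u).2))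
  have G3_i : IntervalIntegrable G3 volume 0 1 := p6_bdd_ii01 (C := lam) G3_m
    (fun u _ => bite _ _ _ hlam.le (bd _ _ _ (eh_R u).1 (eh_R u).2 (ht_R u).1 (ht_R u).2))
  have G4_i : IntervalIntegrable G4 volume 0 1 := p6_bdd_ii01 (C := lam + lam') G4_m
    (fun u hu => by rw [abs_of_nonneg (key u hu).2.2.1]; exact (key u hu).2.2.2.1)
  have Ψ_i : IntervalIntegrable Ψ volume 0 1 := p6_bdd_ii01 (C := lam) Ψ_m
    (fun u _ => bite _ _ _ hlam.le (by
      rw [abs_mul, abs_mul, abs_of_pos (e1_R u).1]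
      have h1 : |ht u - rt u| ≤ 1 := abs_le.2 ⟨by linarith [(ht_R u).1, (rt_R u).2], by linarith [(ht_R u).2, (rt_R u).1]⟩
      have h2 : |zt u - rt u| ≤ 1 := abs_le.2 ⟨by linarith [(zt_R u).1, (rt_R u).2], by linarith [(zt_R u).2, (rt_R u).1]⟩
      have h3 : |ht u - rt u| * |zt u - rt u| ≤ 1 := by
        nlinarith [abs_nonneg (ht u - rt u), abs_nonneg (zt u - rt u)]
      have h4 : 0 ≤ |ht u - rt u| * |zt u - rt u| := by positivity
      have := (e1_R u)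
      nlinarith))
  have hI : ∫ u in (0:ℝ)..1, Ψ u ≤ ∫ u in (0:ℝ)..1, (G1 u + G2 u - G3 u - G4 u) :=
    intervalIntegral.integral_mono_on zero_le_one Ψ_i (((G1_i.add G2_i).sub G3_i).sub G4_i)
      (fun u hu => (key u hu).2.2.2.2)
  have hsplit : ∫ u in (0:ℝ)..1, (G1 u + G2 u - G3 u - G4 u)
      = (∫ u in (0:ℝ)..1, G1 u) + (∫ u in (0:ℝ)..1, G2 u) - (∫ u in (0:ℝ)..1, G3 u)
        - ∫ u in (0:ℝ)..1, G4 u := by
    rw [intervalIntegral.integral_sub ((G1_i.add G2_i).sub G3_i) G4_i,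
      intervalIntegral.integral_sub (G1_i.add G2_i) G3_i, intervalIntegral.integral_add G1_i G2_i]
  have I1 : ∫ u in (0:ℝ)..1, G1 u = 4 * D.pen lam r := by
    simp only [hG1]
    rw [p6_ite_integral _ hp0 hp1]
    unfold P6D.pen
    rw [intervalIntegral.integral_congr (g := fun u => D.P.e lam (r u) * r u ^ 2) ?_]
    · ring
    · intro u hu
      rw [uIcc_of_le hp1] at hu
      simp only [he1]; rw [rt_eq u hu.1 hu.2]
  have I3 : ∫ u in (0:ℝ)..1, G3 u = 4 * D.pen lam rh := by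
    simp only [hG3]
    rw [p6_ite_integral _ hp0 hp1]
    unfold P6D.pen
    rw [intervalIntegral.integral_congr (g := fun u => D.P.e lam (rh u) * rh u ^ 2) ?_]
    · ring
    · intro u hu
      rw [uIcc_of_le hp1] at hu
      simp only [heh]; rw [ht_eq u hu.1 hu.2]
  have I2 : ∫ u in (0:ℝ)..1, G2 u = 4 * D'.pen lam' z := by
    simp only [hG2]
    rw [p6_ite_integral _ hu0 hp'1]
    unfold P6D.pen
    rw [intervalIntegral.integral_congr (g := fun u => D'.P.e lam' (z u) * z u ^ 2) ?_]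
    · ring
    · intro u hu
      rw [uIcc_of_le hp'1] at hu
      simp only [hez]; rw [zt_eq u hu.1 hu.2]
  have IΨ : ∫ u in (0:ℝ)..1, Ψ u = ∫ u in D.P.u0..1, D.P.e lam (r u) * (rh u - r u) * (z u - r u) := by
    simp only [hΨ]
    rw [p6_ite_integral _ hp0 hp1]
    apply intervalIntegral.integral_congr
    intro u hu
    rw [uIcc_of_le hp1] at hu
    simp only [he1]; rw [rt_eq u hu.1 hu.2, ht_eq u hu.1 hu.2, zt_eq u (hu1.trans hu.1) hu.2]
  -- the chord
  have hC := hch D.P.n (D'.Pb lam' z) (D'.Ph lam' z) (D.Pb lam rh) (D.Ph lam rh) a c hn0 hQ hadm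
    (by
      intro u hu
      have hu1' : u ≤ 1 := hu.2
      unfold P6D.Pb P6D.Ph
      rw [hb, hh]
      unfold P6D.Pb P6D.Ph
      by_cases h1 : D.P.u0 ≤ u
      · have h2 : D'.P.u0 ≤ u := hu1.trans h1
        simp only [ha, hc, he1, heh, hez, if_pos h1, if_pos h2]
        rw [rt_eq u h1 hu1', ht_eq u h1 hu1', zt_eq u h2 hu1']
        constructor <;> ring
      · by_cases h2 : D'.P.u0 ≤ u
        · simp only [ha, hc, he1, heh, hez, if_neg h1, if_pos h2]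
          rw [zt_eq u h2 hu1']
          constructor <;> ring
        · simp only [ha, hc, if_neg h1, if_neg h2]
          constructor <;> ring)
    (fun u hu => ⟨(key u hu).1, (key u hu).2.1⟩) G4_i
  unfold P6D.err at hsucc
  unfold P6D.obj at hM hsucc
  rw [hn, hb, hh] at hsucc
  rw [← IΨ]
  have hG4' : ∫ u in (0:ℝ)..1, c u ^ 2 / a u = ∫ u in (0:ℝ)..1, G4 u := rfl
  rw [hG4'] at hC
  linarith

/-- the fixed-size setting of PE Lemmas 6.3, 6.4 -/
structure P6Mv (fn : ℕ → (ℝ → ℝ) → (ℝ → ℝ) → ℝ) (cE D0 : ℝ) (D D' : P6D) (lam lam' er : ℝ) (r z : ℝ → ℝ) : Prop where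
  chord : P6Chord fn
  cE_pos : 0 < cE
  ok : D.P.Ok cE D0
  ok' : D'.P.Ok cE D0
  n_eq : D'.P.n = D.P.n
  b_eq : D'.b0 = D.Pb lam r
  h_eq : D'.h0 = D.Ph lam r
  u_le : D'.P.u0 ≤ D.P.u0
  lam_pos : 0 < lam
  lam_pos' : 0 < lam'
  min : D.IsMin fn lam r
  fam : D.Fam lam
  fe' : D'.P.Fe z
  admQ : P6Adm (D'.Pb lam' z) (D'.Ph lam' z)
  succ : D'.err fn lam' z ≤ er

/-- **PE Lemma 6.3**   TEX[PE:reg:admissible-movement] -/
theorem p6_move {fn : ℕ → (ℝ → ℝ) → (ℝ → ℝ) → ℝ} {cE D0 : ℝ} {D D' : P6D} {lam lam' er : ℝ} {r z rh : ℝ → ℝ}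
    (h : P6Mv fn cE D0 D D' lam lam' er r z) (hrh : D.P.Fe rh)
    (hmov : ∀ u ∈ Icc D.P.u0 1, rh u = r u ∨ ∃ ω, 0 ≤ ω ∧ ω * (D.P.e lam (r u) + D'.P.e lam' (z u)) < D'.P.e lam' (z u) ∧ rh u = r u + ω * (z u - r u)) :
    ∫ u in D.P.u0..1, D.P.e lam (r u) * (rh u - r u) * (z u - r u) ≤ 4 * er := by
  obtain ⟨hrM, hrR⟩ := p6_fe_rng h.cE_pos h.ok h.min.1
  obtain ⟨hhM, hhR⟩ := p6_fe_rng h.cE_pos h.ok hrh
  obtain ⟨hzM, hzR⟩ := p6_fe_rng h.cE_pos h.ok' h.fe'
  exact p6_move_core h.chord D D' (lt_of_lt_of_le (by norm_num) h.ok.n3) h.n_eq h.b_eq h.h_eq h.ok'.u00 h.u_le (h.ok.u01.trans (by norm_num)) h.ok.d0 h.ok'.d0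
    h.lam_pos h.lam_pos' hrM hrR hhM hhR hzM hzR (h.min.2 rh hrh) (h.fam rh hrh) h.admQ h.succ hmov

end Claimed.Agent.R286

/-!
# Row 286, PE Lemmas 6.3 + 6.4 at FIXED size: the gain of a barrier movement      OWNERS: `p6_gain_up` helper241 (after BarUp), `p6_gain_dn` helper254 (after BarDn).   architect helper14

All numerical conditions are HYPOTHESES here; they are verified asymptotically in `Pe6/NoSep.lean`.      `e = D.P.e lam`, `𝒟 = D'.P.e lam'`, `Λ = D.P.Lm`, `P = D.P`.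

`p6_gain_up`: take `rh` from `p6_bar_up` (`Λ = P.Lm`, `A = P.A0`, `B = P.B0`, `σ0 = N^{-δ}`; `p6_AB2`, `p6_Lm_*`, `p6_fw_of_fe`, `p6_fe_of_fw`).
   moved point `u`: `u1 ≤ u`, `r u < top`, so `hsep`: `τ (e + 𝒟) < 𝒟 (z - r)`, hence `z - r > 0`; `ω = (rh - r)/(z - r) ≤ τ/(z - r)`.   `p6_move`.   The integrand `e (rh - r)(z - r)` is `≥ 0` on `[u0,1]` and `= e τ (z - r) ≥ τ g` on `[(u1+u2)/2, u2]`.
`p6_gain_dn`: take `rh` from `p6_bar_dn` (`A/B = N^{-δ} u_*` by `p6_AB`).   moved point: `u ≤ ur + A/B`, `H ≤ rh u ≤ r u`, `z u < H`;  `ω = (r - rh)/(r - z) ≤ t ((r+B)/(H+B)) (r-H)/(r-z) ≤ t (r+B)/(H+B)`.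
   On `[ul,ur]`: `r - rh ≥ t (r - (H + Λ 1))`.
-/

set_option autoImplicit false

namespace Claimed.Agent.R286

open Filter Topology Set MeasureTheory

variable {fn : ℕ → (ℝ → ℝ) → (ℝ → ℝ) → ℝ} {cE D0 : ℝ} {D D' : P6D} {lam lam' er : ℝ} {r z : ℝ → ℝ}

/-- integrability of the movement integrand `e(r) (rh - r) (z - r)` on the working interval -/
theorem p6_gain_ii (h : P6Mv fn cE D0 D D' lam lam' er r z) {rh : ℝ → ℝ} (hrh : P6Fw D.P rh) :
    IntervalIntegrable (fun u => D.P.e lam (r u) * (rh u - r u) * (z u - r u)) volume D.P.u0 1 := by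
  have hc := h.cE_pos
  have hok := h.ok
  have hfw : P6Fw D.P r := p6_fw_of_fe hc hok h.min.1
  have hfz : P6Fw D'.P z := p6_fw_of_fe hc h.ok' h.fe'
  have hu01 : D.P.u0 ≤ 1 := by linarith [hok.u01]
  have hsub : Icc D.P.u0 1 ⊆ Icc D'.P.u0 1 := Icc_subset_Icc h.u_le le_rfl
  have mr := hfw.aestronglyMeasurable hc hok
  have mrh := hrh.aestronglyMeasurable hc hok
  have mz : AEStronglyMeasurable z (volume.restrict (Icc D.P.u0 1)) :=
    (hfz.aestronglyMeasurable hc h.ok').mono_measure (Measure.restrict_mono hsub le_rfl)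
  have me : AEStronglyMeasurable (fun u => D.P.e lam (r u)) (volume.restrict (Icc D.P.u0 1)) :=
    (cm_e_cont (P := D.P) lam).comp_aestronglyMeasurable mr
  have mΦ : AEStronglyMeasurable (fun u => D.P.e lam (r u) * (rh u - r u) * (z u - r u)) (volume.restrict (Icc D.P.u0 1)) :=
    (me.mul (mrh.sub mr)).mul (mz.sub mr)
  rw [intervalIntegrable_iff_integrableOn_Icc_of_le hu01]
  have hfin : IsFiniteMeasure (volume.restrict (Icc D.P.u0 1)) :=
    ⟨by rw [Measure.restrict_apply_univ, Real.volume_Icc]; exact ENNReal.ofReal_lt_top⟩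
  refine Integrable.of_bound (C := lam) mΦ ?_
  refine (ae_restrict_iff' measurableSet_Icc).2 (Filter.Eventually.of_forall fun u hu => ?_)
  have a1 := hfw.mem hc hok hu
  have a2 := hrh.mem hc hok hu
  have a3 := hfz.mem hc h.ok' (hsub hu)
  have r0 := hok.r0
  have r0' := h.ok'.r0
  have e0 : 0 ≤ D.P.e lam (r u) := cm_e_nonneg D.P h.lam_pos.le _
  have e1 : D.P.e lam (r u) ≤ lam := cm_e_le D.P h.lam_pos.le _
  have b1 : |rh u - r u| ≤ 1 := by
    rw [abs_le]; constructor <;> linarith [a1.1, a1.2, a2.1, a2.2]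
  have b2 : |z u - r u| ≤ 1 := by
    rw [abs_le]; constructor <;> linarith [a1.1, a1.2, a3.1, a3.2]
  rw [Real.norm_eq_abs, abs_mul, abs_mul, abs_of_nonneg e0]
  calc D.P.e lam (r u) * |rh u - r u| * |z u - r u| ≤ lam * 1 * 1 := by
        refine mul_le_mul (mul_le_mul e1 b1 (abs_nonneg _) h.lam_pos.le) b2 (abs_nonneg _) (by linarith [h.lam_pos])
    _ = lam := by ring

/-- upward gain -/
theorem p6_gain_up (h : P6Mv fn cE D0 D D' lam lam' er r z) {u1 u2 H τ g : ℝ}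
    (h01 : D.P.u0 ≤ u1) (h12 : u1 < u2) (h21 : u2 ≤ 1) (hH : 0 < H) (hτ : 0 ≤ τ)
    (hslope : D.P.N ^ (-(3 * D.P.dl)) * (D.P.N ^ (-D.P.dl) + 2 * H / (u2 - u1)) ≤ 1)
    (htop : D.P.rmin + D.P.Lm 1 + H < 1)
    (hsep : ∀ u ∈ Icc u1 1, r u < D.P.rmin + D.P.Lm 1 + H →
      τ * (D.P.e lam (r u) + D'.P.e lam' (z u)) < D'.P.e lam' (z u) * (z u - r u))
    (hr : ∀ u ∈ Icc ((u1 + u2) / 2) u2, r u + τ ≤ H)
    (hg : ∀ u ∈ Icc ((u1 + u2) / 2) u2, g ≤ D.P.e lam (r u) * (z u - r u)) :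
    (u2 - u1) / 2 * (τ * g) ≤ 4 * er := by
  have hc := h.cE_pos
  have hok := h.ok
  have hfw : P6Fw D.P r := p6_fw_of_fe hc hok h.min.1
  have hA := p6_A0_pos hc hok
  have hB := p6_B0_pos hc hok
  have hu01 : D.P.u0 ≤ 1 := by linarith [hok.u01]
  obtain ⟨rh, q1, q2, q3, q4, q5, q6, q7⟩ := p6_bar_up (Λ := D.P.Lm) (r := r) (A := D.P.A0) (B := D.P.B0)
    (σ0 := D.P.N ^ (-D.P.dl)) (u0 := D.P.u0) (u1 := u1) (u2 := u2) (H := H) (τ := τ) hA.le hB h01 h12 h21
    (p6_Lm_mono hc hok) (p6_Lm_zero D.P) (p6_Lm_lip hc hok) hfw.lo hfw.up (by rw [hfw.left]; exact hok.r0) hfw.right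
    hH hτ (by rw [p6_AB2 hc hok]; exact hslope) (by rw [hfw.left]; exact htop)
  have hrhfw : P6Fw D.P rh := ⟨by rw [q3, hfw.left], q4, q1, q2⟩
  have hrh : D.P.Fe rh := p6_fe_of_fw hc hok hrhfw
  have hpos : ∀ u, 0 < D.P.e lam (r u) := fun u => cm_e_pos D.P h.lam_pos _
  have hpos' : ∀ u, 0 < D'.P.e lam' (z u) := fun u => cm_e_pos D'.P h.lam_pos' _
  -- facts at a moved point
  have hm : ∀ u ∈ Icc D.P.u0 1, rh u ≠ r u → 0 < z u - r u ∧
      τ * (D.P.e lam (r u) + D'.P.e lam' (z u)) < D'.P.e lam' (z u) * (z u - r u) := by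
    intro u hu hne
    obtain ⟨m1, m2⟩ := q6 u hu hne
    rw [hfw.left] at m2
    have s := hsep u ⟨m1, hu.2⟩ m2
    have s0 : 0 ≤ τ * (D.P.e lam (r u) + D'.P.e lam' (z u)) := mul_nonneg hτ (by linarith [hpos u, hpos' u])
    exact ⟨(pos_iff_pos_of_mul_pos (lt_of_le_of_lt s0 s)).1 (hpos' u), s⟩
  have hmov : ∀ u ∈ Icc D.P.u0 1, rh u = r u ∨ ∃ ω, 0 ≤ ω ∧
      ω * (D.P.e lam (r u) + D'.P.e lam' (z u)) < D'.P.e lam' (z u) ∧ rh u = r u + ω * (z u - r u) := by
    intro u hu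
    by_cases hne : rh u = r u
    · exact Or.inl hne
    · right
      obtain ⟨hrz, s⟩ := hm u hu hne
      obtain ⟨d1, d2⟩ := q5 u hu
      refine ⟨(rh u - r u) / (z u - r u), div_nonneg (by linarith) hrz.le, ?_, ?_⟩
      · rw [div_mul_eq_mul_div, div_lt_iff₀ hrz]
        refine lt_of_le_of_lt ?_ s
        exact mul_le_mul_of_nonneg_right (by linarith) (by linarith [hpos u, hpos' u])
      · field_simp
        ring
  have key := p6_move h hrh hmov
  have hI := p6_gain_ii h hrhfw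
  have hnn : ∀ u ∈ Icc D.P.u0 1, 0 ≤ D.P.e lam (r u) * (rh u - r u) * (z u - r u) := by
    intro u hu
    by_cases hne : rh u = r u
    · rw [hne]; simp
    · obtain ⟨hrz, -⟩ := hm u hu hne
      obtain ⟨d1, -⟩ := q5 u hu
      exact mul_nonneg (mul_nonneg (hpos u).le (by linarith)) hrz.le
  have hml : u1 ≤ (u1 + u2) / 2 := by linarith
  have hmr : (u1 + u2) / 2 ≤ u2 := by linarith
  have hmid : ∀ u ∈ Icc ((u1 + u2) / 2) u2, τ * g ≤ D.P.e lam (r u) * (rh u - r u) * (z u - r u) := by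
    intro u hu
    have e1 := q7 u ⟨hu.1, hu.2.trans h21⟩ (hr u hu)
    rw [e1]
    calc τ * g ≤ τ * (D.P.e lam (r u) * (z u - r u)) := mul_le_mul_of_nonneg_left (hg u hu) hτ
      _ = D.P.e lam (r u) * (r u + τ - r u) * (z u - r u) := by ring
  have i1 : IntervalIntegrable (fun u => D.P.e lam (r u) * (rh u - r u) * (z u - r u)) volume D.P.u0 ((u1 + u2) / 2) :=
    hI.mono_set (by rw [uIcc_of_le (h01.trans hml), uIcc_of_le hu01]; exact Icc_subset_Icc le_rfl (hmr.trans h21))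
  have i2 : IntervalIntegrable (fun u => D.P.e lam (r u) * (rh u - r u) * (z u - r u)) volume ((u1 + u2) / 2) u2 :=
    hI.mono_set (by rw [uIcc_of_le hmr, uIcc_of_le hu01]; exact Icc_subset_Icc (h01.trans hml) h21)
  have i3 : IntervalIntegrable (fun u => D.P.e lam (r u) * (rh u - r u) * (z u - r u)) volume u2 1 :=
    hI.mono_set (by rw [uIcc_of_le h21, uIcc_of_le hu01]; exact Icc_subset_Icc (h01.trans h12.le) le_rfl)
  have split : ∫ u in D.P.u0..1, D.P.e lam (r u) * (rh u - r u) * (z u - r u)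
      = (∫ u in D.P.u0..((u1 + u2) / 2), D.P.e lam (r u) * (rh u - r u) * (z u - r u))
        + (∫ u in ((u1 + u2) / 2)..u2, D.P.e lam (r u) * (rh u - r u) * (z u - r u))
        + ∫ u in u2..1, D.P.e lam (r u) * (rh u - r u) * (z u - r u) := by
    rw [intervalIntegral.integral_add_adjacent_intervals i1 i2, intervalIntegral.integral_add_adjacent_intervals (i1.trans i2) i3]
  have n1 : 0 ≤ ∫ u in D.P.u0..((u1 + u2) / 2), D.P.e lam (r u) * (rh u - r u) * (z u - r u) :=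
    intervalIntegral.integral_nonneg (h01.trans hml) fun u hu => hnn u ⟨hu.1, hu.2.trans (hmr.trans h21)⟩
  have n3 : 0 ≤ ∫ u in u2..1, D.P.e lam (r u) * (rh u - r u) * (z u - r u) :=
    intervalIntegral.integral_nonneg h21 fun u hu => hnn u ⟨(h01.trans h12.le).trans hu.1, hu.2⟩
  have n2 : (u2 - u1) / 2 * (τ * g) ≤ ∫ u in ((u1 + u2) / 2)..u2, D.P.e lam (r u) * (rh u - r u) * (z u - r u) := by
    have : ∫ _u in ((u1 + u2) / 2)..u2, τ * g = (u2 - u1) / 2 * (τ * g) := by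
      rw [intervalIntegral.integral_const, smul_eq_mul]; ring
    rw [← this]
    exact intervalIntegral.integral_mono_on hmr intervalIntegrable_const i2 hmid
  linarith

/-- downward gain -/
theorem p6_gain_dn (h : P6Mv fn cE D0 D D' lam lam' er r z) {ul ur H t g : ℝ}
    (h0l : D.P.u0 ≤ ul) (hlr : ul < ur) (hr1 : ur + D.P.N ^ (-D.P.dl) * D.P.us ≤ 1) (hH : 0 < H) (hrH : D.P.rmin ≤ H)
    (htop : H + D.P.Lm 1 ≤ 1) (ht0 : 0 ≤ t) (ht1 : t ≤ 1)
    (hsep : ∀ u ∈ Icc D.P.u0 (ur + D.P.N ^ (-D.P.dl) * D.P.us), H ≤ r u →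
      z u < H ∧ t * ((r u + D.P.B0) / (H + D.P.B0)) * (D.P.e lam (r u) + D'.P.e lam' (z u)) < D'.P.e lam' (z u))
    (hr : ∀ u ∈ Icc ul ur, H + D.P.Lm 1 ≤ r u)
    (hg : ∀ u ∈ Icc ul ur, g ≤ D.P.e lam (r u) * (r u - (H + D.P.Lm 1)) * (r u - z u)) :
    (ur - ul) * (t * g) ≤ 4 * er := by
  have hc := h.cE_pos
  have hok := h.ok
  have hfw : P6Fw D.P r := p6_fw_of_fe hc hok h.min.1
  have hA := p6_A0_pos hc hok
  have hB := p6_B0_pos hc hok
  have hAB := p6_AB hc hok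
  have hu01 : D.P.u0 ≤ 1 := by linarith [hok.u01]
  have hN1 : 1 ≤ D.P.N := by linarith [cm_N_ge hok]
  have hdl := cm_dl_pos hok
  have hus := cm_us_pos hc hok
  have hNd : 0 < D.P.N ^ (-D.P.dl) := Real.rpow_pos_of_pos (by linarith) _
  have hσ : D.P.A0 / D.P.B0 ^ 2 * D.P.N ^ (-D.P.dl) ≤ 1 := by
    rw [p6_AB2 hc hok, ← Real.rpow_add (by linarith)]
    exact Real.rpow_le_one_of_one_le_of_nonpos hN1 (by linarith)
  have hL1 : 0 ≤ D.P.Lm 1 := p6_Lm_nonneg hc hok ⟨hu01, le_rfl⟩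
  obtain ⟨rh, q1, q2, q3, q4, q5, q6, q7⟩ := p6_bar_dn (Λ := D.P.Lm) (r := r) (A := D.P.A0) (B := D.P.B0)
    (σ0 := D.P.N ^ (-D.P.dl)) (u0 := D.P.u0) (ur := ur) (H := H) (t := t) hA hB (h0l.trans hlr.le) (by rw [hAB]; exact hr1)
    (p6_Lm_mono hc hok) (p6_Lm_zero D.P) (p6_Lm_lip hc hok) hσ hfw.lo hfw.up (by rw [hfw.left]; exact hok.r0) hfw.right
    hH (by rw [hfw.left]; exact hrH) htop ht0 ht1
  have hrhfw : P6Fw D.P rh := ⟨by rw [q3, hfw.left], q4, q1, q2⟩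
  have hrh : D.P.Fe rh := p6_fe_of_fw hc hok hrhfw
  have hur1 : ur ≤ 1 := by nlinarith [mul_pos hNd hus]
  -- facts at a point where `H ≤ r u`
  have hpos : ∀ u, 0 < D.P.e lam (r u) := fun u => cm_e_pos D.P h.lam_pos _
  have hpos' : ∀ u, 0 < D'.P.e lam' (z u) := fun u => cm_e_pos D'.P h.lam_pos' _
  have hmov : ∀ u ∈ Icc D.P.u0 1, rh u = r u ∨ ∃ ω, 0 ≤ ω ∧
      ω * (D.P.e lam (r u) + D'.P.e lam' (z u)) < D'.P.e lam' (z u) ∧ rh u = r u + ω * (z u - r u) := by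
    intro u hu
    by_cases hne : rh u = r u
    · exact Or.inl hne
    · right
      obtain ⟨m1, m2, m3⟩ := q6 u hu hne
      have m4 := q5 u hu
      have hHr : H ≤ r u := m2.trans m4
      obtain ⟨s1, s2⟩ := hsep u ⟨hu.1, by rw [← hAB]; exact m1⟩ hHr
      have hrz : 0 < r u - z u := by linarith
      refine ⟨(r u - rh u) / (r u - z u), div_nonneg (by linarith) hrz.le, ?_, ?_⟩
      · refine lt_of_le_of_lt ?_ s2
        refine mul_le_mul_of_nonneg_right ?_ (by linarith [hpos u, hpos' u])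
        rw [div_le_iff₀ hrz]
        have hK : 0 ≤ t * ((r u + D.P.B0) / (H + D.P.B0)) := by
          have : 0 ≤ (r u + D.P.B0) / (H + D.P.B0) := div_nonneg (by linarith) (by linarith)
          positivity
        calc r u - rh u ≤ t * ((r u + D.P.B0) / (H + D.P.B0)) * (r u - H) := m3
          _ ≤ t * ((r u + D.P.B0) / (H + D.P.B0)) * (r u - z u) := mul_le_mul_of_nonneg_left (by linarith) hK
      · field_simp
        ring
  have key := p6_move h hrh hmov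
  have hI := p6_gain_ii h hrhfw
  -- nonnegativity of the integrand
  have hnn : ∀ u ∈ Icc D.P.u0 1, 0 ≤ D.P.e lam (r u) * (rh u - r u) * (z u - r u) := by
    intro u hu
    by_cases hne : rh u = r u
    · rw [hne]; simp
    · obtain ⟨m1, m2, m3⟩ := q6 u hu hne
      have m4 := q5 u hu
      have hHr : H ≤ r u := m2.trans m4
      obtain ⟨s1, s2⟩ := hsep u ⟨hu.1, by rw [← hAB]; exact m1⟩ hHr
      have : 0 ≤ (rh u - r u) * (z u - r u) := mul_nonneg_of_nonpos_of_nonpos (by linarith) (by linarith)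
      rw [mul_assoc]
      exact mul_nonneg (hpos u).le this
  have hmid : ∀ u ∈ Icc ul ur, t * g ≤ D.P.e lam (r u) * (rh u - r u) * (z u - r u) := by
    intro u hu
    have hu' : u ∈ Icc D.P.u0 ur := ⟨h0l.trans hu.1, hu.2⟩
    have d1 := q7 u hu'
    have d2 := hr u hu
    have hHr : H ≤ r u := by linarith
    obtain ⟨s1, s2⟩ := hsep u ⟨hu'.1, by nlinarith [mul_pos hNd hus, hu.2]⟩ hHr
    have hrz : 0 < r u - z u := by linarith
    calc t * g ≤ t * (D.P.e lam (r u) * (r u - (H + D.P.Lm 1)) * (r u - z u)) := mul_le_mul_of_nonneg_left (hg u hu) ht0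
      _ = D.P.e lam (r u) * (t * (r u - (H + D.P.Lm 1))) * (r u - z u) := by ring
      _ ≤ D.P.e lam (r u) * (r u - rh u) * (r u - z u) := by
          refine mul_le_mul_of_nonneg_right ?_ hrz.le
          exact mul_le_mul_of_nonneg_left d1 (hpos u).le
      _ = _ := by ring
  have i1 : IntervalIntegrable (fun u => D.P.e lam (r u) * (rh u - r u) * (z u - r u)) volume D.P.u0 ul :=
    hI.mono_set (by rw [uIcc_of_le h0l, uIcc_of_le hu01]; exact Icc_subset_Icc le_rfl (hlr.le.trans hur1))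
  have i2 : IntervalIntegrable (fun u => D.P.e lam (r u) * (rh u - r u) * (z u - r u)) volume ul ur :=
    hI.mono_set (by rw [uIcc_of_le hlr.le, uIcc_of_le hu01]; exact Icc_subset_Icc h0l hur1)
  have i3 : IntervalIntegrable (fun u => D.P.e lam (r u) * (rh u - r u) * (z u - r u)) volume ur 1 :=
    hI.mono_set (by rw [uIcc_of_le hur1, uIcc_of_le hu01]; exact Icc_subset_Icc (h0l.trans hlr.le) le_rfl)
  have split : ∫ u in D.P.u0..1, D.P.e lam (r u) * (rh u - r u) * (z u - r u)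
      = (∫ u in D.P.u0..ul, D.P.e lam (r u) * (rh u - r u) * (z u - r u))
        + (∫ u in ul..ur, D.P.e lam (r u) * (rh u - r u) * (z u - r u))
        + ∫ u in ur..1, D.P.e lam (r u) * (rh u - r u) * (z u - r u) := by
    rw [intervalIntegral.integral_add_adjacent_intervals i1 i2, intervalIntegral.integral_add_adjacent_intervals (i1.trans i2) i3]
  have n1 : 0 ≤ ∫ u in D.P.u0..ul, D.P.e lam (r u) * (rh u - r u) * (z u - r u) :=
    intervalIntegral.integral_nonneg h0l fun u hu => hnn u ⟨hu.1, hu.2.trans (hlr.le.trans hur1)⟩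
  have n3 : 0 ≤ ∫ u in ur..1, D.P.e lam (r u) * (rh u - r u) * (z u - r u) :=
    intervalIntegral.integral_nonneg hur1 fun u hu => hnn u ⟨(h0l.trans hlr.le).trans hu.1, hu.2⟩
  have n2 : (ur - ul) * (t * g) ≤ ∫ u in ul..ur, D.P.e lam (r u) * (rh u - r u) * (z u - r u) := by
    have : ∫ _u in ul..ur, t * g = (ur - ul) * (t * g) := by
      rw [intervalIntegral.integral_const, smul_eq_mul]
    rw [← this]
    exact intervalIntegral.integral_mono_on hlr.le intervalIntegrable_const i2 hmid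
  linarith

end Claimed.Agent.R286

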