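import Claimed.Agent.R286.Pe6.Child
import Claimed.Agent.R286.Pe6.Move

/-!
# Row 286, PE Lemmas 6.3 + 6.4 + first paragraph of the proof of Lemma 6.5: NO THRESHOLD SEPARATION between the parent and a successful child at any scale `y ≳ x`      OWNER: helper14.

Notation at the index `k`:  `e = (D k).P.e (lam k)`,  `D' = p6Child c0 D lam x r j0 k`,  `𝒟 = D'.P.e (D'.P.d ^ 2)`, `𝒟(t) = (c0 x)² f(t/(c0 x))`,  `t_y = min 1 (𝒟 y / e y)`,  `er = n^{-80δ} e(x) x³`.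

UP (`p6_nosep_up`).   Assume `P6SepUp` at `k`.   `θm = (θ1+θ2)/2`, `H = θm y`, `u1 = c1 y`, `u2 = c2 y`, `τ = η t_y y`.   `p6_gain_up` with
  * `top = rmin + Λ 1 + H ≤ θ' y`, `θ' = θm + (θ2-θ1)/4`  (forced lengths `o(x) = o(y)`);   `top < 1` because `θ2 y ≤ z ≤ 1`;
  * moved points `u ≥ c1 y`, `r u < θ' y`, `z u ≥ θ2 y` (monotone `z`):  `𝒟(z)(z - r) ≥ (1 - θ'/θ2) z 𝒟(z) ≥ (θ2 - θ') y 𝒟(θ2 y) ≥ (θ2-θ') min(1,1/θ2) y 𝒟(y)`,   `𝒟(z) ≤ 𝒟(θ2 y) ≤ max(1,1/θ2) 𝒟(y)`;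
  * `t_y e(r u) ≤ C3 𝒟(y)`:  if `C0 x ≤ c1 y`: `r u ≥ cl u ≥ cl c1 y`, `e(r u) ≤ max(1, 1/(cl c1)) e(y)`;   otherwise `y < (C0/c1) x`, `e(r u) ≤ λ = o(x²)` and `𝒟(y) ≥ c x²`;
  * `η` small (fixed);   gain `≥ ((c2-c1)/2) y · η t_y y · min(1,1/θ1) e(y) (θ2-θ1) y = c' min(e y, 𝒟 y) y³ ≥ c'' e(x) x³`  (`p6_e_cube` for `e` and `𝒟`, `𝒟(x) = c0² f(1/c0) x² ≥ e(x)`);
  * contradiction with `4 er = 4 n^{-80δ} e(x) x³`, `e(x) x³ > 0`.
DOWN (`p6_nosep_dn`).   `H = θm y`, `ul = c1 y`, `ur = (c1+c2) y/2`, `t = η t_y`; `ur + n^{-δ}u_* ≤ c2 y`.   moved points: `u ≤ c2 y`, `H ≤ r u ≤ Cr y`, `z u ≤ θ1 y < H`;   `(r+B0)/(H+B0) ≤ Cr/θm`;   `e(r) ≤ e(θm y) ≤ C e(y)`;   `𝒟(z) ≥ 𝒟(θ1 y) ≥ c 𝒟(y)`.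
-/

set_option autoImplicit false

namespace Claimed.Agent.R286

open Filter Topology Set MeasureTheory Asymptotics

variable {fn : ℕ → (ℝ → ℝ) → (ℝ → ℝ) → ℝ} {U : Ultrafilter ℕ} {c : P6C} {D : ℕ → P6D} {lam x : ℕ → ℝ} {r : ℕ → ℝ → ℝ} {cl Ch C0 c0 β : ℝ} {j0 : ℕ → ℝ}

/-- the fixed-size setting holds eventually, with `er = n^{-80δ} e(x) x³` -/
theorem p6_wk_mv (hch : P6Chord fn) (hk : P6K c cl Ch C0 c0 β) (h : P6Wk fn U c D lam x r cl Ch C0 β j0) {z : ℕ → ℝ → ℝ}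
    (hz : P6Succ fn U (p6Child c0 D lam x r j0) z) :
    ∀ᶠ k in U, P6Mv fn c.cE c.D0 (D k) (p6Child c0 D lam x r j0 k) (lam k) ((p6Child c0 D lam x r j0 k).P.d ^ 2)
      ((D k).P.N ^ (-(80 * (D k).P.dl)) * ((D k).P.e (lam k) (x k) * x k ^ 3)) (r k) (z k) := by
  have hc := hk.ok
  filter_upwards [h.seq.ok, p6_child_ok hk h, h.j0_rng, h.lam_rng, p6_par_x_pos hc h.toP6Par, h.min, h.fam, hz.min, hz.succ,
    p6_child_ord_ev hk h] with k ok ok' j0r lamr xpos hmin hfam zmin zsucc hord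
  have hd' : 0 < (p6Child c0 D lam x r j0 k).P.d ^ 2 := by
    have : (p6Child c0 D lam x r j0 k).P.d = c0 * x k := rfl
    rw [this]
    have := hk.c0_pos
    positivity
  exact
    { chord := hch
      cE_pos := hc.cE_pos
      ok := ok
      ok' := ok'
      n_eq := rfl
      b_eq := rfl
      h_eq := rfl
      u_le := j0r.2
      lam_pos := lamr.1
      lam_pos' := hd'
      min := hmin
      fam := hfam
      fe' := zmin.1
      admQ := hord.2 _ hd'.le le_rfl _ zmin.1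
      succ := zsucc.trans (p6_child_err (cm_N_pos ok)) }

/-- `min(e(y), 𝒟(y)) y³ ≳ e(x) x³` for `y ≳ x` -/
theorem p6_wk_min_ge (hk : P6K c cl Ch C0 c0 β) (h : P6Wk fn U c D lam x r cl Ch C0 β j0) {y : ℕ → ℝ} {G : ℝ} (hG : 1 ≤ G)
    (hxy : ∀ᶠ k in U, x k ≤ G * y k) :
    ∀ᶠ k in U, (D k).P.e (lam k) (x k) * x k ^ 3 ≤
      G ^ 3 * (min ((D k).P.e (lam k) (y k)) ((p6Child c0 D lam x r j0 k).P.e ((p6Child c0 D lam x r j0 k).P.d ^ 2) (y k)) * y k ^ 3) := by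
  have hc := hk.ok
  have hcf : 0 < c0 ^ 2 * cmF (1 / c0) := by
    have := hk.c0_pos
    have := cm_f_pos (1 / c0)
    positivity
  have hweak := aq_o_bound h.weak (Eventually.of_forall fun k => sq_nonneg (x k)) hcf
  filter_upwards [h.seq.ok, p6_child_ok hk h, h.lam_rng, p6_par_x_pos hc h.toP6Par, hxy, hweak] with k ok ok' lamr xpos hxyk hw
  set P' := (p6Child c0 D lam x r j0 k).P with hP'
  have h1 := p6_e_cube (P := (D k).P) ok.d0 lamr.1.le hG xpos.le hxyk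
  have h2 := p6_e_cube (P := P') ok'.d0 (sq_nonneg P'.d) hG xpos.le hxyk
  have hDx : P'.e (P'.d ^ 2) (x k) = c0 ^ 2 * cmF (1 / c0) * x k ^ 2 := p6_child_D_x xpos hk.c0_pos
  have h3 : (D k).P.e (lam k) (x k) ≤ P'.e (P'.d ^ 2) (x k) := by
    rw [hDx]; exact (le_abs_self _).trans hw
  have h4 : (D k).P.e (lam k) (x k) * x k ^ 3 ≤ P'.e (P'.d ^ 2) (x k) * x k ^ 3 :=
    mul_le_mul_of_nonneg_right h3 (by positivity)
  rcases le_total ((D k).P.e (lam k) (y k)) (P'.e (P'.d ^ 2) (y k)) with hm | hm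
  · rw [min_eq_left hm]; exact h1
  · rw [min_eq_right hm]; exact h4.trans h2

/-- `t_y e(r u) ≤ C3 𝒟(y)` at all masses `u ≥ c1 y` -/
theorem p6_wk_ty (hk : P6K c cl Ch C0 c0 β) (h : P6Wk fn U c D lam x r cl Ch C0 β j0) {y : ℕ → ℝ} {c1 : ℝ} (hc1 : 0 < c1)
    (hxy : x =O[U] y) (hy : ∀ᶠ k in U, 0 < y k ∧ y k ≤ 1 / c1) :
    ∃ C3 : ℝ, 0 < C3 ∧ ∀ᶠ k in U, ∀ u, c1 * y k ≤ u → u ≤ 1 →
      min ((D k).P.e (lam k) (y k)) ((p6Child c0 D lam x r j0 k).P.e ((p6Child c0 D lam x r j0 k).P.d ^ 2) (y k)) * (D k).P.e (lam k) (r k u) ≤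
        C3 * ((D k).P.e (lam k) (y k) * (p6Child c0 D lam x r j0 k).P.e ((p6Child c0 D lam x r j0 k).P.d ^ 2) (y k)) := by
  have hc := hk.ok
  have hypos : ∀ᶠ k in U, 0 ≤ y k := hy.mono fun k hk => hk.1.le
  obtain ⟨G, hG0, hG⟩ := aq_O_bound_le hxy hypos
  have hcl := hk.cl_pos
  have hC0 : 0 < C0 := lt_of_lt_of_le one_pos hk.C0_ge
  refine ⟨max 1 (1 / (cl * c1)), lt_of_lt_of_le one_pos (le_max_left _ _), ?_⟩
  have hcf : 0 < min 1 (1 / (C0 / c1)) * (c0 ^ 2 * cmF (1 / c0)) := by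
    have := hk.c0_pos
    have := cm_f_pos (1 / c0)
    have : 0 < min 1 (1 / (C0 / c1)) := lt_min one_pos (by positivity)
    positivity
  have hlam := aq_o_bound (p6_wk_lam hc h) (Eventually.of_forall fun k => sq_nonneg (x k)) hcf
  have hxpos := p6_par_x_pos hc h.toP6Par
  have hu0 := aq_o_bound (p6_par_u0 hc h.toP6Par) (hxpos.mono fun k hk => hk.le) (ε := c1 / G) (by positivity)
  filter_upwards [h.seq.ok, p6_child_ok hk h, h.lam_rng, hxpos, hG, hlam, hu0, hy, h.outer] with k ok ok' lamr xpos hGk hlamk hu0k hyk hreg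
  intro u hu1 hu2
  set P' := (p6Child c0 D lam x r j0 k).P with hP'
  set ey := (D k).P.e (lam k) (y k) with hey
  set Dy := P'.e (P'.d ^ 2) (y k) with hDy
  have ey0 : 0 < ey := cm_e_pos _ lamr.1 _
  have hd'2 : 0 < P'.d ^ 2 := by have := ok'.d0; positivity
  have Dy0 : 0 < Dy := cm_e_pos _ hd'2 _
  have er0 : 0 ≤ (D k).P.e (lam k) (r k u) := cm_e_nonneg _ lamr.1.le _
  have hC31 : (1:ℝ) ≤ max 1 (1 / (cl * c1)) := le_max_left _ _
  rcases le_or_gt (C0 * x k) (c1 * y k) with hcase | hcase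
  · -- regular region
    have hu0u : (D k).P.u0 ≤ u := by
      have h1 : (D k).P.u0 ≤ c1 / G * x k := (le_abs_self _).trans hu0k
      have h2 : c1 / G * x k ≤ c1 * y k := by
        rw [div_mul_eq_mul_div, div_le_iff₀ hG0]
        nlinarith
      linarith
    have hr := (hreg u (hcase.trans hu1) hu2 hu0u).1
    have h3 : cl * c1 * y k ≤ r k u := by nlinarith
    have h4 : (D k).P.e (lam k) (r k u) ≤ (D k).P.e (lam k) (cl * c1 * y k) := cm_e_anti _ ok.d0 lamr.1.le h3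
    have h5 := p6_e_scale_le (P := (D k).P) ok.d0 lamr.1.le (s := cl * c1) (by positivity) hyk.1.le
    have h6 : (D k).P.e (lam k) (r k u) ≤ max 1 (1 / (cl * c1)) * ey := h4.trans h5
    calc min ey Dy * (D k).P.e (lam k) (r k u) ≤ Dy * (max 1 (1 / (cl * c1)) * ey) :=
          mul_le_mul (min_le_right _ _) h6 er0 Dy0.le
      _ = max 1 (1 / (cl * c1)) * (ey * Dy) := by ring
  · -- `y ≲ x`
    have hyx : y k ≤ C0 / c1 * x k := by
      rw [div_mul_eq_mul_div, le_div_iff₀ hc1]; linarith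
    have h1 : P'.e (P'.d ^ 2) (C0 / c1 * x k) ≤ Dy := cm_e_anti _ ok'.d0 hd'2.le hyx
    have h2 := p6_e_scale_ge (P := P') ok'.d0 hd'2.le (s := C0 / c1) (by positivity) xpos.le
    have hDx : P'.e (P'.d ^ 2) (x k) = c0 ^ 2 * cmF (1 / c0) * x k ^ 2 := p6_child_D_x xpos hk.c0_pos
    rw [hDx] at h2
    have h3 : (D k).P.e (lam k) (r k u) ≤ lam k := cm_e_le _ lamr.1.le _
    have h4 : lam k ≤ min 1 (1 / (C0 / c1)) * (c0 ^ 2 * cmF (1 / c0)) * x k ^ 2 := (le_abs_self _).trans hlamk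
    have h5 : (D k).P.e (lam k) (r k u) ≤ Dy := by
      calc _ ≤ _ := h3
        _ ≤ _ := h4
        _ = min 1 (1 / (C0 / c1)) * (c0 ^ 2 * cmF (1 / c0) * x k ^ 2) := by ring
        _ ≤ _ := h2
        _ ≤ _ := h1
    calc min ey Dy * (D k).P.e (lam k) (r k u) ≤ ey * Dy := mul_le_mul (min_le_left _ _) h5 er0 ey0.le
      _ ≤ max 1 (1 / (cl * c1)) * (ey * Dy) := by
          have : 0 < ey * Dy := mul_pos ey0 Dy0
          nlinarith

/-- fixed size: an upward separation forces `c' min(e y, 𝒟 y) y³ ≤ 4 er` -/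
theorem p6_nosep_up_fix {cE D0 : ℝ} {D D' : P6D} {lam lam' er : ℝ} {r z : ℝ → ℝ} (h : P6Mv fn cE D0 D D' lam lam' er r z)
    {y θ1 θ2 c1 c2 C3 η : ℝ} (hθ1 : 0 < θ1) (hθ : θ1 < θ2) (hc12 : c1 < c2) (hy : 0 < y) (hy2 : c2 * y ≤ 1)
    (hu0 : D.P.u0 ≤ c1 * y)
    (hslope : D.P.N ^ (-(3 * D.P.dl)) * (D.P.N ^ (-D.P.dl) + (θ1 + θ2) / (c2 - c1)) ≤ 1)
    (hforced : D.P.rmin + D.P.Lm 1 ≤ (θ2 - θ1) / 4 * y)
    (hC3 : ∀ u, c1 * y ≤ u → u ≤ 1 → min (D.P.e lam y) (D'.P.e lam' y) * D.P.e lam (r u) ≤ C3 * (D.P.e lam y * D'.P.e lam' y))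
    (hη0 : 0 < η) (hη1 : η ≤ (θ2 - θ1) / 2) (hη2 : η * (max 1 (1 / θ2) + C3) < (θ2 - θ1) / 4 * min 1 (1 / θ2))
    (hsep : P6SepUp r z y θ1 θ2 c1 c2) :
    (c2 - c1) / 2 * η * min 1 (1 / θ1) * (θ2 - θ1) * (min (D.P.e lam y) (D'.P.e lam' y) * y ^ 3) ≤ 4 * er := by
  have hc := h.cE_pos
  have hfz : P6Fw D'.P z := p6_fw_of_fe hc h.ok' h.fe'
  have θ20 : 0 < θ2 := hθ1.trans hθ
  have gap : 0 < (θ2 - θ1) / 4 * y := by
    have : 0 < θ2 - θ1 := by linarith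
    positivity
  have c12y : c1 * y < c2 * y := by nlinarith
  set ey := D.P.e lam y with hey
  set Dy := D'.P.e lam' y with hDy
  have ey0 : 0 < ey := cm_e_pos _ h.lam_pos _
  have Dy0 : 0 < Dy := cm_e_pos _ h.lam_pos' _
  set m := min ey Dy with hm
  have m0 : 0 < m := lt_min ey0 Dy0
  set ty := m / ey with hty
  have ty0 : 0 < ty := div_pos m0 ey0
  have ty1 : ty ≤ 1 := by rw [hty, div_le_one ey0]; exact min_le_left _ _
  have tye : ty * ey = m := by rw [hty]; field_simp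
  have c1J : c1 * y ∈ Icc D'.P.u0 1 := ⟨h.u_le.trans hu0, c12y.le.trans hy2⟩
  have zc1 : θ2 * y ≤ z (c1 * y) := (hsep (c1 * y) le_rfl c12y.le).2
  have key := p6_gain_up h (u1 := c1 * y) (u2 := c2 * y) (H := (θ1 + θ2) / 2 * y) (τ := η * ty * y)
    (g := min 1 (1 / θ1) * ey * ((θ2 - θ1) * y)) hu0 c12y hy2 (by positivity) (by positivity)
    (by
      have e1 : 2 * ((θ1 + θ2) / 2 * y) / (c2 * y - c1 * y) = (θ1 + θ2) / (c2 - c1) := by
        have : c2 - c1 ≠ 0 := by linarith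
        have : c2 * y - c1 * y = (c2 - c1) * y := by ring
        rw [this]
        field_simp
      rw [e1]; exact hslope)
    (by
      have := hfz.le_one hc h.ok' c1J
      have e1 : (θ2 - θ1) / 4 * y + (θ1 + θ2) / 2 * y = θ2 * y - (θ2 - θ1) / 4 * y := by ring
      linarith)
    (by
      intro u hu hlt
      have huJ : u ∈ Icc D'.P.u0 1 := ⟨c1J.1.trans hu.1, hu.2⟩
      have Z2 : θ2 * y ≤ z u := zc1.trans (hfz.mono hc h.ok' c1J huJ hu.1)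
      have R2 : r u < θ2 * y - (θ2 - θ1) / 4 * y := by
        have e1 : (θ2 - θ1) / 4 * y + (θ1 + θ2) / 2 * y = θ2 * y - (θ2 - θ1) / 4 * y := by ring
        linarith
      have θy0 : 0 ≤ θ2 * y := by positivity
      have Z0 : 0 ≤ z u := θy0.trans Z2
      have Dz : 0 < D'.P.e lam' (z u) := cm_e_pos _ h.lam_pos' _
      have a1 : D'.P.e lam' (z u) ≤ max 1 (1 / θ2) * Dy :=
        (cm_e_anti _ h.ok'.d0 h.lam_pos'.le Z2).trans (p6_e_scale_le h.ok'.d0 h.lam_pos'.le θ20 hy.le)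
      have b1 : ty * D.P.e lam (r u) ≤ C3 * Dy := by
        have := hC3 u hu.1 hu.2
        rw [hty, div_mul_eq_mul_div, div_le_iff₀ ey0]
        linarith
      have b2 : ty * D'.P.e lam' (z u) ≤ max 1 (1 / θ2) * Dy := by nlinarith
      have L1 : η * ty * y * (D.P.e lam (r u) + D'.P.e lam' (z u)) ≤ η * (max 1 (1 / θ2) + C3) * (y * Dy) := by
        have : η * ty * y * (D.P.e lam (r u) + D'.P.e lam' (z u))
            = η * y * (ty * D.P.e lam (r u) + ty * D'.P.e lam' (z u)) := by ring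
        rw [this]
        have h2 : η * y * (ty * D.P.e lam (r u) + ty * D'.P.e lam' (z u)) ≤ η * y * (C3 * Dy + max 1 (1 / θ2) * Dy) :=
          mul_le_mul_of_nonneg_left (by linarith) (by positivity)
        linarith
      have e1 : (θ2 - θ1) / (4 * θ2) * z u ≤ z u - r u := by
        have hc2 : (θ2 - θ1) / (4 * θ2) * (θ2 * y) = (θ2 - θ1) / 4 * y := by field_simp
        have hc3 : (θ2 - θ1) / (4 * θ2) ≤ 1 := by
          rw [div_le_one (by positivity)]; linarith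
        have : (1 - (θ2 - θ1) / (4 * θ2)) * (θ2 * y) ≤ (1 - (θ2 - θ1) / (4 * θ2)) * z u :=
          mul_le_mul_of_nonneg_left Z2 (by linarith)
        linarith
      have e2 : θ2 * y * D'.P.e lam' (θ2 * y) ≤ z u * D'.P.e lam' (z u) :=
        cm_re_mono _ h.ok'.d0 h.lam_pos'.le (mem_Ici.2 θy0) (mem_Ici.2 Z0) Z2
      have e3 : min 1 (1 / θ2) * Dy ≤ D'.P.e lam' (θ2 * y) := p6_e_scale_ge h.ok'.d0 h.lam_pos'.le θ20 hy.le
      have c20 : 0 ≤ (θ2 - θ1) / (4 * θ2) := div_nonneg (by linarith) (by positivity)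
      have R1 : (θ2 - θ1) / 4 * min 1 (1 / θ2) * (y * Dy) ≤ D'.P.e lam' (z u) * (z u - r u) := by
        calc (θ2 - θ1) / 4 * min 1 (1 / θ2) * (y * Dy)
            = (θ2 - θ1) / (4 * θ2) * (θ2 * y * (min 1 (1 / θ2) * Dy)) := by field_simp
          _ ≤ (θ2 - θ1) / (4 * θ2) * (θ2 * y * D'.P.e lam' (θ2 * y)) :=
              mul_le_mul_of_nonneg_left (mul_le_mul_of_nonneg_left e3 θy0) c20
          _ ≤ (θ2 - θ1) / (4 * θ2) * (z u * D'.P.e lam' (z u)) := mul_le_mul_of_nonneg_left e2 c20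
          _ = D'.P.e lam' (z u) * ((θ2 - θ1) / (4 * θ2) * z u) := by ring
          _ ≤ D'.P.e lam' (z u) * (z u - r u) := mul_le_mul_of_nonneg_left e1 Dz.le
      have yD : 0 < y * Dy := mul_pos hy Dy0
      calc _ ≤ _ := L1
        _ < _ := mul_lt_mul_of_pos_right hη2 yD
        _ ≤ _ := R1)
    (by
      intro u hu
      have h1 := (hsep u (by linarith [hu.1]) hu.2).1
      have h2 : η * ty * y ≤ (θ2 - θ1) / 2 * y := by
        have : η * ty ≤ (θ2 - θ1) / 2 := by nlinarith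
        exact mul_le_mul_of_nonneg_right this hy.le
      have e1 : θ1 * y + (θ2 - θ1) / 2 * y = (θ1 + θ2) / 2 * y := by ring
      linarith)
    (by
      intro u hu
      obtain ⟨h1, h2⟩ := hsep u (by linarith [hu.1]) hu.2
      have E1 : min 1 (1 / θ1) * ey ≤ D.P.e lam (r u) :=
        (p6_e_scale_ge h.ok.d0 h.lam_pos.le hθ1 hy.le).trans (cm_e_anti _ h.ok.d0 h.lam_pos.le h1)
      have m10 : 0 < min 1 (1 / θ1) := lt_min one_pos (by positivity)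
      have hzr : (θ2 - θ1) * y ≤ z u - r u := by linarith
      exact mul_le_mul E1 hzr (by nlinarith) (cm_e_nonneg _ h.lam_pos.le _))
  refine le_trans (le_of_eq ?_) key
  calc (c2 - c1) / 2 * η * min 1 (1 / θ1) * (θ2 - θ1) * (m * y ^ 3)
      = (c2 - c1) / 2 * η * min 1 (1 / θ1) * (θ2 - θ1) * ((ty * ey) * y ^ 3) := by rw [tye]
    _ = _ := by ring

/-- **C5u**   TEX[PE:reg:barriers] (with `p6_bar_up/dn`, `p6_gain_up/dn`, `p6_nosep_dn`): no upward separation at any scale `y ≳ x` -/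
theorem p6_nosep_up (hch : P6Chord fn) (hk : P6K c cl Ch C0 c0 β) (h : P6Wk fn U c D lam x r cl Ch C0 β j0) {z : ℕ → ℝ → ℝ}
    (hz : P6Succ fn U (p6Child c0 D lam x r j0) z) {y : ℕ → ℝ} {θ1 θ2 c1 c2 : ℝ} (hθ1 : 0 < θ1) (hθ : θ1 < θ2) (hc1 : 0 < c1) (hc12 : c1 < c2)
    (hxy : x =O[U] y) (hy : ∀ᶠ k in U, 0 < y k ∧ c2 * y k ≤ 1) :
    ∀ᶠ k in U, ¬ P6SepUp (r k) (z k) (y k) θ1 θ2 c1 c2 := by
  have hc := hk.ok
  have hdl : 0 < c.dl := by
    have := hc.m_pos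
    show 0 < c.m / 10000
    positivity
  have θ20 : 0 < θ2 := hθ1.trans hθ
  have hypos : ∀ᶠ k in U, 0 ≤ y k := hy.mono fun k hk => hk.1.le
  obtain ⟨G0, _, hG0⟩ := aq_O_bound_le hxy hypos
  have hG1 : (1:ℝ) ≤ max 1 G0 := le_max_left _ _
  have hG : ∀ᶠ k in U, x k ≤ max 1 G0 * y k := by
    filter_upwards [hG0, hypos] with k h1 h2
    exact h1.trans (mul_le_mul_of_nonneg_right (le_max_right _ _) h2)
  have hy' : ∀ᶠ k in U, 0 < y k ∧ y k ≤ 1 / c1 := by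
    filter_upwards [hy] with k hk
    refine ⟨hk.1, ?_⟩
    rw [le_div_iff₀ hc1]
    nlinarith [hk.1, hk.2]
  obtain ⟨C3, hC30, hC3⟩ := p6_wk_ty hk h hc1 hxy hy'
  have hC2 : 0 < max 1 (1 / θ2) + C3 := by
    have : (1:ℝ) ≤ max 1 (1 / θ2) := le_max_left _ _
    linarith
  have hcc : 0 < (θ2 - θ1) / 4 * min 1 (1 / θ2) := by
    have : 0 < θ2 - θ1 := by linarith
    have : 0 < min 1 (1 / θ2) := lt_min one_pos (by positivity)
    positivity
  obtain ⟨η, hη0, hη1, hη2⟩ : ∃ η : ℝ, 0 < η ∧ η ≤ (θ2 - θ1) / 2 ∧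
      η * (max 1 (1 / θ2) + C3) < (θ2 - θ1) / 4 * min 1 (1 / θ2) := by
    refine ⟨min ((θ2 - θ1) / 2) ((θ2 - θ1) / 4 * min 1 (1 / θ2) / (2 * (max 1 (1 / θ2) + C3))),
      lt_min (by linarith) (by positivity), min_le_left _ _, ?_⟩
    have h1 : min ((θ2 - θ1) / 2) ((θ2 - θ1) / 4 * min 1 (1 / θ2) / (2 * (max 1 (1 / θ2) + C3)))
        * (max 1 (1 / θ2) + C3)
        ≤ (θ2 - θ1) / 4 * min 1 (1 / θ2) / (2 * (max 1 (1 / θ2) + C3)) * (max 1 (1 / θ2) + C3) :=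
      mul_le_mul_of_nonneg_right (min_le_right _ _) hC2.le
    have h2 : (θ2 - θ1) / 4 * min 1 (1 / θ2) / (2 * (max 1 (1 / θ2) + C3)) * (max 1 (1 / θ2) + C3)
        = (θ2 - θ1) / 4 * min 1 (1 / θ2) / 2 := by field_simp
    linarith
  have hc' : 0 < (c2 - c1) / 2 * η * min 1 (1 / θ1) * (θ2 - θ1) := by
    have : 0 < θ2 - θ1 := by linarith
    have : 0 < c2 - c1 := by linarith
    have : 0 < min 1 (1 / θ1) := lt_min one_pos (by positivity)
    positivity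
  set c' := (c2 - c1) / 2 * η * min 1 (1 / θ1) * (θ2 - θ1) with hc'def
  have hK : 0 < 1 + (θ1 + θ2) / (c2 - c1) := by
    have : 0 < (θ1 + θ2) / (c2 - c1) := div_pos (by linarith) (by linarith)
    linarith
  have hu0 := aq_o_bound ((p6_par_u0 hc h.toP6Par).trans_isBigO hxy) hypos hc1
  have hfo := aq_o_bound ((p6_par_forced hc h.toP6Par).trans_isBigO hxy) hypos (ε := (θ2 - θ1) / 4) (by linarith)
  have hs1 := p6_seq_pow_small h.seq (s := 3 * c.dl) (ε := 1 / (1 + (θ1 + θ2) / (c2 - c1))) (by positivity) (by positivity)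
  have hs2 := p6_seq_pow_small h.seq (s := c.dl) (ε := 1) hdl one_pos
  have hs3 := p6_seq_pow_small h.seq (s := 80 * c.dl) (ε := c' / (8 * max 1 G0 ^ 3)) (by positivity) (by positivity)
  filter_upwards [p6_wk_mv hch hk h hz, hu0, hfo, hs1, hs2, hs3, p6_seq_dl h.seq, p6_wk_min_ge hk h hG1 hG, hC3, hy,
    p6_par_x_pos hc h.toP6Par] with k mv u0k fok s1 s2 s3 dlk mink C3k yk xpos
  intro hsep
  have hN := cm_N_pos mv.ok
  have hus := cm_us_pos mv.cE_pos mv.ok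
  have key := p6_nosep_up_fix mv hθ1 hθ hc12 yk.1 yk.2 ((le_abs_self _).trans u0k)
    (by
      rw [dlk]
      have h1 : (D k).P.N ^ (-c.dl) + (θ1 + θ2) / (c2 - c1) ≤ 1 + (θ1 + θ2) / (c2 - c1) := by linarith
      have h0 : 0 ≤ (D k).P.N ^ (-(3 * c.dl)) := (Real.rpow_pos_of_pos hN _).le
      calc (D k).P.N ^ (-(3 * c.dl)) * ((D k).P.N ^ (-c.dl) + (θ1 + θ2) / (c2 - c1))
          ≤ 1 / (1 + (θ1 + θ2) / (c2 - c1)) * (1 + (θ1 + θ2) / (c2 - c1)) :=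
            mul_le_mul s1 h1 (by
              have := (Real.rpow_pos_of_pos hN (-c.dl)).le
              have : 0 < (θ1 + θ2) / (c2 - c1) := div_pos (by linarith) (by linarith)
              linarith) (by positivity)
        _ = 1 := by field_simp)
    (by
      have h1 := (le_abs_self _).trans fok
      have h2 : 0 ≤ (D k).P.N ^ (-(D k).P.dl) * (D k).P.us := mul_nonneg (Real.rpow_pos_of_pos hN _).le hus.le
      linarith)
    C3k hη0 hη1 hη2 hsep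
  set mm := min ((D k).P.e (lam k) (y k))
    ((p6Child c0 D lam x r j0 k).P.e ((p6Child c0 D lam x r j0 k).P.d ^ 2) (y k)) * y k ^ 3 with hmm
  have mm0 : 0 < mm := by
    have h1 : 0 < (D k).P.e (lam k) (y k) := cm_e_pos _ mv.lam_pos _
    have h2 : 0 < (p6Child c0 D lam x r j0 k).P.e ((p6Child c0 D lam x r j0 k).P.d ^ 2) (y k) := cm_e_pos _ mv.lam_pos' _
    have := lt_min h1 h2
    have := yk.1
    positivity
  rw [dlk, ← hc'def] at key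
  have hG3 : 0 < max 1 G0 ^ 3 := by positivity
  have h5 : (D k).P.N ^ (-(80 * c.dl)) * ((D k).P.e (lam k) (x k) * x k ^ 3)
      ≤ c' / (8 * max 1 G0 ^ 3) * (max 1 G0 ^ 3 * mm) :=
    mul_le_mul s3 mink (by
      have := cm_e_nonneg (D k).P mv.lam_pos.le (x k)
      positivity) (by positivity)
  have h6 : c' / (8 * max 1 G0 ^ 3) * (max 1 G0 ^ 3 * mm) = c' * mm / 8 := by field_simp
  have h7 : 0 < c' * mm := mul_pos hc' mm0
  linarith

/-- `t_y e(y) = min(e(y), 𝒟(y))` -/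
theorem p6_ns_t {ey Dy : ℝ} (he : 0 < ey) (hD : 0 < Dy) :
    0 ≤ min 1 (Dy / ey) ∧ min 1 (Dy / ey) ≤ 1 ∧ min 1 (Dy / ey) * ey = min ey Dy := by
  refine ⟨le_min zero_le_one (by positivity), min_le_left _ _, ?_⟩
  rw [min_mul_of_nonneg _ _ he.le, one_mul, div_mul_cancel₀ _ he.ne']

/-- fixed size: a downward separation at the scale `y` costs `≳ min(e(y), 𝒟(y)) y³` -/
theorem p6_nosep_dn_fix {cE D0 : ℝ} {D D' : P6D} {lam lam' er : ℝ} {r z : ℝ → ℝ}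
    (h : P6Mv fn cE D0 D D' lam lam' er r z) {y θ1 θ2 c1 c2 Cr η : ℝ}
    (hθ1 : 0 < θ1) (hθ : θ1 < θ2) (hc12 : c1 < c2) (hy : 0 < y) (hy2 : c2 * y ≤ 1)
    (hu0 : D.P.u0 ≤ c1 * y) (hsep : P6SepDn r z y θ1 θ2 c1 c2 Cr)
    (hforced : D.P.rmin + D.P.Lm 1 ≤ (θ2 - θ1) / 4 * y)
    (hus : D.P.N ^ (-D.P.dl) * D.P.us ≤ (c2 - c1) / 2 * y)
    (hη0 : 0 < η) (hη1 : η ≤ 1)
    (hη2 : η * (Cr / ((θ1 + θ2) / 2)) * (max 1 (1 / ((θ1 + θ2) / 2)) / min 1 (1 / θ1) + 1) < 1) :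
    (c2 - c1) / 2 * η * (min 1 (1 / Cr) * ((θ2 - θ1) / 4) * (θ2 - θ1)) * (min (D.P.e lam y) (D'.P.e lam' y) * y ^ 3)
      ≤ 4 * er := by
  have hd := h.ok.d0
  have hd' := h.ok'.d0
  have hl := h.lam_pos
  have hl' := h.lam_pos'
  have hθ2 : 0 < θ2 := hθ1.trans hθ
  set θm := (θ1 + θ2) / 2 with hθm
  have hθm0 : 0 < θm := by positivity
  set ey := D.P.e lam y with hey
  set Dy := D'.P.e lam' y with hDy
  have hey0 : 0 < ey := cm_e_pos _ hl y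
  have hDy0 : 0 < Dy := cm_e_pos _ hl' y
  obtain ⟨ht0, ht1, hte⟩ := p6_ns_t hey0 hDy0
  set t := min 1 (Dy / ey) with ht
  obtain ⟨q', hq'⟩ := h.fe'
  obtain ⟨q, hq⟩ := h.min.1
  have hzmono : MonotoneOn z (Icc D'.P.u0 1) := hq' ▸ (cm_q_r_strictMono h.cE_pos h.ok' q').monotoneOn
  have hrmono : MonotoneOn r (Icc D.P.u0 1) := hq ▸ (cm_q_r_strictMono h.cE_pos h.ok q).monotoneOn
  have hrmem : ∀ u ∈ Icc D.P.u0 1, r u ∈ Icc D.P.rmin 1 := fun u hu => hq ▸ q.r_mem u hu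
  have hc1y : c1 * y ≤ c2 * y := mul_le_mul_of_nonneg_right hc12.le hy.le
  have hm1 : c1 * y ∈ Icc D.P.u0 1 := ⟨hu0, hc1y.trans hy2⟩
  have hm2 : c2 * y ∈ Icc D.P.u0 1 := ⟨hu0.trans hc1y, hy2⟩
  have hm2' : c2 * y ∈ Icc D'.P.u0 1 := ⟨h.u_le.trans hm2.1, hy2⟩
  obtain ⟨hz2, hr2, hr2'⟩ := hsep _ hc1y le_rfl
  have hCr : 0 < Cr := by
    by_contra hneg
    have : Cr * y ≤ 0 := mul_nonpos_of_nonpos_of_nonneg (not_lt.1 hneg) hy.le
    have : 0 < θ2 * y := by positivity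
    linarith
  have hθ2y : θ2 * y ≤ 1 := hr2.trans (hrmem _ hm2).2
  have hu01 : D.P.u0 ≤ 1 := hm1.1.trans hm1.2
  have hLm0 : 0 ≤ D.P.Lm 1 := p6_Lm_nonneg h.cE_pos h.ok ⟨hu01, le_rfl⟩
  have hrmin0 := h.ok.r0
  have hB0 := p6_B0_pos h.cE_pos h.ok
  have hσ : 0 < (θ2 - θ1) / 4 := by linarith
  have hθmσ : θm * y + (θ2 - θ1) / 4 * y ≤ θ2 * y := by
    have : θ2 * y = θm * y + (θ2 - θ1) / 4 * y + (θ2 - θ1) / 4 * y := by rw [hθm]; ring
    have : 0 ≤ (θ2 - θ1) / 4 * y := by positivity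
    linarith
  have hur : (c1 + c2) / 2 * y + D.P.N ^ (-D.P.dl) * D.P.us ≤ c2 * y := by
    have : c2 * y = (c1 + c2) / 2 * y + (c2 - c1) / 2 * y := by ring
    linarith
  have key := p6_gain_dn h (ul := c1 * y) (ur := (c1 + c2) / 2 * y) (H := θm * y) (t := η * t)
    (g := min 1 (1 / Cr) * ey * ((θ2 - θ1) / 4 * y) * ((θ2 - θ1) * y)) hu0
    (mul_lt_mul_of_pos_right (by linarith) hy) (hur.trans hy2) (by positivity) ?_ ?_ (by positivity) ?_ ?_ ?_ ?_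
  · have e1 : ((c1 + c2) / 2 * y - c1 * y) * (η * t * (min 1 (1 / Cr) * ey * ((θ2 - θ1) / 4 * y) * ((θ2 - θ1) * y)))
        = (c2 - c1) / 2 * η * (min 1 (1 / Cr) * ((θ2 - θ1) / 4) * (θ2 - θ1)) * ((t * ey) * y ^ 3) := by ring
    rw [e1, hte] at key
    exact key
  · -- `rmin ≤ H`
    have : (θ2 - θ1) / 4 * y ≤ θm * y := mul_le_mul_of_nonneg_right (by rw [hθm]; linarith) hy.le
    linarith
  · -- `H + Λ 1 ≤ 1`
    linarith
  · -- `t ≤ 1`
    calc η * t ≤ 1 * 1 := mul_le_mul hη1 ht1 ht0 zero_le_one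
      _ = 1 := one_mul 1
  · -- movement condition
    intro u hu hHr
    have hu2 : u ≤ c2 * y := hu.2.trans hur
    have hum : u ∈ Icc D.P.u0 1 := ⟨hu.1, hu2.trans hy2⟩
    have hum' : u ∈ Icc D'.P.u0 1 := ⟨h.u_le.trans hu.1, hum.2⟩
    have hzu : z u ≤ θ1 * y := (hzmono hum' hm2' hu2).trans hz2
    have hru : r u ≤ Cr * y := (hrmono hum hm2 hu2).trans hr2'
    have hθ1m : θ1 * y < θm * y := mul_lt_mul_of_pos_right (by rw [hθm]; linarith) hy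
    refine ⟨lt_of_le_of_lt hzu hθ1m, ?_⟩
    have hH0 : 0 < θm * y := by positivity
    have hDz0 : 0 < D'.P.e lam' (z u) := cm_e_pos _ hl' _
    have hratio : (r u + D.P.B0) / (θm * y + D.P.B0) ≤ Cr / θm := by
      rw [div_le_div_iff₀ (by positivity) hθm0]
      nlinarith
    have hratio0 : 0 ≤ (r u + D.P.B0) / (θm * y + D.P.B0) := by
      have : 0 ≤ r u := hH0.le.trans hHr
      positivity
    have he1 : D.P.e lam (r u) ≤ max 1 (1 / θm) * ey :=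
      (cm_e_anti _ hd hl.le hHr).trans (p6_e_scale_le hd hl.le hθm0 hy.le)
    have hD1 : min 1 (1 / θ1) * Dy ≤ D'.P.e lam' (z u) :=
      (p6_e_scale_ge hd' hl'.le hθ1 hy.le).trans (cm_e_anti _ hd' hl'.le hzu)
    have hmin0 : 0 < min 1 (1 / θ1) := lt_min one_pos (by positivity)
    have hmax0 : 0 < max 1 (1 / θm) := lt_of_lt_of_le one_pos (le_max_left _ _)
    -- `t e(r) ≤ (max/min) 𝒟(z)`
    have h1 : t * D.P.e lam (r u) ≤ max 1 (1 / θm) / min 1 (1 / θ1) * D'.P.e lam' (z u) := by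
      have a1 : t * D.P.e lam (r u) ≤ max 1 (1 / θm) * (t * ey) := by
        have := mul_le_mul_of_nonneg_left he1 ht0
        linarith
      have a2 : t * ey ≤ Dy := hte ▸ min_le_right _ _
      have a3 : Dy ≤ D'.P.e lam' (z u) / min 1 (1 / θ1) := by
        rw [le_div_iff₀ hmin0]; linarith
      calc t * D.P.e lam (r u) ≤ max 1 (1 / θm) * (t * ey) := a1
        _ ≤ max 1 (1 / θm) * (D'.P.e lam' (z u) / min 1 (1 / θ1)) :=
            mul_le_mul_of_nonneg_left (a2.trans a3) hmax0.le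
        _ = _ := by ring
    have h2 : t * D'.P.e lam' (z u) ≤ 1 * D'.P.e lam' (z u) := mul_le_mul_of_nonneg_right ht1 hDz0.le
    have h3 : t * (D.P.e lam (r u) + D'.P.e lam' (z u))
        ≤ (max 1 (1 / θm) / min 1 (1 / θ1) + 1) * D'.P.e lam' (z u) := by linarith
    have h30 : 0 ≤ t * (D.P.e lam (r u) + D'.P.e lam' (z u)) :=
      mul_nonneg ht0 (add_nonneg (cm_e_pos _ hl _).le hDz0.le)
    calc η * t * ((r u + D.P.B0) / (θm * y + D.P.B0)) * (D.P.e lam (r u) + D'.P.e lam' (z u))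
        = η * ((r u + D.P.B0) / (θm * y + D.P.B0)) * (t * (D.P.e lam (r u) + D'.P.e lam' (z u))) := by ring
      _ ≤ η * (Cr / θm) * ((max 1 (1 / θm) / min 1 (1 / θ1) + 1) * D'.P.e lam' (z u)) :=
          mul_le_mul (mul_le_mul_of_nonneg_left hratio hη0.le) h3 h30 (by positivity)
      _ = (η * (Cr / θm) * (max 1 (1 / θm) / min 1 (1 / θ1) + 1)) * D'.P.e lam' (z u) := by ring
      _ < 1 * D'.P.e lam' (z u) := mul_lt_mul_of_pos_right hη2 hDz0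
      _ = D'.P.e lam' (z u) := one_mul _
  · -- `H + Λ 1 ≤ r`
    intro u hu
    have hu2 : u ≤ c2 * y := hu.2.trans (mul_le_mul_of_nonneg_right (by linarith) hy.le)
    have := (hsep u hu.1 hu2).2.1
    linarith
  · -- the gain density
    intro u hu
    have hu2 : u ≤ c2 * y := hu.2.trans (mul_le_mul_of_nonneg_right (by linarith) hy.le)
    obtain ⟨hz, hr, hr'⟩ := hsep u hu.1 hu2
    have g1 : min 1 (1 / Cr) * ey ≤ D.P.e lam (r u) :=
      (p6_e_scale_ge hd hl.le hCr hy.le).trans (cm_e_anti _ hd hl.le hr')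
    have g2 : (θ2 - θ1) / 4 * y ≤ r u - (θm * y + D.P.Lm 1) := by
      have : θ2 * y = θm * y + (θ2 - θ1) / 4 * y + (θ2 - θ1) / 4 * y := by rw [hθm]; ring
      linarith
    have g3 : (θ2 - θ1) * y ≤ r u - z u := by
      have : (θ2 - θ1) * y = θ2 * y - θ1 * y := by ring
      linarith
    have hmin0 : 0 < min 1 (1 / Cr) := lt_min one_pos (by positivity)
    have hθd : 0 < θ2 - θ1 := sub_pos.2 hθ
    exact mul_le_mul (mul_le_mul g1 g2 (by positivity) (cm_e_pos _ hl _).le) g3 (by positivity)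
      (mul_nonneg (cm_e_pos _ hl _).le (le_trans (by positivity) g2))

/-- a comparability constant `G ≥ 1` -/
theorem p6_ns_G (hk : P6K c cl Ch C0 c0 β) (h : P6Wk fn U c D lam x r cl Ch C0 β j0) {y : ℕ → ℝ}
    (hxy : x =O[U] y) (hy : ∀ᶠ k in U, 0 < y k) : ∃ G : ℝ, 1 ≤ G ∧ ∀ᶠ k in U, x k ≤ G * y k := by
  obtain ⟨G0, hG0⟩ := hxy.bound
  refine ⟨max G0 1, le_max_right _ _, ?_⟩
  filter_upwards [hG0, hy, p6_par_x_pos hk.ok h.toP6Par] with k h1 h2 h3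
  rw [Real.norm_eq_abs, Real.norm_eq_abs, abs_of_pos h3, abs_of_pos h2] at h1
  exact h1.trans (mul_le_mul_of_nonneg_right (le_max_left _ _) h2.le)

/-- omitted mass and forced lengths are `o(y)` -/
theorem p6_ns_small (hk : P6K c cl Ch C0 c0 β) (h : P6Wk fn U c D lam x r cl Ch C0 β j0) {y : ℕ → ℝ} {G ε : ℝ}
    (hG : 1 ≤ G) (hε : 0 < ε) (hxy : ∀ᶠ k in U, x k ≤ G * y k) :
    ∀ᶠ k in U, (D k).P.u0 ≤ ε * y k ∧ (D k).P.rmin + (D k).P.Lm 1 ≤ ε * y k ∧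
      (D k).P.N ^ (-(D k).P.dl) * (D k).P.us ≤ ε * y k := by
  have hG0 : 0 < G := lt_of_lt_of_le one_pos hG
  have hεG : 0 < ε / G := by positivity
  filter_upwards [hxy, h.seq.ok, p6_par_x_pos hk.ok h.toP6Par, (p6_par_u0 hk.ok h.toP6Par).bound hεG,
    (p6_par_forced hk.ok h.toP6Par).bound hεG] with k hxy hok hx hu0 hf
  have hcE := hk.ok.cE_pos
  have hb : ε / G * x k ≤ ε * y k := by
    calc ε / G * x k ≤ ε / G * (G * y k) := mul_le_mul_of_nonneg_left hxy hεG.le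
      _ = ε * y k := by field_simp
  rw [Real.norm_eq_abs, Real.norm_eq_abs, abs_of_pos hx] at hu0 hf
  have hu01 : (D k).P.u0 ≤ 1 := hok.u01.trans (by norm_num)
  have hLm0 : 0 ≤ (D k).P.Lm 1 := p6_Lm_nonneg hcE hok ⟨hu01, le_rfl⟩
  have hr0 := hok.r0
  have hus0 : 0 ≤ (D k).P.N ^ (-(D k).P.dl) * (D k).P.us :=
    mul_nonneg (Real.rpow_nonneg (cm_N_pos hok).le _) (cm_us_pos hcE hok).le
  have h1 := le_abs_self (D k).P.u0
  have h2 := le_abs_self ((D k).P.rmin + (D k).P.Lm 1 + (D k).P.N ^ (-(D k).P.dl) * (D k).P.us)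
  exact ⟨by linarith, by linarith, by linarith⟩

/-- the final contradiction: a cost `κ0 min(e(y),𝒟(y)) y³ ≤ 4 n^{-80δ} e(x) x³` is eventually impossible -/
theorem p6_ns_contra (hk : P6K c cl Ch C0 c0 β) (h : P6Wk fn U c D lam x r cl Ch C0 β j0) {y : ℕ → ℝ} {G κ0 : ℝ}
    (hG : 1 ≤ G) (hκ0 : 0 < κ0) (hxy : ∀ᶠ k in U, x k ≤ G * y k) :
    ∀ᶠ k in U, ¬ κ0 * (min ((D k).P.e (lam k) (y k))
        ((p6Child c0 D lam x r j0 k).P.e ((p6Child c0 D lam x r j0 k).P.d ^ 2) (y k)) * y k ^ 3)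
      ≤ 4 * ((D k).P.N ^ (-(80 * (D k).P.dl)) * ((D k).P.e (lam k) (x k) * x k ^ 3)) := by
  have hdl : 0 < c.dl := by unfold P6C.dl; linarith [hk.ok.m_pos]
  have hG0 : 0 < G := lt_of_lt_of_le one_pos hG
  filter_upwards [p6_wk_min_ge hk h hG hxy, h.lam_rng, p6_par_x_pos hk.ok h.toP6Par, p6_seq_dl h.seq, h.seq.ok,
    p6_seq_pow_small h.seq (s := 80 * c.dl) (ε := κ0 / (8 * G ^ 3)) (by positivity) (by positivity)] with
    k hmin hlam hx hdlk hok hsm hcon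
  rw [hdlk] at hcon
  set mn := min ((D k).P.e (lam k) (y k))
    ((p6Child c0 D lam x r j0 k).P.e ((p6Child c0 D lam x r j0 k).P.d ^ 2) (y k)) * y k ^ 3 with hmn
  set ex := (D k).P.e (lam k) (x k) * x k ^ 3 with hex
  have hex0 : 0 < ex := mul_pos (cm_e_pos _ hlam.1 _) (by positivity)
  have hmn0 : 0 < mn := by
    by_contra hneg
    have : G ^ 3 * mn ≤ 0 := mul_nonpos_of_nonneg_of_nonpos (by positivity) (not_lt.1 hneg)
    linarith
  have h1 : (D k).P.N ^ (-(80 * c.dl)) * ex ≤ κ0 / (8 * G ^ 3) * (G ^ 3 * mn) :=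
    mul_le_mul hsm hmin hex0.le (by positivity)
  have h2 : κ0 / (8 * G ^ 3) * (G ^ 3 * mn) = κ0 * mn / 8 := by field_simp
  have h3 : 0 < κ0 * mn := by positivity
  linarith

/-- **C5d**: no downward separation at any scale `y ≳ x` -/
theorem p6_nosep_dn (hch : P6Chord fn) (hk : P6K c cl Ch C0 c0 β) (h : P6Wk fn U c D lam x r cl Ch C0 β j0) {z : ℕ → ℝ → ℝ}
    (hz : P6Succ fn U (p6Child c0 D lam x r j0) z) {y : ℕ → ℝ} {θ1 θ2 c1 c2 Cr : ℝ} (hθ1 : 0 < θ1) (hθ : θ1 < θ2) (hc1 : 0 < c1) (hc12 : c1 < c2)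
    (hxy : x =O[U] y) (hy : ∀ᶠ k in U, 0 < y k ∧ c2 * y k ≤ 1) :
    ∀ᶠ k in U, ¬ P6SepDn (r k) (z k) (y k) θ1 θ2 c1 c2 Cr := by
  obtain ⟨G, hG, hxG⟩ := p6_ns_G hk h hxy (hy.mono fun _ hk' => hk'.1)
  have hθ2 : 0 < θ2 := hθ1.trans hθ
  have hθd : 0 < θ2 - θ1 := sub_pos.2 hθ
  have hcd : 0 < c2 - c1 := sub_pos.2 hc12
  by_cases hCr : 0 < Cr
  · have hθm : 0 < (θ1 + θ2) / 2 := by positivity
    have hmin1 : 0 < min 1 (1 / θ1) := lt_min one_pos (by positivity)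
    have hminC : 0 < min 1 (1 / Cr) := lt_min one_pos (by positivity)
    have hmaxm : 0 < max 1 (1 / ((θ1 + θ2) / 2)) := lt_of_lt_of_le one_pos (le_max_left _ _)
    set Q := Cr / ((θ1 + θ2) / 2) * (max 1 (1 / ((θ1 + θ2) / 2)) / min 1 (1 / θ1) + 1) with hQ
    have hQ0 : 0 < Q := by positivity
    set η := min 1 (1 / (2 * Q)) with hη
    have hη0 : 0 < η := lt_min one_pos (by positivity)
    have hη1 : η ≤ 1 := min_le_left _ _
    have hη2 : η * (Cr / ((θ1 + θ2) / 2)) * (max 1 (1 / ((θ1 + θ2) / 2)) / min 1 (1 / θ1) + 1) < 1 := by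
      have h1 : η * Q ≤ 1 / (2 * Q) * Q := mul_le_mul_of_nonneg_right (min_le_right _ _) hQ0.le
      have h2 : 1 / (2 * Q) * Q = 1 / 2 := by field_simp
      have h3 : η * (Cr / ((θ1 + θ2) / 2)) * (max 1 (1 / ((θ1 + θ2) / 2)) / min 1 (1 / θ1) + 1) = η * Q := by
        rw [hQ]; ring
      rw [h3]
      linarith
    have hκ0 : 0 < (c2 - c1) / 2 * η * (min 1 (1 / Cr) * ((θ2 - θ1) / 4) * (θ2 - θ1)) := by positivity
    filter_upwards [p6_wk_mv hch hk h hz, hy,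
      p6_ns_small hk h hG (lt_min hc1 (lt_min (show 0 < (θ2 - θ1) / 4 by positivity) (show 0 < (c2 - c1) / 2 by positivity))) hxG,
      p6_ns_contra hk h hG hκ0 hxG] with k hmv hy hsm hcon hsep
    have hs1 : (D k).P.u0 ≤ c1 * y k := hsm.1.trans (mul_le_mul_of_nonneg_right (min_le_left _ _) hy.1.le)
    have hs2 : (D k).P.rmin + (D k).P.Lm 1 ≤ (θ2 - θ1) / 4 * y k :=
      hsm.2.1.trans (mul_le_mul_of_nonneg_right ((min_le_right _ _).trans (min_le_left _ _)) hy.1.le)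
    have hs3 : (D k).P.N ^ (-(D k).P.dl) * (D k).P.us ≤ (c2 - c1) / 2 * y k :=
      hsm.2.2.trans (mul_le_mul_of_nonneg_right ((min_le_right _ _).trans (min_le_right _ _)) hy.1.le)
    exact hcon (p6_nosep_dn_fix hmv hθ1 hθ hc12 hy.1 hy.2 hs1 hsep hs2 hs3 hη0 hη1 hη2)
  · -- `Cr ≤ 0`: the separation is void
    filter_upwards [hy] with k hy hsep
    have hc1y : c1 * y k ≤ c2 * y k := mul_le_mul_of_nonneg_right hc12.le hy.1.le
    obtain ⟨_, h2, h3⟩ := hsep _ le_rfl hc1y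
    have : Cr * y k ≤ 0 := mul_nonpos_of_nonpos_of_nonneg (not_lt.1 hCr) hy.1.le
    have : 0 < θ2 * y k := mul_pos hθ2 hy.1
    linarith

end Claimed.Agent.R286
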