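import Claimed.Agent.R286.Pe6.NoSep

/-! # Row 286, PE Sec. 6: file `Pe6/Succ` = the closed files P124, Succ merged (file cap, helper14 04:2xZ); every part keeps its own header, owners and namespace block. -/

/-!
# Row 286 (S0533), PE Section 6: personal file of helper124 (co-architect of Prop. 6.6 + Cor. 6.7; section head helper14; prefix `p6ch_`)

Imports only Pe6/Imports.      All PROVED.      TEX[PE:reg:finite-propagation] (propagation.tex l.529-637), the parts which do not need the nodes L6.2 / L6.5: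
* `p6ch_lo_*`, `p6ch_hi_*`   the loose constants.
* `p6ch_select`   choice of an offending mass within a factor two of the supremum.
* `p6ch_strong`   sufficient local strength `x² ≲ e(x)` excludes a failure at `x` (direct test / macroscopic test)      = `p6_strong`.
* `p6ch_consts`   "fix the bounds and the recursion depth".
-/

set_option autoImplicit false

namespace Claimed.Agent.R286

open Filter Topology Set MeasureTheory Asymptotics

/-! ## the loose constants -/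

theorem p6ch_lo_pos {Cκ cT : ℝ} (hκ : 0 < Cκ) (hT : 0 < cT) : 0 < p6Lo Cκ cT := by
  unfold p6Lo
  refine lt_min (by norm_num) (lt_min (by positivity) (by positivity))

theorem p6ch_lo_le (Cκ cT : ℝ) : p6Lo Cκ cT ≤ 1 / 2 := min_le_left _ _

theorem p6ch_lo_le_T (Cκ cT : ℝ) : p6Lo Cκ cT ≤ cT / 3 := (min_le_right _ _).trans (min_le_left _ _)

theorem p6ch_lo_le_κ (Cκ cT : ℝ) : p6Lo Cκ cT ≤ 1 / (2 * Cκ) := (min_le_right _ _).trans (min_le_right _ _)

theorem p6ch_hi_ge (cκ CT : ℝ) : 3 ≤ p6Hi cκ CT := le_max_left _ _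

theorem p6ch_hi_ge_T (cκ CT : ℝ) : 3 * CT ≤ p6Hi cκ CT := (le_max_left _ _).trans (le_max_right _ _)

theorem p6ch_hi_ge_κ (cκ CT : ℝ) : 2 / cκ ≤ p6Hi cκ CT := (le_max_right _ _).trans (le_max_right _ _)

/-! ## feasible quantiles -/

theorem p6ch_fe_mono {P : CmCall} {cE D0 : ℝ} (hc : 0 < cE) (h : P.Ok cE D0) {z : ℝ → ℝ} (hz : P.Fe z) :
    MonotoneOn z (Icc P.u0 1) := by
  obtain ⟨q, rfl⟩ := hz
  exact (cm_q_r_strictMono hc h q).monotoneOn

theorem p6ch_fe_mem {P : CmCall} {z : ℝ → ℝ} (hz : P.Fe z) {u : ℝ} (hu : u ∈ Icc P.u0 1) : z u ∈ Icc P.rmin 1 := by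
  obtain ⟨q, rfl⟩ := hz
  exact q.r_mem u hu

/-! ## selection of the bad scale -/

/-- an offending mass within a factor two of the supremum of all offending masses -/
theorem p6ch_select {r : ℝ → ℝ} {cl Ch A : ℝ} (hA : 0 < A) (h : ∃ u, A ≤ u ∧ u ≤ 1 ∧ P6Off r cl Ch u) :
    ∃ x, A ≤ x ∧ x ≤ 1 ∧ P6Off r cl Ch x ∧ ∀ u, 2 * x ≤ u → u ≤ 1 → cl * u ≤ r u ∧ r u ≤ Ch * u := by
  set S : Set ℝ := {u | A ≤ u ∧ u ≤ 1 ∧ P6Off r cl Ch u} with hS
  have hbd : BddAbove S := ⟨1, fun u hu => hu.2.1⟩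
  obtain ⟨u0, hu0⟩ : S.Nonempty := h
  have hs : A ≤ sSup S := hu0.1.trans (le_csSup hbd hu0)
  have hlt : sSup S / 2 < sSup S := by linarith
  obtain ⟨x, hxS, hx⟩ := exists_lt_of_lt_csSup ⟨u0, hu0⟩ hlt
  refine ⟨x, hxS.1, hxS.2.1, hxS.2.2, fun u hu hu1 => ?_⟩
  by_contra hoff
  have huS : u ∈ S := ⟨by linarith [hxS.1], hu1, hoff⟩
  have := le_csSup hbd huS
  linarith

/-! ## eventual facts of a parent call -/

section

variable {fn : ℕ → (ℝ → ℝ) → (ℝ → ℝ) → ℝ} {c : P6C} {cκ Cκ cT CT : ℝ} {U : Ultrafilter ℕ}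
  {D : ℕ → P6D} {lam x : ℕ → ℝ} {r : ℕ → ℝ → ℝ}

/-- `0 < a ≤ A_λ ≤ y` and `n E² ≤ e(y) y²` -/
theorem p6ch_scale {P : CmCall} {cE D0 l y : ℝ} (hc : 0 < cE) (h : P.Ok cE D0) (hl : 0 < l) (hl2 : l ≤ P.d ^ 2) (hy : P.Al l ≤ y) :
    0 < P.a ∧ P.a ≤ P.Al l ∧ P.a ≤ y ∧ P.N * P.E ^ 2 ≤ P.e l y * y ^ 2 := by
  have ha := cm_a_pos hc h
  have hN1 : 1 ≤ P.N := by linarith [cm_N_ge h]
  have hp1 : 1 ≤ P.N ^ P.dl := Real.one_le_rpow hN1 (cm_dl_pos h).le
  have h1 : P.a ≤ P.Al l := by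
    refine le_trans ?_ (cm_Al_ge hc h hl hl2)
    nlinarith
  have h2 := cm_e_Al hc h hl hl2 hy
  have h3 : 0 ≤ P.N * P.E ^ 2 := by have := cm_N_pos h; positivity
  refine ⟨ha, h1, h1.trans hy, le_trans ?_ h2⟩
  nlinarith

/-- the omitted mass tends to zero -/
theorem p6ch_u0_zero (hc : c.Ok) (seq : P6Seq U c D) : Tendsto (fun k => (D k).P.u0) U (𝓝 0) := by
  have h1 : (fun k => (D k).P.a) =O[U] (fun _ => (1 : ℝ)) := by
    refine aq_O_of_le c.D0 ?_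
    filter_upwards [seq.ok] with k hk
    rw [abs_of_pos (cm_a_pos hc.cE_pos hk), mul_one]
    exact (cm_a_le_d hc.cE_pos hk).trans hk.d1
  exact aq_o_one_iff.1 (seq.u0_small.trans_isBigO h1)

/-- **sufficient local strength excludes a failure at `x`** (first half of "a failed parent profile forces a failed child error") -/
theorem p6ch_strong (hI : P6Imports fn c cκ Cκ cT CT) (hc : c.Ok)
    (h : P6Par fn U c D lam x r (p6Lo Cκ cT) (p6Hi cκ CT) 2)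
    (hs : (fun k => x k ^ 2) =O[U] (fun k => (D k).P.e (lam k) (x k))) :
    ∀ᶠ k in U, ¬ P6Off (r k) (p6Lo Cκ cT) (p6Hi cκ CT) (x k) := by
  have hcκ := hI.κ_rng.1
  have hCκ : 0 < Cκ := hcκ.trans_le hI.κ_rng.2
  have hcT := hI.T_rng.1
  have hlo := p6ch_lo_pos hCκ hcT
  have hhi : 0 < p6Hi cκ CT := by linarith [p6ch_hi_ge cκ CT]
  have hfacts : ∀ᶠ k in U, 0 < (D k).P.a ∧ (D k).P.a ≤ x k ∧ (D k).P.N * (D k).P.E ^ 2 ≤ (D k).P.e (lam k) (x k) * x k ^ 2 := by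
    filter_upwards [h.seq.ok, h.lam_rng, h.x_rng] with k hk hl hx
    obtain ⟨a1, -, a3, a4⟩ := p6ch_scale hc.cE_pos hk hl.1 hl.2 hx.1
    exact ⟨a1, a3, a4⟩
  have hxpos : ∀ᶠ k in U, 0 < x k := hfacts.mono fun k hk => hk.1.trans_le hk.2.1
  rcases aq_ultra_zero_or_pos U x with hx0 | ⟨c1, hc1, hxc⟩
  · -- small scale: the direct test
    have ha : (fun k => (D k).P.a) =O[U] x := by
      refine aq_O_of_le 1 ?_
      filter_upwards [hfacts] with k hk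
      rw [abs_of_pos hk.1, one_mul]; exact hk.2.1
    have hE : (fun k => (D k).P.N * (D k).P.E ^ 2) =O[U] (fun k => (D k).P.e (lam k) (x k) * x k ^ 2) := by
      refine aq_O_of_le 1 ?_
      filter_upwards [hfacts, h.seq.ok] with k hk hok
      have : 0 ≤ (D k).P.N * (D k).P.E ^ 2 := by have := cm_N_pos hok; positivity
      rw [abs_of_nonneg this, one_mul]; exact hk.2.2
    obtain ⟨κ, hκ1, hκ2, hlim⟩ := hI.direct U D lam x r (p6Lo Cκ cT) (p6Hi cκ CT) 2 hlo hhi (by norm_num) h.seq h.lam_rng h.fam h.min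
      hxpos hx0 ha hE hs h.outer
    have hκ : 0 < κ := hcκ.trans_le hκ1
    have h1 := hlim 1 one_pos
    have hlo' : p6Lo Cκ cT < 1 / κ := by
      have a1 : 1 / (2 * Cκ) < 1 / Cκ := by
        apply one_div_lt_one_div_of_lt hCκ; linarith
      have a2 : 1 / Cκ ≤ 1 / κ := one_div_le_one_div_of_le hκ hκ2
      linarith [p6ch_lo_le_κ Cκ cT]
    have hhi' : 1 / κ < p6Hi cκ CT := by
      have a1 : 1 / cκ < 2 / cκ := by
        apply div_lt_div_of_pos_right (by norm_num) hcκ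
      have a2 : 1 / κ ≤ 1 / cκ := one_div_le_one_div_of_le hcκ hκ1
      linarith [p6ch_hi_ge_κ cκ CT]
    filter_upwards [h1.eventually (lt_mem_nhds hlo'), h1.eventually (gt_mem_nhds hhi'), hxpos] with k k1 k2 k3
    rw [mul_one] at k1 k2
    rw [lt_div_iff₀ k3] at k1
    rw [div_lt_iff₀ k3] at k2
    intro hoff
    exact hoff ⟨k1.le, k2.le⟩
  · -- macroscopic scale
    have hxc' : ∀ᶠ k in U, c1 ≤ x k ∧ x k ≤ 1 := by
      filter_upwards [hxc, hxpos, h.x_rng] with k k1 k2 k3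
      rw [abs_of_pos k2] at k1
      exact ⟨k1, k3.2⟩
    obtain ⟨K, hK, hKb⟩ := aq_O_bound hs (by
      filter_upwards [h.lam_rng] with k hl
      exact cm_e_nonneg _ hl.1.le _)
    set c2 : ℝ := min c1 K⁻¹ with hc2
    have hc2pos : 0 < c2 := lt_min hc1 (inv_pos.2 hK)
    have hm1 : ∀ᶠ k in U, c2 ≤ x k ∧ x k ≤ 1 := hxc'.mono fun k hk => ⟨(min_le_left _ _).trans hk.1, hk.2⟩
    have hm2 : ∀ᶠ k in U, c2 * x k ^ 2 ≤ (D k).P.e (lam k) (x k) := by
      filter_upwards [hKb] with k hk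
      rw [abs_of_nonneg (sq_nonneg _)] at hk
      have a1 : c2 * x k ^ 2 ≤ K⁻¹ * x k ^ 2 := mul_le_mul_of_nonneg_right (min_le_right _ _) (sq_nonneg _)
      have a2 : K⁻¹ * x k ^ 2 ≤ K⁻¹ * (K * (D k).P.e (lam k) (x k)) := mul_le_mul_of_nonneg_left hk (inv_pos.2 hK).le
      rw [← mul_assoc, inv_mul_cancel₀ hK.ne', one_mul] at a2
      exact a1.trans a2
    obtain ⟨q, hq, hlim⟩ := hI.macr U D lam x r c2 hc2pos h.seq h.lam_rng h.fam h.min hm1 hm2
    obtain ⟨X, hX, hxX⟩ := aq_ultra_lim_Icc U (f := x) (a := c1) (b := 1) (hxc'.mono fun k hk => hk)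
    have hX0 : 0 < X := hc1.trans_le hX.1
    have hu0 := p6ch_u0_zero hc h.seq
    have hmono : ∀ᶠ k in U, MonotoneOn (r k) (Icc (D k).P.u0 1) ∧ ∀ u ∈ Icc (D k).P.u0 1, r k u ≤ 1 := by
      filter_upwards [h.seq.ok, h.min] with k hok hmin
      exact ⟨p6ch_fe_mono hc.cE_pos hok hmin.1, fun u hu => (p6ch_fe_mem hmin.1 hu).2⟩
    -- lower bound
    have hlow : ∀ᶠ k in U, p6Lo Cκ cT * x k ≤ r k (x k) := by
      have hv : 0 < X / 2 ∧ X / 2 < 1 := ⟨by linarith, by linarith [hX.2]⟩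
      have l1 := hlim (X / 2) hv.1 hv.2
      have l2 := (hq (X / 2) hv.1 hv.2).1
      have l3 : Tendsto (fun k => p6Lo Cκ cT * x k) U (𝓝 (p6Lo Cκ cT * X)) := hxX.const_mul _
      have l4 : p6Lo Cκ cT * X < q (X / 2) := by
        have : p6Lo Cκ cT * X ≤ cT / 3 * X := mul_le_mul_of_nonneg_right (p6ch_lo_le_T Cκ cT) hX0.le
        nlinarith
      filter_upwards [l3.eventually_lt l1 l4, hmono, hu0.eventually (gt_mem_nhds hv.1), hxX.eventually (lt_mem_nhds (show X / 2 < X by linarith)), hxc']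
        with k k1 k2 k3 k4 k5
      exact k1.le.trans (k2.1 ⟨k3.le, hv.2.le⟩ ⟨k3.le.trans k4.le, k5.2⟩ k4.le)
    -- upper bound
    have hupp : ∀ᶠ k in U, r k (x k) ≤ p6Hi cκ CT * x k := by
      rcases lt_or_ge X (1 / 2) with hX2 | hX2
      · have hv : 0 < 2 * X ∧ 2 * X < 1 := ⟨by linarith, by linarith⟩
        have l1 := hlim (2 * X) hv.1 hv.2
        have l2 := (hq (2 * X) hv.1 hv.2).2
        have l3 : Tendsto (fun k => p6Hi cκ CT * x k) U (𝓝 (p6Hi cκ CT * X)) := hxX.const_mul _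
        have hCT : 0 < CT := hcT.trans_le hI.T_rng.2
        have l4 : q (2 * X) < p6Hi cκ CT * X := by
          have : 3 * CT * X ≤ p6Hi cκ CT * X := mul_le_mul_of_nonneg_right (p6ch_hi_ge_T cκ CT) hX0.le
          nlinarith
        filter_upwards [l1.eventually_lt l3 l4, hmono, hu0.eventually (gt_mem_nhds hc1), hxX.eventually (gt_mem_nhds (show X < 2 * X by linarith)), hxc']
          with k k1 k2 k3 k4 k5
        exact (k2.1 ⟨k3.le.trans k5.1, k5.2⟩ ⟨(k3.le.trans k5.1).trans k4.le, hv.2.le⟩ k4.le).trans k1.le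
      · filter_upwards [hmono, hu0.eventually (gt_mem_nhds hc1), hxX.eventually (lt_mem_nhds (show 1 / 3 < X by linarith)), hxc'] with k k2 k3 k4 k5
        have a1 := k2.2 (x k) ⟨k3.le.trans k5.1, k5.2⟩
        have a2 : 3 * x k ≤ p6Hi cκ CT * x k := mul_le_mul_of_nonneg_right (p6ch_hi_ge cκ CT) (by linarith)
        linarith
    filter_upwards [hlow, hupp] with k k1 k2 hoff
    exact hoff ⟨k1, k2⟩

end

/-! ## the constants of the chain -/

/-- `E ≥ cE² n^{-5/6+2m}` -/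
theorem p6ch_E_ge {P : CmCall} {cE D0 : ℝ} (hc : 0 < cE) (h : P.Ok cE D0) : cE ^ 2 * P.N ^ (-(5 / 6 : ℝ) + 2 * P.m) ≤ P.E := by
  have hN := cm_N_pos h
  have h1 : cE * P.N ^ (-(1 / 6 : ℝ) + P.m) ≤ P.d := (cm_a_ge hc h).trans (cm_a_le_d hc h)
  have h2 : cE * P.N ^ (-(2 / 3 : ℝ) + P.m) * (cE * P.N ^ (-(1 / 6 : ℝ) + P.m)) ≤ P.E :=
    (mul_le_mul_of_nonneg_left h1 (by positivity)).trans h.E1
  have h3 : P.N ^ (-(2 / 3 : ℝ) + P.m) * P.N ^ (-(1 / 6 : ℝ) + P.m) = P.N ^ (-(5 / 6 : ℝ) + 2 * P.m) := by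
    rw [← Real.rpow_add hN]; congr 1; ring
  calc cE ^ 2 * P.N ^ (-(5 / 6 : ℝ) + 2 * P.m) = cE * P.N ^ (-(2 / 3 : ℝ) + P.m) * (cE * P.N ^ (-(1 / 6 : ℝ) + P.m)) := by
        rw [← h3]; ring
    _ ≤ P.E := h2

/-- "fix the bounds and the recursion depth": the depth `n0` and the child coefficient `c0` -/
theorem p6ch_consts {c : P6C} {β0 : ℝ} (hc : c.Ok) (hβ0 : 0 < β0) :
    ∃ (n0 : ℕ) (c0 : ℝ), 10 ≤ (n0 : ℝ) * c.dl ∧ 0 < c0 ∧ ((n0 : ℝ) + 1) * c0 ^ 2 ≤ 1 ∧ ((n0 : ℝ) + 1) * c0 ^ 2 ≤ β0 ∧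
      c0 ^ 2 < c.Tinf - c.ρ ∧ c0 ≤ c.D0 := by
  have hdl : 0 < c.dl := by unfold P6C.dl; linarith [hc.m_pos]
  obtain ⟨n0, hn0⟩ := exists_nat_ge (10 / c.dl)
  have hn1 : (0:ℝ) < (n0 : ℝ) + 1 := by positivity
  set μ : ℝ := min (min 1 β0 / ((n0 : ℝ) + 1)) (min ((c.Tinf - c.ρ) / 2) (c.D0 ^ 2)) with hμ
  have hμ0 : 0 < μ := by
    refine lt_min (div_pos (lt_min one_pos hβ0) hn1) (lt_min (by linarith [hc.ρ_lt]) (by have := hc.D0_pos; positivity))
  have hsq : Real.sqrt μ ^ 2 = μ := Real.sq_sqrt hμ0.le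
  have h1 : ((n0 : ℝ) + 1) * μ ≤ min 1 β0 := by
    have : μ ≤ min 1 β0 / ((n0 : ℝ) + 1) := min_le_left _ _
    rw [le_div_iff₀ hn1] at this
    linarith
  refine ⟨n0, Real.sqrt μ, ?_, Real.sqrt_pos.2 hμ0, ?_, ?_, ?_, ?_⟩
  · rw [div_le_iff₀ hdl] at hn0; exact hn0
  · rw [hsq]; exact h1.trans (min_le_left _ _)
  · rw [hsq]; exact h1.trans (min_le_right _ _)
  · rw [hsq]
    have : μ ≤ (c.Tinf - c.ρ) / 2 := (min_le_right _ _).trans (min_le_left _ _)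
    linarith [hc.ρ_lt]
  · have : μ ≤ c.D0 ^ 2 := (min_le_right _ _).trans (min_le_right _ _)
    exact (Real.sqrt_le_sqrt this).trans (by rw [Real.sqrt_sq hc.D0_pos.le])

end Claimed.Agent.R286

/-!
# Row 286, PE Lemma 6.5 (a successful child error excludes a parent failure) and the strong case of the proof of Prop. 6.6      OWNER: helper14 (architect); provers helper264 (L6.5), helper124 (strong case).  0 sorry.

NO Helly, NO agreement in measure: only `p6_nosep_up/dn` + monotone bracketing.      `cl = p6Lo Cκ cT`, `Ch = p6Hi cκ CT`, cutoff `C0 = 2`.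

`p6_succ`.   Dichotomy `aq_ultra_zero_or_pos U x`.
 (a) `x → 0`.   (a1) `p6_child_reg`: the child's `z` is regular above `x` with constants `(cl/4, 4 Ch, 4)`: a violating mass `y ≥ 4x`:
        `z y > 4 Ch y` ⇒ `y < 1/4`, on `[y,2y]`: `z ≥ 4 Ch y`, `r ≤ 2 Ch y`: `P6SepUp` (`θ1 = 2Ch, θ2 = 4Ch, c1 = 1, c2 = 2`);
        `z y < (cl/4) y` ⇒ on `[y/2,y]`: `z ≤ (cl/4) y`, `(cl/2) y ≤ r ≤ Ch y`: `P6SepDn` (`θ1 = cl/4, θ2 = cl/2, c1 = 1/2, c2 = 1, Cr = Ch`).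
     (a2) `P6ImpDirect` for the child at `x`: `a' ≤ c0 x`, `n E'² ≤ c0⁴ x⁴ ≲ 𝒟(x) x²`, `𝒟(x) = c0² f(1/c0) x²`.   So `z(x v)/x → v/κ`, `cκ ≤ κ ≤ Cκ`.
     (a3) transfer at `v = 1`:  `r x > Ch x ≥ (2/cκ) x` ⇒ on `[x, 3x/2]`: `z ≤ z(3x/2) ≤ (7/4)/cκ x`, `r ≥ (2/cκ) x`, `r ≤ r(2x) ≤ 2 Ch x`: `P6SepDn`;
                              `r x < cl x ≤ x/(2Cκ)` ⇒ on `[3x/4, x]`: `z ≥ z(3x/4) ≥ (5/8)/Cκ x`, `r ≤ x/(2Cκ)`: `P6SepUp`.
 (b) `x ≥ c1 > 0`, `x → x∞ ∈ [c1,1]` (`aq_ultra_lim_Icc`).   `P6ImpMacro` for the child: `z v → q v`, `cT v ≤ q v ≤ CT v`.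
     upper: if `x∞ ≥ 1/2`: `r ≤ 1 ≤ 3 x`.   if `x∞ < 1/2`: `r x > Ch x ≥ 3 CT x` ⇒ on `[x, 3x/2]`: `z ≤ z(1.6 x∞) ≤ 2 CT x`: `P6SepDn` with `Cr = 1/c1`.
     lower: `r x < cl x ≤ (cT/3) x` ⇒ on `[3x/4, x]`: `z ≥ z(0.7 x∞) ≥ 0.6 cT x`: `P6SepUp`.
`p6_strong`: the same two imports applied to the PARENT itself (`a ≲ x`, `nE² ≲ e(x)x²` from `p6_par_a_x`, `p6_par_e_x`); (a) `r(x)/x → 1/κ ∈ [1/Cκ, 1/cκ]`, strictly inside `(cl, Ch)`; (b) bracketing `r(0.9 x∞) ≤ r(x) ≤ r(1.1 x∞)`.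
-/

set_option autoImplicit false

namespace Claimed.Agent.R286

open Filter Topology Set MeasureTheory Asymptotics

variable {fn : ℕ → (ℝ → ℝ) → (ℝ → ℝ) → ℝ} {U : Ultrafilter ℕ} {c : P6C} {D : ℕ → P6D} {lam x : ℕ → ℝ} {r : ℕ → ℝ → ℝ} {cl Ch c0 β cκ Cκ cT CT : ℝ} {j0 : ℕ → ℝ}

theorem p6Lo_pos (hκ : 0 < cκ ∧ cκ ≤ Cκ) (hT : 0 < cT ∧ cT ≤ CT) : 0 < p6Lo Cκ cT := by
  have h1 : 0 < Cκ := lt_of_lt_of_le hκ.1 hκ.2
  unfold p6Lo
  refine lt_min (by norm_num) (lt_min (by linarith [hT.1]) (by positivity))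

theorem p6Lo_le_one : p6Lo Cκ cT ≤ 1 := (min_le_left _ _).trans (by norm_num)

theorem p6Hi_ge_one : 1 ≤ p6Hi cκ CT := le_trans (by norm_num) (le_max_left _ _)

/-- the facts at a fixed index which the bracketing arguments use -/
structure P6Sb (u0 j0 x : ℝ) (r z : ℝ → ℝ) (cl Ch : ℝ) : Prop where
  x0 : 0 < x
  x1 : x ≤ 1
  j00 : 0 ≤ j0
  ju : j0 ≤ u0
  ux : u0 ≤ x / 2
  rM : MonotoneOn r (Icc u0 1)
  rR : ∀ u ∈ Icc u0 1, 0 ≤ r u ∧ r u ≤ 1
  zM : MonotoneOn z (Icc j0 1)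
  zR : ∀ u ∈ Icc j0 1, 0 ≤ z u ∧ z u ≤ 1
  reg : P6Reg u0 r cl Ch 2 x

theorem p6_sb_ev (hk : P6K c cl Ch 2 c0 β) (h : P6Wk fn U c D lam x r cl Ch 2 β j0) {z : ℕ → ℝ → ℝ}
    (hz : P6Succ fn U (p6Child c0 D lam x r j0) z) :
    ∀ᶠ k in U, P6Sb (D k).P.u0 (j0 k) (x k) (r k) (z k) cl Ch := by
  have hc := hk.ok
  have u0x := aq_o_bound (p6_par_u0 hc h.toP6Par) ((p6_par_x_pos hc h.toP6Par).mono fun k hk => hk.le)
    (show (0:ℝ) < 1 / 2 by norm_num)
  filter_upwards [p6_par_x_pos hc h.toP6Par, h.x_rng, h.j0_rng, u0x, h.seq.ok, h.min, p6_child_ok hk h, hz.min, h.outer]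
    with k hx0 hx hj hu hok hmin hok' hzmin hreg
  obtain ⟨rM, rR⟩ := p6_fe_rng hc.cE_pos hok hmin.1
  obtain ⟨zM, zR⟩ := p6_fe_rng hc.cE_pos hok' hzmin.1
  exact ⟨hx0, hx.2, hj.1, hj.2, by have := (le_abs_self _).trans hu; linarith, rM, rR, zM, zR, hreg⟩

/-- downward separation at the scale `x` on `[x, c2 x]` from three point values -/
theorem P6Sb.sep_dn {u0 j0 x cl Ch θ1 θ2 c2 Cr : ℝ} {r z : ℝ → ℝ} (b : P6Sb u0 j0 x r z cl Ch) (_hc2 : 1 ≤ c2) (hc2x : c2 * x ≤ 1)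
    (h1 : θ2 * x ≤ r x) (h2 : z (c2 * x) ≤ θ1 * x) (h3 : r (c2 * x) ≤ Cr * x) : P6SepDn r z x θ1 θ2 1 c2 Cr := by
  intro u hu1 hu2
  rw [one_mul] at hu1
  have hx0 := b.x0
  have hux : u0 ≤ x := by linarith [b.ux]
  have m1 : x ∈ Icc u0 1 := ⟨hux, b.x1⟩
  have m2 : u ∈ Icc u0 1 := ⟨hux.trans hu1, hu2.trans hc2x⟩
  have m3 : c2 * x ∈ Icc u0 1 := ⟨hux.trans (hu1.trans hu2), hc2x⟩
  have n2 : u ∈ Icc j0 1 := ⟨b.ju.trans m2.1, m2.2⟩
  have n3 : c2 * x ∈ Icc j0 1 := ⟨b.ju.trans m3.1, m3.2⟩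
  exact ⟨(b.zM n2 n3 hu2).trans h2, h1.trans (b.rM m1 m2 hu1), (b.rM m2 m3 hu2).trans h3⟩

/-- upward separation at the scale `x` on `[c1 x, x]` from two point values -/
theorem P6Sb.sep_up {u0 j0 x cl Ch θ1 θ2 c1 : ℝ} {r z : ℝ → ℝ} (b : P6Sb u0 j0 x r z cl Ch) (hc1 : 1 / 2 ≤ c1)
    (h1 : r x ≤ θ1 * x) (h2 : θ2 * x ≤ z (c1 * x)) : P6SepUp r z x θ1 θ2 c1 1 := by
  intro u hu1 hu2
  rw [one_mul] at hu2
  have hx0 := b.x0
  have hux : u0 ≤ c1 * x := by nlinarith [b.ux]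
  have m1 : x ∈ Icc u0 1 := ⟨hux.trans (hu1.trans hu2), b.x1⟩
  have m2 : u ∈ Icc u0 1 := ⟨hux.trans hu1, hu2.trans b.x1⟩
  have m3 : c1 * x ∈ Icc u0 1 := ⟨hux, (hu1.trans hu2).trans b.x1⟩
  have n2 : u ∈ Icc j0 1 := ⟨b.ju.trans m2.1, m2.2⟩
  have n3 : c1 * x ∈ Icc j0 1 := ⟨b.ju.trans m3.1, m3.2⟩
  exact ⟨(b.rM m2 m1 hu2).trans h1, h2.trans (b.zM n3 n2 hu1)⟩

/-- (a1): the successful child is regular above `x` -/
theorem p6_child_reg (hch : P6Chord fn) (hk : P6K c cl Ch 2 c0 β) (h : P6Wk fn U c D lam x r cl Ch 2 β j0) {z : ℕ → ℝ → ℝ}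
    (hz : P6Succ fn U (p6Child c0 D lam x r j0) z) :
    ∀ᶠ k in U, P6Reg (j0 k) (z k) (cl / 4) (4 * Ch) 4 (x k) := by
  have hcl := hk.cl_pos
  have hCh : 0 < Ch := by linarith [hk.Ch_ge]
  by_contra hcon
  have hcon' : ∀ᶠ k in U, ¬ P6Reg (j0 k) (z k) (cl / 4) (4 * Ch) 4 (x k) := (U.em _).resolve_left hcon
  have hex : ∀ᶠ k in U, ∃ y, 4 * x k ≤ y ∧ y ≤ 1 ∧ j0 k ≤ y ∧ (z k y < cl / 4 * y ∨ 4 * Ch * y < z k y) := by
    filter_upwards [hcon'] with k hk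
    unfold P6Reg at hk
    push Not at hk
    obtain ⟨u, h1, h2, h3, h4⟩ := hk
    refine ⟨u, h1, h2, h3, ?_⟩
    by_cases h5 : cl / 4 * u ≤ z k u
    · right; exact h4 h5
    · left; exact not_le.1 h5
  obtain ⟨y, hy⟩ := hex.choice
  have base := p6_sb_ev hk h hz
  have hxy : x =O[U] y := by
    refine aq_O_of_le 1 ?_
    filter_upwards [base, hy] with k b hy
    rw [abs_of_pos b.x0]; linarith [b.x0, hy.1]
  rcases U.eventually_or.1 (hy.mono fun k h => h.2.2.2) with hdn | hup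
  · have sep : ∀ᶠ k in U, P6SepDn (r k) (z k) (y k) (cl / 4) (cl / 2) (1 / 2) 1 Ch := by
      filter_upwards [base, hy, hdn] with k b hy hdn
      intro u hu1 hu2
      rw [one_mul] at hu2
      have hx0 := b.x0
      have h2x : 2 * x k ≤ u := by linarith [hy.1]
      have hu0 : (D k).P.u0 ≤ u := by linarith [b.ux]
      have hu1' : u ≤ 1 := hu2.trans hy.2.1
      have hr := b.reg u h2x hu1' hu0
      have hzz : z k u ≤ z k (y k) := b.zM ⟨b.ju.trans hu0, hu1'⟩ ⟨hy.2.2.1, hy.2.1⟩ hu2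
      refine ⟨by linarith, ?_, ?_⟩
      · have : cl * (1 / 2 * y k) ≤ cl * u := mul_le_mul_of_nonneg_left hu1 hcl.le
        linarith [hr.1]
      · exact hr.2.trans (mul_le_mul_of_nonneg_left hu2 hCh.le)
    have ns := p6_nosep_dn hch hk h hz (y := y) (θ1 := cl / 4) (θ2 := cl / 2) (c1 := 1 / 2) (c2 := 1) (Cr := Ch)
      (by positivity) (by linarith) (by norm_num) (by norm_num) hxy
      (by filter_upwards [base, hy] with k b hy; exact ⟨by linarith [b.x0, hy.1], by linarith [hy.2.1]⟩)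
    obtain ⟨k, h1, h2⟩ := (sep.and ns).exists
    exact h2 h1
  · have hy4 : ∀ᶠ k in U, 0 < y k ∧ 2 * y k ≤ 1 := by
      filter_upwards [base, hy, hup] with k b hy hup
      have hy0 : 0 < y k := by linarith [b.x0, hy.1]
      have h1 := (b.zR (y k) ⟨hy.2.2.1, hy.2.1⟩).2
      refine ⟨hy0, ?_⟩
      have : 4 * y k ≤ 4 * Ch * y k := by nlinarith [hk.Ch_ge]
      linarith
    have sep : ∀ᶠ k in U, P6SepUp (r k) (z k) (y k) (2 * Ch) (4 * Ch) 1 2 := by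
      filter_upwards [base, hy, hup, hy4] with k b hy hup hy4
      intro u hu1 hu2
      rw [one_mul] at hu1
      have hx0 := b.x0
      have h2x : 2 * x k ≤ u := by linarith [hy.1]
      have hu0 : (D k).P.u0 ≤ u := by linarith [b.ux]
      have hu1' : u ≤ 1 := hu2.trans hy4.2
      have hr := b.reg u h2x hu1' hu0
      have hzz : z k (y k) ≤ z k u := b.zM ⟨hy.2.2.1, hy.2.1⟩ ⟨b.ju.trans hu0, hu1'⟩ hu1
      refine ⟨?_, by linarith⟩
      calc r k u ≤ Ch * u := hr.2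
        _ ≤ Ch * (2 * y k) := mul_le_mul_of_nonneg_left hu2 hCh.le
        _ = 2 * Ch * y k := by ring
    have ns := p6_nosep_up hch hk h hz (y := y) (θ1 := 2 * Ch) (θ2 := 4 * Ch) (c1 := 1) (c2 := 2)
      (by positivity) (by linarith) (by norm_num) (by norm_num) hxy hy4
    obtain ⟨k, h1, h2⟩ := (sep.and ns).exists
    exact h2 h1

/-- (a2): numerical direct-test conditions of the child at `x` -/
theorem p6_child_direct_num (hk : P6K c cl Ch 2 c0 β) (h : P6Wk fn U c D lam x r cl Ch 2 β j0) :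
    (fun k => (p6Child c0 D lam x r j0 k).P.a) =O[U] x ∧
    (fun k => (p6Child c0 D lam x r j0 k).P.N * (p6Child c0 D lam x r j0 k).P.E ^ 2) =O[U]
      (fun k => (p6Child c0 D lam x r j0 k).P.e ((p6Child c0 D lam x r j0 k).P.d ^ 2) (x k) * x k ^ 2) ∧
    (fun k => x k ^ 2) =O[U] (fun k => (p6Child c0 D lam x r j0 k).P.e ((p6Child c0 D lam x r j0 k).P.d ^ 2) (x k)) := by
  have hc := hk.ok
  have hc0 := hk.c0_pos
  have hf : 0 < cmF (1 / c0) := cm_f_pos _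
  have hDx : ∀ᶠ k in U, (p6Child c0 D lam x r j0 k).P.e ((p6Child c0 D lam x r j0 k).P.d ^ 2) (x k)
      = c0 ^ 2 * cmF (1 / c0) * x k ^ 2 := by
    filter_upwards [p6_par_x_pos hc h.toP6Par] with k hx
    exact p6_child_D_x hx hc0
  refine ⟨?_, ?_, ?_⟩
  · refine aq_O_of_le c0 ?_
    filter_upwards [p6_child_ok hk h] with k hok
    rw [abs_of_pos (cm_a_pos hc.cE_pos hok)]
    exact cm_a_le_d hc.cE_pos hok
  · refine aq_O_of_le (c0 ^ 2 / cmF (1 / c0)) ?_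
    filter_upwards [p6_child_ok hk h, hDx, p6_par_x_pos hc h.toP6Par] with k hok hDx hx
    rw [hDx]
    have hN := cm_N_pos hok
    have hE := cm_E_pos hc.cE_pos hok
    rw [abs_of_pos (by positivity)]
    have hE2 : (p6Child c0 D lam x r j0 k).P.E ≤ (p6Child c0 D lam x r j0 k).P.N ^ (-(1 / 2 : ℝ)) * (c0 * x k) ^ 2 := hok.E2
    set N := (p6Child c0 D lam x r j0 k).P.N with hNdef
    have hq : 0 < N ^ (-(1 / 2 : ℝ)) := Real.rpow_pos_of_pos hN _
    have hqq : N * (N ^ (-(1 / 2 : ℝ))) ^ 2 = 1 := by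
      rw [← Real.rpow_natCast, ← Real.rpow_mul hN.le]
      have : (-(1 / 2 : ℝ)) * ((2 : ℕ) : ℝ) = -1 := by norm_num
      rw [this, Real.rpow_neg_one]
      field_simp
    calc N * (p6Child c0 D lam x r j0 k).P.E ^ 2 ≤ N * (N ^ (-(1 / 2 : ℝ)) * (c0 * x k) ^ 2) ^ 2 :=
          mul_le_mul_of_nonneg_left (pow_le_pow_left₀ hE.le hE2 2) hN.le
      _ = (N * (N ^ (-(1 / 2 : ℝ))) ^ 2) * (c0 * x k) ^ 4 := by ring
      _ = (c0 * x k) ^ 4 := by rw [hqq, one_mul]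
      _ = c0 ^ 2 / cmF (1 / c0) * (c0 ^ 2 * cmF (1 / c0) * x k ^ 2 * x k ^ 2) := by field_simp
  · refine aq_O_of_le (1 / (c0 ^ 2 * cmF (1 / c0))) ?_
    filter_upwards [hDx] with k hDx
    rw [hDx, abs_of_nonneg (sq_nonneg _)]
    apply le_of_eq
    field_simp

/-- along an ultrafilter a failure which is not eventually excluded is eventually a failure on one fixed side -/
theorem p6_off_cases {cl Ch : ℝ} (hcon : ¬ ∀ᶠ k in U, ¬ P6Off (r k) cl Ch (x k)) :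
    (∀ᶠ k in U, r k (x k) < cl * x k) ∨ (∀ᶠ k in U, Ch * x k < r k (x k)) := by
  have h1 := (U.em _).resolve_left hcon
  refine U.eventually_or.1 ?_
  filter_upwards [h1] with k hk
  have hk' : P6Off (r k) cl Ch (x k) := not_not.1 hk
  unfold P6Off at hk'
  by_cases h5 : cl * x k ≤ r k (x k)
  · right
    by_contra h6
    exact hk' ⟨h5, not_lt.1 h6⟩
  · left
    exact not_le.1 h5

/-- the child at its final strength: range of the strength, admissibility -/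
theorem p6_child_final (hk : P6K c cl Ch 2 c0 β) (h : P6Wk fn U c D lam x r cl Ch 2 β j0) :
    (∀ᶠ k in U, 0 < (p6Child c0 D lam x r j0 k).P.d ^ 2 ∧ (p6Child c0 D lam x r j0 k).P.d ^ 2 ≤ (p6Child c0 D lam x r j0 k).P.d ^ 2) ∧
    (∀ᶠ k in U, (p6Child c0 D lam x r j0 k).Fam ((p6Child c0 D lam x r j0 k).P.d ^ 2)) := by
  constructor
  · filter_upwards [p6_child_ok hk h] with k hok
    exact ⟨by have := hok.d0; positivity, le_rfl⟩
  · filter_upwards [p6_child_ord_ev hk h] with k ho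
    exact ho.2 _ (sq_nonneg _) le_rfl

/-- case (a) of Lemma 6.5 -/
theorem p6_succ_small (hI : P6Imports fn c cκ Cκ cT CT) (hk : P6K c (p6Lo Cκ cT) (p6Hi cκ CT) 2 c0 β)
    (h : P6Wk fn U c D lam x r (p6Lo Cκ cT) (p6Hi cκ CT) 2 β j0) {z : ℕ → ℝ → ℝ} (hz : P6Succ fn U (p6Child c0 D lam x r j0) z)
    (hx : Tendsto x U (𝓝 0)) : ∀ᶠ k in U, ¬ P6Off (r k) (p6Lo Cκ cT) (p6Hi cκ CT) (x k) := by
  have hc := hk.ok
  have hclpos := hk.cl_pos
  have hChpos : 0 < p6Hi cκ CT := by linarith [hk.Ch_ge]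
  have hcκ := hI.κ_rng.1
  have hCκ : 0 < Cκ := lt_of_lt_of_le hI.κ_rng.1 hI.κ_rng.2
  obtain ⟨n1, n2, n3⟩ := p6_child_direct_num hk h
  have base := p6_sb_ev hk h hz
  obtain ⟨hlam', hfam⟩ := p6_child_final hk h
  obtain ⟨κ, hκ1, hκ2, hlim⟩ := hI.direct U (p6Child c0 D lam x r j0) (fun k => (p6Child c0 D lam x r j0 k).P.d ^ 2) x z
    (p6Lo Cκ cT / 4) (4 * p6Hi cκ CT) 4 (by positivity) (by positivity) (by norm_num) (p6_child_seq hk h) hlam' hfam hz.min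
    (p6_par_x_pos hc h.toP6Par) hx n1 n2 n3 (p6_child_reg hI.chord hk h hz)
  have hκ0 : 0 < κ := lt_of_lt_of_le hcκ hκ1
  have hxx : x =O[U] x := isBigO_refl _ _
  by_contra hcon
  rcases p6_off_cases hcon with hlo | hhi
  · have hl := hlim (3 / 4) (by norm_num)
    have hlt : (5 / 8) / Cκ < (3 / 4) / κ := by
      calc (5 / 8) / Cκ < (3 / 4) / Cκ := div_lt_div_of_pos_right (by norm_num) hCκ
        _ ≤ (3 / 4) / κ := div_le_div_of_nonneg_left (by norm_num) hκ0 hκ2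
    have hev := hl.eventually_const_lt hlt
    have sep : ∀ᶠ k in U, P6SepUp (r k) (z k) (x k) (1 / (2 * Cκ)) ((5 / 8) / Cκ) (3 / 4) 1 := by
      filter_upwards [base, hlo, hev] with k b hlo hev
      refine b.sep_up (by norm_num) ?_ ?_
      · have h1 : p6Lo Cκ cT ≤ 1 / (2 * Cκ) := (min_le_right _ _).trans (min_le_right _ _)
        have := mul_le_mul_of_nonneg_right h1 b.x0.le
        linarith
      · rw [lt_div_iff₀ b.x0] at hev
        rw [mul_comm (3 / 4 : ℝ) (x k)]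
        exact hev.le
    have ns := p6_nosep_up hI.chord hk h hz (y := x) (θ1 := 1 / (2 * Cκ)) (θ2 := (5 / 8) / Cκ) (c1 := 3 / 4) (c2 := 1)
      (by positivity) (by rw [div_lt_div_iff₀ (by positivity) hCκ]; nlinarith) (by norm_num) (by norm_num) hxx
      (by filter_upwards [base] with k b; exact ⟨b.x0, by linarith [b.x1]⟩)
    obtain ⟨k, h1, h2⟩ := (sep.and ns).exists
    exact h2 h1
  · have hl := hlim (3 / 2) (by norm_num)
    have hlt : (3 / 2) / κ < (7 / 4) / cκ := by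
      calc (3 / 2) / κ ≤ (3 / 2) / cκ := div_le_div_of_nonneg_left (by norm_num) hcκ hκ1
        _ < (7 / 4) / cκ := div_lt_div_of_pos_right (by norm_num) hcκ
    have hev := hl.eventually_lt_const hlt
    have hx4 : ∀ᶠ k in U, x k ≤ 1 / 2 := hx.eventually_le_const (by norm_num)
    have sep : ∀ᶠ k in U, P6SepDn (r k) (z k) (x k) ((7 / 4) / cκ) (2 / cκ) 1 (3 / 2) (2 * p6Hi cκ CT) := by
      filter_upwards [base, hhi, hev, hx4] with k b hhi hev hx4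
      have hx0 := b.x0
      refine b.sep_dn (by norm_num) (by linarith) ?_ ?_ ?_
      · have h1 : 2 / cκ ≤ p6Hi cκ CT := (le_max_right _ _).trans (le_max_right _ _)
        have := mul_le_mul_of_nonneg_right h1 b.x0.le
        linarith
      · rw [div_lt_iff₀ b.x0] at hev
        rw [mul_comm (3 / 2 : ℝ) (x k)]
        exact hev.le
      · have hu0 : (D k).P.u0 ≤ 3 / 2 * x k := by linarith [b.ux]
        have h1 : r k (3 / 2 * x k) ≤ r k (2 * x k) :=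
          b.rM ⟨hu0, by linarith⟩ ⟨by linarith [b.ux], by linarith⟩ (by linarith)
        have h2 := (b.reg (2 * x k) le_rfl (by linarith) (by linarith [b.ux])).2
        linarith
    have ns := p6_nosep_dn hI.chord hk h hz (y := x) (θ1 := (7 / 4) / cκ) (θ2 := 2 / cκ) (c1 := 1) (c2 := 3 / 2)
      (Cr := 2 * p6Hi cκ CT) (by positivity) (div_lt_div_of_pos_right (by norm_num) hcκ) (by norm_num) (by norm_num) hxx
      (by filter_upwards [base, hx4] with k b hx4; exact ⟨b.x0, by linarith⟩)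
    obtain ⟨k, h1, h2⟩ := (sep.and ns).exists
    exact h2 h1

/-- case (b) of Lemma 6.5 -/
theorem p6_succ_macro (hI : P6Imports fn c cκ Cκ cT CT) (hk : P6K c (p6Lo Cκ cT) (p6Hi cκ CT) 2 c0 β)
    (h : P6Wk fn U c D lam x r (p6Lo Cκ cT) (p6Hi cκ CT) 2 β j0) {z : ℕ → ℝ → ℝ} (hz : P6Succ fn U (p6Child c0 D lam x r j0) z)
    {c1 : ℝ} (hc1 : 0 < c1) (hx : ∀ᶠ k in U, c1 ≤ x k) : ∀ᶠ k in U, ¬ P6Off (r k) (p6Lo Cκ cT) (p6Hi cκ CT) (x k) := by
  have hc := hk.ok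
  have hc0 := hk.c0_pos
  have hcT := hI.T_rng.1
  have hCT : 0 < CT := lt_of_lt_of_le hI.T_rng.1 hI.T_rng.2
  have hf : 0 < cmF (1 / c0) := cm_f_pos _
  have base := p6_sb_ev hk h hz
  obtain ⟨hlam', hfam⟩ := p6_child_final hk h
  obtain ⟨q, hq, hlim⟩ := hI.macr U (p6Child c0 D lam x r j0) (fun k => (p6Child c0 D lam x r j0 k).P.d ^ 2) x z
    (min c1 (c0 ^ 2 * cmF (1 / c0))) (lt_min hc1 (by positivity)) (p6_child_seq hk h) hlam' hfam hz.min
    (by filter_upwards [hx, base] with k hx b; exact ⟨(min_le_left _ _).trans hx, b.x1⟩)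
    (by
      filter_upwards [base] with k b
      rw [show (p6Child c0 D lam x r j0 k).P.e ((p6Child c0 D lam x r j0 k).P.d ^ 2) (x k) = c0 ^ 2 * cmF (1 / c0) * x k ^ 2
        from p6_child_D_x b.x0 hc0]
      exact mul_le_mul_of_nonneg_right (min_le_right _ _) (sq_nonneg _))
  obtain ⟨xi, hxi, hxlim⟩ := aq_ultra_lim_Icc U (f := x) (a := c1) (b := 1)
    (by filter_upwards [hx, base] with k hx b; exact ⟨hx, b.x1⟩)
  have hxi0 : 0 < xi := lt_of_lt_of_le hc1 hxi.1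
  have hxx : x =O[U] x := isBigO_refl _ _
  by_contra hcon
  rcases p6_off_cases hcon with hlo | hhi
  · have hv0 : 0 < 7 / 10 * xi := by positivity
    have hv1 : 7 / 10 * xi < 1 := by linarith [hxi.2]
    have hl := hlim _ hv0 hv1
    have hqv := (hq _ hv0 hv1).1
    have hev := hl.eventually_const_lt (show 13 / 20 * cT * xi < q (7 / 10 * xi) by nlinarith)
    have e1 := hxlim.eventually_lt_const (show xi < 13 / 12 * xi by linarith)
    have e2 := hxlim.eventually_const_lt (show 14 / 15 * xi < xi by linarith)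
    have sep : ∀ᶠ k in U, P6SepUp (r k) (z k) (x k) (cT / 3) (3 / 5 * cT) (3 / 4) 1 := by
      filter_upwards [base, hlo, hev, e1, e2] with k b hlo hev e1 e2
      refine b.sep_up (by norm_num) ?_ ?_
      · have h1 : p6Lo Cκ cT ≤ cT / 3 := (min_le_right _ _).trans (min_le_left _ _)
        have := mul_le_mul_of_nonneg_right h1 b.x0.le
        linarith
      · have h1 : z k (7 / 10 * xi) ≤ z k (3 / 4 * x k) :=
          b.zM ⟨by linarith [b.ju, b.ux], hv1.le⟩ ⟨by linarith [b.ju, b.ux, b.x0], by linarith [b.x1]⟩ (by linarith)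
        have h2 : 3 / 5 * cT * x k ≤ 13 / 20 * cT * xi := by nlinarith
        linarith
    have ns := p6_nosep_up hI.chord hk h hz (y := x) (θ1 := cT / 3) (θ2 := 3 / 5 * cT) (c1 := 3 / 4) (c2 := 1)
      (by positivity) (by linarith) (by norm_num) (by norm_num) hxx
      (by filter_upwards [base] with k b; exact ⟨b.x0, by linarith [b.x1]⟩)
    obtain ⟨k, h1, h2⟩ := (sep.and ns).exists
    exact h2 h1
  · rcases le_or_gt (1 / 2) xi with hhalf | hhalf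
    · have e1 := hxlim.eventually_const_lt (show 1 / 3 < xi by linarith)
      obtain ⟨k, b, hhi, e1⟩ := (base.and (hhi.and e1)).exists
      have h1 := (b.rR (x k) ⟨by linarith [b.ux, b.x0], b.x1⟩).2
      have h2 : (3:ℝ) ≤ p6Hi cκ CT := le_max_left _ _
      nlinarith [b.x0]
    · have hv0 : 0 < 8 / 5 * xi := by positivity
      have hv1 : 8 / 5 * xi < 1 := by linarith
      have hl := hlim _ hv0 hv1
      have hqv := (hq _ hv0 hv1).2
      have hev := hl.eventually_lt_const (show q (8 / 5 * xi) < 17 / 10 * CT * xi by nlinarith)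
      have e1 := hxlim.eventually_lt_const (show xi < 16 / 15 * xi by linarith)
      have e2 := hxlim.eventually_const_lt (show 17 / 20 * xi < xi by linarith)
      have sep : ∀ᶠ k in U, P6SepDn (r k) (z k) (x k) (2 * CT) (3 * CT) 1 (3 / 2) (1 / c1) := by
        filter_upwards [base, hhi, hev, e1, e2, hx] with k b hhi hev e1 e2 hx
        have hx0 := b.x0
        have h32 : 3 / 2 * x k ≤ 8 / 5 * xi := by linarith
        refine b.sep_dn (by norm_num) (by linarith) ?_ ?_ ?_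
        · have h1 : 3 * CT ≤ p6Hi cκ CT := (le_max_left _ _).trans (le_max_right _ _)
          have := mul_le_mul_of_nonneg_right h1 b.x0.le
          linarith
        · have h1 : z k (3 / 2 * x k) ≤ z k (8 / 5 * xi) :=
            b.zM ⟨by linarith [b.ju, b.ux], by linarith⟩ ⟨by linarith [b.ju, b.ux], hv1.le⟩ h32
          have h2 : 17 / 10 * CT * xi ≤ 2 * CT * x k := by nlinarith
          linarith
        · have h1 := (b.rR (3 / 2 * x k) ⟨by linarith [b.ux], by linarith⟩).2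
          have h2 : 1 ≤ 1 / c1 * x k := by
            rw [div_mul_eq_mul_div, one_mul, le_div_iff₀ hc1]; linarith
          linarith
      have ns := p6_nosep_dn hI.chord hk h hz (y := x) (θ1 := 2 * CT) (θ2 := 3 * CT) (c1 := 1) (c2 := 3 / 2)
        (Cr := 1 / c1) (by positivity) (by linarith) (by norm_num) (by norm_num) hxx
        (by filter_upwards [base, e1] with k b e1; exact ⟨b.x0, by linarith⟩)
      obtain ⟨k, h1, h2⟩ := (sep.and ns).exists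
      exact h2 h1

/-- **C6 = PE Lemma 6.5**   TEX[PE:reg:successful-child]: a successful child error excludes a parent failure at `x` -/
theorem p6_succ (hI : P6Imports fn c cκ Cκ cT CT) (hk : P6K c (p6Lo Cκ cT) (p6Hi cκ CT) 2 c0 β)
    (h : P6Wk fn U c D lam x r (p6Lo Cκ cT) (p6Hi cκ CT) 2 β j0) {z : ℕ → ℝ → ℝ} (hz : P6Succ fn U (p6Child c0 D lam x r j0) z) :
    ∀ᶠ k in U, ¬ P6Off (r k) (p6Lo Cκ cT) (p6Hi cκ CT) (x k) := by
  rcases aq_ultra_zero_or_pos U x with h0 | ⟨c1, hc1, h1⟩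
  · exact p6_succ_small hI hk h hz h0
  · refine p6_succ_macro hI hk h hz hc1 ?_
    filter_upwards [h1, p6_par_x_pos hk.ok h.toP6Par] with k h1 h2
    rwa [abs_of_pos h2] at h1

/-- **C7** (first half of the proof of Prop. 6.6): sufficient local strength excludes a failure at `x` -/
theorem p6_strong (hI : P6Imports fn c cκ Cκ cT CT) (hc : c.Ok)
    (h : P6Par fn U c D lam x r (p6Lo Cκ cT) (p6Hi cκ CT) 2)
    (hs : (fun k => x k ^ 2) =O[U] (fun k => (D k).P.e (lam k) (x k))) :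
    ∀ᶠ k in U, ¬ P6Off (r k) (p6Lo Cκ cT) (p6Hi cκ CT) (x k) :=
  p6ch_strong hI hc h hs

end Claimed.Agent.R286

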